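import Crest.Agent.N250.Master
import Crest.Agent.N250.T.Stm

/-!
# Row 250, block A (helper25): definitions and leaves of the barrier argument (note h25-A)

`pot` heat potential of a measure on spacetime, `TT` the scale functional, `Cfg` the normalised
configuration at a contact point, `psi` the barrier.
-/

set_option autoImplicit false
open MeasureTheory Set Filter Topology
open scoped ContDiff InnerProductSpace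
open Crest.GeometryTopology.MCF

noncomputable section

namespace Crest.Agent.N250.A

/-! ### definitions -/

/-- heat potential at `p` of the mass of `ν` strictly before `p`, lags shifted by `σ` -/
def pot (ν : Measure ST) (σ : ℝ) (p : ST) : ℝ :=
  ∫ q in {q : ST | q.2 < p.2}, gau q.1 (p.2 - q.2 + σ) p.1 ∂ν

/-- inverse effective scale of a mass element seen from the origin -/
def isc (σ : ℝ) (q : ST) : ℝ := (√(σ - q.2) + ‖q.1‖) / (σ - q.2)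

/-- the part of `pot ν σ 0` of effective scale below `r` (concave, increasing in `r`) -/
def TT (ν : Measure ST) (σ r : ℝ) : ℝ :=
  ∫ q in {q : ST | q.2 < 0}, gau q.1 (σ - q.2) 0 * min 1 (r * isc σ q) ∂ν

/-- the barrier normalised at the origin -/
def rad (ν : Measure ST) (σ : ℝ) (p : ST) : ℝ := Real.exp (pot ν σ 0 - pot ν σ p - 2)

/-- no critical point `y ≠ x` of the distance from `x` on the slice within `r` -/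
def NoCrit (F : Mv) (p : ST) (r : ℝ) : Prop :=
  ∀ y ∈ F.sl p.2, y ≠ p.1 → F.PL (y, p.2) (p.1 - y) = 0 → r < dist p.1 y

/-- area ratios of one measure -/
def Rt (μ : Measure E) (Λ : ℝ) : Prop :=
  ∀ y r, 0 < r → μ (Metric.ball y r) ≤ ENNReal.ofReal (Λ * r ^ 2)

/-- `m = μ_t dt` -/
def IsStm (F : Mv) (m : Measure ST) : Prop :=
  ∀ g : ST → ENNReal, Measurable g →
    Measurable (fun t => ∫⁻ x, g (x, t) ∂F.mu t) ∧ ∫⁻ q, g q ∂m = ∫⁻ t, ∫⁻ x, g (x, t) ∂F.mu t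

/-- second spatial derivative in the direction `v` -/
def d2 (g : ST → ℝ) (p : ST) (v : E) : ℝ := fderiv ℝ (fun q => fderiv ℝ g q (v, 0)) p (v, 0)

/-- the heat operator of a flow with normal `n`, applied to an ambient function -/
def hb (n : E) (g : ST → ℝ) (p : ST) : ℝ :=
  fderiv ℝ g p (0, 1) - (∑ a, d2 g p (ee a) - d2 g p n)

/-- normalised configuration: the barrier is `1` at the origin and holds at times `≤ -1` -/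
structure Cfg (F : Mv) (ν : Measure ST) (σ Λ G ε B R : ℝ) : Prop where
  fl : ∃ a b, a < -(2 * R) ^ 2 ∧ 1 ≤ b ∧ Fl F (Ioo a b) Λ
  lgb : LGB F G
  fin : IsFiniteMeasure ν
  σ_pos : 0 < σ
  σ_le : σ ≤ 1
  pot_le : pot ν σ 0 ≤ 2 * Real.log R + 1
  domA : ∀ D t₁ t₂, D ≤ R → -R ^ 2 ≤ t₁ → t₂ ≤ 0 →
    ENNReal.ofReal (ε / 2) * F.stI ((Metric.ball 0 D ×ˢ univ).indicator F.A2) t₁ t₂ ≤
      ν (Metric.ball 0 D ×ˢ Ioo t₁ t₂)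
  domH : ∀ D t₁ t₂, D ≤ R → -R ^ 2 ≤ t₁ → t₂ ≤ 0 →
    F.stI ((Metric.ball 0 D ×ˢ univ).indicator fun p => F.H p ^ 2) t₁ t₂ ≤
      ENNReal.ofReal B⁻¹ *
        (ν (Metric.ball 0 D ×ˢ Ioo t₁ t₂) + ENNReal.ofReal (D ^ 2 * (t₂ - t₁)))
  good : ∀ p ∈ F.M, ‖p.1‖ ≤ R → p.2 ∈ Icc (-R ^ 2) (-1) →
    F.Reach p (rad ν σ p) ∧ NoCrit F p (rad ν σ p)

/-- density of the source seen from time `t` (final time `0`, centre `y`) -/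
def dens (F : Mv) (y : E) (ε B t : ℝ) (q : ST) : ℝ :=
  ε * F.A2 q * (1 - ((t - q.2) / q.2) ^ 2) + ε * B * F.dev (y, 0) q ^ 2

/-- the potential of the flow (mass after the time `a₀`) -/
def UU (F : Mv) (m : Measure ST) (y : E) (ε B σ a₀ : ℝ) (p : ST) : ℝ :=
  ∫ q in {q : ST | a₀ < q.2 ∧ q.2 < p.2}, gau q.1 (p.2 - q.2 + σ) p.1 * dens F y ε B p.2 q ∂m

/-- the barrier -/
def psi (F : Mv) (m : Measure ST) (y : E) (ε B σ a₀ θ₁ : ℝ) (p : ST) : ℝ :=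
  B⁻¹ * √√(θ₁ * -p.2) * Real.exp (-‖p.1 - y‖ ^ 2 / (32 * -p.2) - UU F m y ε B σ a₀ p)

/-! ### kernel leaves (pure measure theory) -/

/-- alternative I: much mass at some scale makes the barrier large at most points of a slice -/
def KIS : Prop := ∀ Λ L e Λ' r₁ : ℝ, 0 ≤ Λ → 1 ≤ L → 0 < e → 0 < Λ' → ∃ Λ₀ R₀ : ℝ, 0 < Λ₀ ∧
  ∀ (ν : Measure ST) [IsFiniteMeasure ν] (σ R : ℝ), 0 < σ → σ ≤ 1 → R₀ ≤ R →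
    pot ν σ 0 ≤ 2 * Real.log R + 1 →
    (∃ k : ℕ, (8 : ℝ) ^ k ≤ R ∧ Λ₀ * (k + 1) ≤ TT ν σ (2 ^ k)) →
    ∃ r, 1 ≤ r ∧ r₁ ≤ r ∧ L * r ≤ R ∧ ∀ μ : Measure E, Rt μ Λ →
      μ ({y | rad ν σ (y, -r ^ 2) < Λ' * r} ∩ Metric.ball 0 (L * r)) ≤ ENNReal.ofReal (e * r ^ 2)

/-- masses of compact sets -/
def KMassS : Prop := ∀ D a₀ : ℝ, 0 < D → 0 < a₀ → ∃ C : ℝ, 0 < C ∧
  ∀ (ν : Measure ST) [IsFiniteMeasure ν] (σ : ℝ), 0 < σ → σ ≤ 1 →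
    ν (Metric.ball 0 D ×ˢ Icc (-D ^ 2) (-a₀)) ≤ ENNReal.ofReal (C * TT ν σ 1)

/-- away from atoms the barrier is large compared with small scales, at some time -/
def KAtS : Prop := ∀ Λ L e Λ' Λ₀ τ ρ D : ℝ, 0 ≤ Λ → 1 ≤ L → 0 < e → 0 < Λ' → 1 ≤ τ → 0 < ρ →
  ∃ r₀ : ℝ, 0 < r₀ ∧ ∀ r, 0 < r → r ≤ r₀ →
  ∀ (ν : Measure ST) [IsFiniteMeasure ν] (σ : ℝ) (y₀ : E), 0 < σ → σ ≤ 1 → ‖y₀‖ ≤ D →
    TT ν σ 1 ≤ Λ₀ → ν (Metric.ball y₀ ρ ×ˢ Icc (-(4 * τ)) (-τ)) ≤ ENNReal.ofReal τ →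
    ∃ s ∈ Icc (-(2 * τ)) (-τ), ∀ μ : Measure E, Rt μ Λ →
      μ ({y | rad ν σ (y, s) < Λ' * r} ∩ Metric.ball y₀ (L * r)) ≤ ENNReal.ofReal (e * r ^ 2)

/-- persistent mass near the origin makes the barrier grow like a power on whole spheres -/
def KSphS : Prop := ∀ Λ₀ γ D : ℝ, 0 < γ → 0 < D → ∃ c β : ℝ, 0 < c ∧ 0 < β ∧ ∀ ρ₁ : ℝ,
  ∃ (τ : ℝ) (K : ℕ), 1 ≤ τ ∧ ∀ (ν : Measure ST) [IsFiniteMeasure ν] (σ : ℝ), 0 < σ → σ ≤ 1 →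
    (∀ k : ℕ, k ≤ K → TT ν σ (2 ^ k) ≤ Λ₀ * (k + 1)) →
    (∀ t₁ t₂, -τ ^ 2 ≤ t₁ → t₁ ≤ t₂ → t₂ ≤ -1 →
      ENNReal.ofReal (γ * (t₂ - t₁)) ≤ ν (Metric.ball 0 D ×ˢ Ioo t₁ t₂)) →
    ∃ ρ ∈ Icc ρ₁ τ, ∃ s ∈ Icc (-τ ^ 2) (-1), ∀ y : E, ‖y‖ = ρ → c * ρ ^ β ≤ rad ν σ (y, s)

/-! ### geometric leaves -/

/-- the spacetime measure -/
def StmS : Prop := ∀ (F : Mv) (I : Set ℝ) (Λ : ℝ), IsOpen I → Fl F I Λ → ∃ m, IsStm F m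

/-- spacetime curvature bound on parabolic cylinders -/
def A2S : Prop := ∀ Λ G : ℝ, ∃ C : ℝ, 0 < C ∧ ∀ (F : Mv) (I : Set ℝ) (y : E) (r t₁ t₂ : ℝ),
  IsOpen I → Fl F I Λ → LGB F G → 0 < r → Icc t₁ t₂ ⊆ I → t₂ - t₁ ≤ r ^ 2 →
  F.stI ((Metric.ball y r ×ˢ univ).indicator F.A2) t₁ t₂ ≤ ENNReal.ofReal (C * r ^ 2)

/-- good points -/
def A1S : Prop := ∀ Λ e : ℝ, 0 < e → ∃ L Λ' d : ℝ, 1 ≤ L ∧ 0 < Λ' ∧ 0 < d ∧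
  ∀ (F : Mv) (t : ℝ) (y : E) (r : ℝ) (Z : Set E), F.Reg → F.AR Λ → 0 < r →
    (∀ x ∈ F.sl t, dist x y < L * r → x ∉ Z → F.Reach (x, t) (Λ' * r)) →
    F.mu t (Z ∩ Metric.ball y (L * r)) ≤ ENNReal.ofReal (d * r ^ 2) → F.Fs t y (r ^ 2) ≤ 1 + e

/-- White's theorem from one slice and one centre -/
def W1S : Prop := ∀ Λ : ℝ, ∃ e c : ℝ, 0 < e ∧ 0 < c ∧ ∀ (F : Mv) (a b t : ℝ) (y : E) (r : ℝ),
  Fl F (Ioo a b) Λ → 0 < r → a < t → t + r ^ 2 ≤ b → F.Fs t y (r ^ 2) ≤ 1 + e →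
  ∀ p ∈ F.M ∩ PC (y, t + r ^ 2) (c * r), F.Reach p (c * r)

/-- two-point maximum principle: `log |x - y|` is a supersolution -/
def TwoS : Prop := ∀ F : Mv, F.IsMCF → ∀ (x y : E) (t : ℝ) (g : ST → ℝ), (x, t) ∈ F.M →
  (y, t) ∈ F.M → x ≠ y → ContDiffAt ℝ 2 g (x, t) →
  (∀ᶠ q : ST × E in 𝓝 ((x, t), y), q.1 ∈ F.M → (q.2, q.1.2) ∈ F.M → q.1.2 < t →
    g q.1 ≤ Real.log (dist q.1.1 q.2)) →
  Real.log (dist x y) ≤ g (x, t) → 0 ≤ hb (F.n (x, t)) g (x, t)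

/-- no close critical point and small curvature give the two balls -/
def CRS : Prop := ∃ η : ℝ, 0 < η ∧ ∀ (F : Mv) (p : ST) (r : ℝ), F.Reg → p ∈ F.M → 0 < r →
  IsClosed (F.sl p.2) → NoCrit F p (2 * r) →
  (∀ x ∈ F.sl p.2, dist x p.1 ≤ 2 * r → F.A2 (x, p.2) ≤ η / r ^ 2) → F.Reach p r

/-- nondegenerate critical pairs persist as local minima -/
def PersS : Prop := ∀ (F : Mv) (x y : E) (t : ℝ), F.Reg → (y, t) ∈ F.M → x ≠ y →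
  F.PL (y, t) (x - y) = 0 → F.A2 (y, t) * dist x y ^ 2 < 1 →
  ∀ᶠ q : ST × E in 𝓝 ((x, t), y), (q.2, q.1.2) ∈ F.M → ∃ z, (z, q.1.2) ∈ F.M ∧ z ≠ q.1.1 ∧
    F.PL (z, q.1.2) (q.1.1 - z) = 0 ∧ dist q.1.1 z ≤ dist q.1.1 q.2

/-- alternative I -/
def AltIS : Prop := ∀ Λ K η : ℝ, 0 < η → ∃ Λ₀ R₀ : ℝ, 0 < Λ₀ ∧
  ∀ (F : Mv) (ν : Measure ST) (σ G ε B R : ℝ), R₀ ≤ R → Cfg F ν σ Λ G ε B R →
    (∃ k : ℕ, (8 : ℝ) ^ k ≤ R ∧ Λ₀ * (k + 1) ≤ TT ν σ (2 ^ k)) →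
    ∀ x, (x, 0) ∈ F.M → ‖x‖ ≤ K → F.A2 (x, 0) ≤ η

/-- alternative II -/
def AltIIS : Prop := ∀ Λ G ε K η Λ₀ : ℝ, 0 < ε → 0 < η → ∃ B₀ : ℝ,
  ∀ (F : Mv) (ν : Measure ST) (σ B R : ℝ), B₀ ≤ B → B₀ ≤ R → Cfg F ν σ Λ G ε B R →
    (∀ k : ℕ, (8 : ℝ) ^ k ≤ R → TT ν σ (2 ^ k) ≤ Λ₀ * (k + 1)) →
    ∀ x, (x, 0) ∈ F.M → ‖x‖ ≤ K → F.A2 (x, 0) ≤ η

/-- flatness at a normalised configuration -/
def KeyS : Prop := ∀ Λ G ε K η : ℝ, 0 < ε → 0 < η → ∃ B₀ : ℝ,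
  ∀ (F : Mv) (ν : Measure ST) (σ B R : ℝ), B₀ ≤ B → B₀ ≤ R → Cfg F ν σ Λ G ε B R →
    ∀ x, (x, 0) ∈ F.M → ‖x‖ ≤ K → F.A2 (x, 0) ≤ η

theorem keyS_of (h1 : AltIS) (h2 : AltIIS) : KeyS := by
  intro Λ G ε K η hε hη
  obtain ⟨Λ₀, R₀, -, h1⟩ := h1 Λ K η hη
  obtain ⟨B₀, h2⟩ := h2 Λ G ε K η Λ₀ hε hη
  refine ⟨max B₀ R₀, fun F ν σ B R hB hR hc => ?_⟩
  by_cases h : ∃ k : ℕ, (8 : ℝ) ^ k ≤ R ∧ Λ₀ * (k + 1) ≤ TT ν σ (2 ^ k)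
  · exact h1 F ν σ G ε B R ((le_max_right _ _).trans hR) hc h
  · refine h2 F ν σ B R ((le_max_left _ _).trans hB) ((le_max_left _ _).trans hR) hc ?_
    intro k hk
    by_contra h'
    exact h ⟨k, hk, (not_le.1 h').le⟩

/-! ### the barrier -/

/-- the barrier is continuous, at most `B⁻¹ (θ₁ θ)^{1/4}`, and bounded below on the flow
independently of `σ` -/
def PsiCS : Prop := ∀ (F : Mv) (a Λ G : ℝ) (m : Measure ST), Cpt F a Λ G → IsStm F m →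
  ∀ (y : E) (ε B θ₁ : ℝ), 0 ≤ ε → 0 < B → 0 < θ₁ →
    (∃ c : ℝ, 0 < c ∧ ∀ σ, 0 < σ → ∀ p ∈ F.M, p.2 ∈ Icc (3 * a / 4) (-θ₁) →
      c ≤ psi F m y ε B σ (3 * a / 4) θ₁ p) ∧
    ∀ σ, 0 < σ → ContinuousOn (psi F m y ε B σ (3 * a / 4) θ₁) (univ ×ˢ Iio 0) ∧
      ∀ p : ST, p.2 < 0 → 0 ≤ UU F m y ε B σ (3 * a / 4) p

/-- the logarithm of the barrier is a strict subsolution (support function from the past) -/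
def PsiSubS : Prop := ∀ Λ G : ℝ, ∃ ε₀ : ℝ, 0 < ε₀ ∧
  ∀ (F : Mv) (a : ℝ) (m : Measure ST), Cpt F a Λ G → IsStm F m →
  ∀ (y : E) (ε B σ θ₁ : ℝ) (p : ST), 0 ≤ ε → ε ≤ ε₀ → 0 < B → 0 < σ → 0 < θ₁ → σ ≤ -p.2 →
    ∃ g : ST → ℝ, ContDiffAt ℝ 2 g p ∧ g p = Real.log (psi F m y ε B σ (3 * a / 4) θ₁ p) ∧
      (∀ᶠ q in 𝓝 p, q.2 < p.2 → g q ≤ Real.log (psi F m y ε B σ (3 * a / 4) θ₁ q)) ∧
      ∀ n : E, ‖n‖ = 1 → hb n g p < 0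

/-- rescaling at a point gives a normalised configuration -/
def CfgS : Prop := ∀ Λ G ε B₀ : ℝ, 0 < ε → ε ≤ 1 → ∃ B₁ : ℝ, 0 < B₁ ∧
  ∀ (F : Mv) (a : ℝ) (m : Measure ST), Cpt F a Λ G → IsStm F m →
  ∀ (y : E) (B σ θ₁ : ℝ) (p : ST), B₁ ≤ B → 0 < σ → 0 < θ₁ → p.2 ∈ Icc (a / 2) (-θ₁) →
    σ ≤ psi F m y ε B σ (3 * a / 4) θ₁ p ^ 2 →
    (∀ q ∈ F.M, 3 * a / 4 < q.2 → q.2 ≤ p.2 - psi F m y ε B σ (3 * a / 4) θ₁ p ^ 2 →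
      F.Reach q (psi F m y ε B σ (3 * a / 4) θ₁ q) ∧
        NoCrit F q (psi F m y ε B σ (3 * a / 4) θ₁ q)) →
    ∃ (ν : Measure ST) (σ' B' R : ℝ), B₀ ≤ B' ∧ B₀ ≤ R ∧
      Cfg (F.para p (psi F m y ε B σ (3 * a / 4) θ₁ p)⁻¹) ν σ' Λ G ε B' R

/-- the barrier holds -/
def BarS : Prop := ∀ (F : Mv) (a Λ G : ℝ) (m : Measure ST), Cpt F a Λ G → IsStm F m →
  ∃ ε₀ : ℝ, 0 < ε₀ ∧ ∀ ε, 0 < ε → ε ≤ ε₀ → ∃ B θ₀ : ℝ, 0 < B ∧ 0 < θ₀ ∧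
    ∀ (y : E) (θ₁ : ℝ), 0 < θ₁ → θ₁ ≤ θ₀ → ∃ σ₀ : ℝ, 0 < σ₀ ∧ ∀ σ, 0 < σ → σ ≤ σ₀ →
      ∀ p ∈ F.M, 3 * a / 4 < p.2 → p.2 ≤ -θ₁ → F.Reach p (psi F m y ε B σ (3 * a / 4) θ₁ p)

/-- at almost self-similar scales the barrier is large at most points of small balls -/
def FinS : Prop := ∀ Λ G : ℝ, ∃ ε₀ : ℝ, 0 < ε₀ ∧ ∀ ε B R L e Λ' : ℝ, 0 < ε → ε ≤ ε₀ → 0 < B →
  1 ≤ L → 0 < e → 0 < Λ' → ∃ κ η L₁ : ℝ, 0 < κ ∧ κ ≤ 1 ∧ 0 < η ∧ 4 ≤ L₁ ∧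
  ∀ (F : Mv) (a : ℝ) (m : Measure ST), Cpt F a Λ G → IsStm F m →
  ∀ (y x : E) (r σ : ℝ), 0 < r → 0 < σ → σ ≤ (κ * r) ^ 2 → a < -(L₁ * r) ^ 2 →
    F.Fg (y, 0) (L₁ * r) - F.Fg (y, 0) (r / L₁) < η → dist x y < R * r →
    F.mu (-r ^ 2 - (κ * r) ^ 2)
      ({z | psi F m y ε B σ (3 * a / 4) (r ^ 2) (z, -r ^ 2 - (κ * r) ^ 2) < Λ' * (κ * r)} ∩
        Metric.ball x (L * (κ * r))) ≤ ENNReal.ofReal (e * (κ * r) ^ 2)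

end Crest.Agent.N250.A

end
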