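import Crest.Agent.N250.A.Good
import Crest.Agent.N250.A.Stm

/-! # Row 250, block A (helper41): `A1S` -/

set_option autoImplicit false
open MeasureTheory Set Filter Topology Metric
open Crest.GeometryTopology.MCF

namespace Crest.Agent.N250.A

lemma norm_n_of_reg {F : Mv} (h : F.Reg) {p : ST} (hp : p ∈ F.M) : ‖F.n p‖ = 1 := by
  obtain ⟨W, φ, hW, hL⟩ := h p hp
  rw [hL.n_eq p hW hp, norm_smul, norm_inv, norm_norm,
    inv_mul_cancel₀ (norm_ne_zero_iff.2 (hL.ne p hW))]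

lemma ar_mono {F : Mv} {Λ Λ' : ℝ} (h : F.AR Λ) (hl : Λ ≤ Λ') : F.AR Λ' := fun t y r hr =>
  (h t y r hr).trans (ENNReal.ofReal_le_ofReal (mul_le_mul_of_nonneg_right hl (sq_nonneg r)))

lemma meas_sl {F : Mv} (hF : F.Reg) (t : ℝ) : MeasurableSet (F.sl t) := by
  have : IsLocallyClosed F.M := by
    refine ((isLocallyClosed_tfae F.M).out 0 2).2 fun p hp => ?_
    obtain ⟨W, φ, hW, h⟩ := hF p hp
    refine ⟨W, h.isOpen.mem_nhds hW, ?_⟩
    have : (Subtype.val ⁻¹' F.M : Set W) = (fun q : W => φ q) ⁻¹' {0} := by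
      ext q; exact h.mem q q.2
    rw [this]
    exact isClosed_singleton.preimage h.sm.continuousOn.domRestrict
  obtain ⟨U, Z, hU, hZ, e⟩ := this
  have : MeasurableSet F.M := e ▸ hU.measurableSet.inter hZ.measurableSet
  exact measurable_prodMk_right this

theorem a1S_holds : A1S := by
  intro Λ e he
  obtain ⟨K, δ, η, hK, hδ, hη, h⟩ := good (le_max_right Λ 0) he
  refine ⟨K, K / η, δ, hK, by positivity, hδ, fun F t y r Z hF hA hr hR hZ => ?_⟩
  refine h F t y r {x | x ∈ F.sl t ∧ dist x y < K * r ∧ x ∉ Z} hr (ar_mono hA (le_max_left _ _))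
    (fun x hx => ⟨hx.1, norm_n_of_reg hF hx.1, ?_⟩) (le_trans ?_ hZ) y (mem_ball_self hr) _
    ⟨by nlinarith [sq_nonneg r], le_rfl⟩
  · have := cone_of_reach (η := η) (hR x hx.1 hx.2.1 hx.2.2) (by positivity)
      (norm_n_of_reg hF hx.1)
    exact this.mono le_rfl (le_of_eq (by field_simp))
  · unfold Mv.mu
    rw [Measure.restrict_apply' (meas_sl hF t), Measure.restrict_apply' (meas_sl hF t)]
    refine measure_mono fun x hx => ⟨⟨?_, hx.1.1⟩, hx.2⟩
    by_contra hn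
    exact hx.1.2 ⟨hx.2, hx.1.1, hn⟩

end Crest.Agent.N250.A
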