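import Crest.Agent.N250.A.Stm
import Crest.Agent.N250.FV.Main

/-!
# Row 250, block A (helper35): the spacetime curvature bound `A2S`
-/

set_option autoImplicit false
open MeasureTheory Set Filter Topology
open scoped ContDiff InnerProductSpace
open Crest.GeometryTopology.MCF

noncomputable section

namespace Crest.Agent.N250.A

theorem H_sq_le {F : Mv} (hF : F.Reg) {y x : E} {r t t₂ : ℝ} (hr : 0 < r) (h1 : t ≤ t₂)
    (h2 : t₂ - t ≤ r ^ 2) (hx : (x, t) ∈ F.M) (hy : x ∈ Metric.ball y (2 * r)) :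
    F.H (x, t) ^ 2 ≤ 16 * Real.pi * Real.exp 1 * r ^ 2 *
      (F.dev (y, t₂ + r ^ 2) (x, t) ^ 2 * Phi (y, t₂ + r ^ 2) (x, t)) + 2 / r ^ 2 := by
  set τ := t₂ + r ^ 2 - t with hτ
  have hr2 : 0 < r ^ 2 := by positivity
  have a1 : r ^ 2 ≤ τ := by linarith
  have a2 : τ ≤ 2 * r ^ 2 := by linarith
  have a0 : 0 < τ := hr2.trans_le a1
  have hd : ‖x - y‖ ≤ 2 * r := (mem_ball_iff_norm.1 hy).le
  have hn : |F.xn y (x, t)| ≤ 2 * r := by
    refine (abs_real_inner_le_norm _ _).trans ?_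
    rw [Tr.n_unit hF hx, mul_one]; exact hd
  have b1 : (F.xn y (x, t) / (2 * τ)) ^ 2 ≤ 1 / r ^ 2 := by
    rw [div_pow, div_le_div_iff₀ (by positivity) hr2]
    have := sq_le_sq' (abs_le.1 hn).1 (abs_le.1 hn).2
    nlinarith [mul_le_mul a1 a1 hr2.le a0.le]
  have b2 : 1 ≤ 8 * Real.pi * Real.exp 1 * r ^ 2 * Phi (y, t₂ + r ^ 2) (x, t) := by
    have e1 : Real.exp (-1) ≤ Real.exp (-‖x - y‖ ^ 2 / (4 * τ)) := by
      refine Real.exp_le_exp.2 ?_
      rw [le_div_iff₀ (by positivity)]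
      nlinarith [mul_le_mul hd hd (norm_nonneg _) (by positivity)]
    have e2 : (8 * Real.pi * r ^ 2)⁻¹ ≤ (4 * Real.pi * τ)⁻¹ :=
      inv_anti₀ (by positivity) (by nlinarith [Real.pi_pos])
    have e3 : (8 * Real.pi * r ^ 2)⁻¹ * Real.exp (-1) ≤ Phi (y, t₂ + r ^ 2) (x, t) :=
      mul_le_mul e2 e1 (by positivity) (by positivity)
    refine le_trans (le_of_eq ?_) (mul_le_mul_of_nonneg_left e3 (by positivity))
    rw [Real.exp_neg]
    field_simp
  have e : F.H (x, t) = F.dev (y, t₂ + r ^ 2) (x, t) + F.xn y (x, t) / (2 * τ) := by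
    simp [Mv.dev, hτ]
  rw [e]
  have b3 : 2 / r ^ 2 = 2 * (1 / r ^ 2) := by ring
  nlinarith [sq_nonneg (F.dev (y, t₂ + r ^ 2) (x, t) - F.xn y (x, t) / (2 * τ)),
    mul_le_mul_of_nonneg_left b2 (sq_nonneg (F.dev (y, t₂ + r ^ 2) (x, t)))]

/-- `∫∫ H²` on a parabolic cylinder -/
theorem H2_le (hH : HuiskenS) (hG : GauS) (Λ : ℝ) : ∃ C : ℝ, 0 < C ∧
    ∀ (F : Mv) (I : Set ℝ) (y : E) (r t₁ t₂ : ℝ), IsOpen I → Fl F I Λ → 0 < r → Icc t₁ t₂ ⊆ I →
    t₂ - t₁ ≤ r ^ 2 → ∫⁻ t in Ioo t₁ t₂, ∫⁻ x in Metric.ball y (2 * r),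
      ENNReal.ofReal (F.H (x, t) ^ 2) ∂F.mu t ≤ ENNReal.ofReal (C * r ^ 2) := by
  obtain ⟨C, hC, hG⟩ := hG
  refine ⟨16 * Real.pi * Real.exp 1 * (C * |Λ|) + 8 * |Λ| + 1, by positivity,
    fun F I y r t₁ t₂ hI hF hr hsub ht => ?_⟩
  rcases le_or_gt t₂ t₁ with h | h
  · simp [Ioo_eq_empty_of_le h]
  have hr2 : 0 < r ^ 2 := by positivity
  have ar : ∀ t y r, 0 < r → F.mu t (Metric.ball y r) ≤ ENNReal.ofReal (|Λ| * r ^ 2) :=
    fun t y r hr => (hF.ar t y r hr).trans (ENNReal.ofReal_le_ofReal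
      (mul_le_mul_of_nonneg_right (le_abs_self _) (sq_nonneg _)))
  obtain ⟨-, h2⟩ := hH F I Λ hI hF (y, t₂ + r ^ 2) t₁ t₂ h.le (by simpa using hr2) hsub
  have h3 := (((hG (F.mu t₁) |Λ| (abs_nonneg _)).1 (ar t₁)) y (t₂ + r ^ 2 - t₁) (by linarith)).2.1
  have h4 : 0 ≤ F.Fs t₂ y (t₂ + r ^ 2 - t₂) := integral_nonneg fun x => by
    unfold gau
    have : 0 < t₂ + r ^ 2 - t₂ := by linarith
    positivity
  set K := 16 * Real.pi * Real.exp 1 * r ^ 2 with hK
  have hK0 : 0 ≤ K := by positivity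
  calc _ ≤ ∫⁻ t in Ioo t₁ t₂, (ENNReal.ofReal K * (∫⁻ x, ENNReal.ofReal
          (F.dev (y, t₂ + r ^ 2) (x, t) ^ 2 * Phi (y, t₂ + r ^ 2) (x, t)) ∂F.mu t) +
          ENNReal.ofReal (8 * |Λ|)) := by
        refine setLIntegral_mono' measurableSet_Ioo fun t ht' => ?_
        calc _ ≤ ∫⁻ x in Metric.ball y (2 * r), (ENNReal.ofReal K * ENNReal.ofReal
              (F.dev (y, t₂ + r ^ 2) (x, t) ^ 2 * Phi (y, t₂ + r ^ 2) (x, t)) +
              ENNReal.ofReal (2 / r ^ 2)) ∂F.mu t := by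
              refine lintegral_mono_ae ?_
              filter_upwards [ae_restrict_of_ae (FV.ae_sl hF.mcf.1 t),
                ae_restrict_mem measurableSet_ball] with x hx hy
              rw [← ENNReal.ofReal_mul hK0]
              exact (ENNReal.ofReal_le_ofReal (H_sq_le hF.mcf.1 hr ht'.2.le
                (by linarith [ht'.1]) hx hy)).trans ENNReal.ofReal_add_le
          _ ≤ _ := by
              rw [lintegral_add_right _ measurable_const,
                lintegral_const_mul' _ _ ENNReal.ofReal_ne_top, setLIntegral_const]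
              refine add_le_add (mul_le_mul_right (setLIntegral_le_lintegral _ _) _) ?_
              refine (mul_le_mul_right (ar t y _ (by positivity)) _).trans (le_of_eq ?_)
              rw [← ENNReal.ofReal_mul (by positivity)]
              congr 1
              field_simp
              ring
    _ ≤ _ := by
        rw [lintegral_add_right _ measurable_const,
          lintegral_const_mul' _ _ ENNReal.ofReal_ne_top, setLIntegral_const, Real.volume_Ioo]
        change ENNReal.ofReal K * F.stI (fun p => F.dev (y, t₂ + r ^ 2) p ^ 2 *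
          Phi (y, t₂ + r ^ 2) p) t₁ t₂ + _ ≤ _
        rw [h2, ← ENNReal.ofReal_mul hK0, ← ENNReal.ofReal_mul (by positivity)]
        have h5 : F.Fs t₁ y (t₂ + r ^ 2 - t₁) - F.Fs t₂ y (t₂ + r ^ 2 - t₂) ≤ C * |Λ| := by
          have : F.Fs t₁ y (t₂ + r ^ 2 - t₁) ≤ C * |Λ| := h3
          linarith
        refine le_trans (add_le_add (ENNReal.ofReal_le_ofReal
          (mul_le_mul_of_nonneg_left h5 hK0)) le_rfl) ?_
        rw [← ENNReal.ofReal_add (by positivity) (mul_nonneg (by positivity) (by linarith))]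
        refine ENNReal.ofReal_le_ofReal ?_
        have := mul_le_mul_of_nonneg_left ht (by positivity : 0 ≤ 8 * |Λ|)
        rw [hK]
        nlinarith

theorem a2S_of (hH : HuiskenS) (hG : GauS) : A2S := by
  intro Λ G
  obtain ⟨C, hC, h⟩ := H2_le hH hG Λ
  refine ⟨|G| * (1 + C) + 1, by positivity, fun F I y r t₁ t₂ hI hF hL hr hsub ht => ?_⟩
  calc _ ≤ ∫⁻ t in Ioo t₁ t₂, ENNReal.ofReal |G| * (1 + ∫⁻ x in Metric.ball y (2 * r),
          ENNReal.ofReal (F.H (x, t) ^ 2) ∂F.mu t) := by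
        refine lintegral_mono fun t => ?_
        refine le_trans (le_of_eq ?_) ((hL t y r hr).trans
          (mul_le_mul_left (ENNReal.ofReal_le_ofReal (le_abs_self _)) _))
        rw [← lintegral_indicator measurableSet_ball]
        refine lintegral_congr fun x => ?_
        by_cases hx : x ∈ Metric.ball y r
        · rw [indicator_of_mem hx, indicator_of_mem (by exact ⟨hx, trivial⟩)]
        · rw [indicator_of_notMem hx, indicator_of_notMem (by exact fun h => hx h.1)]; simp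
    _ ≤ _ := by
        rw [lintegral_const_mul' _ _ ENNReal.ofReal_ne_top, lintegral_add_left measurable_const,
          setLIntegral_const, Real.volume_Ioo, one_mul]
        refine (mul_le_mul_right (add_le_add (ENNReal.ofReal_le_ofReal ht)
          (h F I y r t₁ t₂ hI hF hr hsub ht)) _).trans ?_
        rw [← ENNReal.ofReal_add (by positivity) (by positivity),
          ← ENNReal.ofReal_mul (abs_nonneg _)]
        exact ENNReal.ofReal_le_ofReal (by nlinarith [sq_nonneg r])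

end Crest.Agent.N250.A

end
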