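import Crest.Agent.N250.A.Stm
import Crest.Agent.N250.FV.Hu4

/-!
# Row 250, block A (helper23): spacetime bounds for `H²` and `|A|²`
-/

set_option autoImplicit false
open MeasureTheory Set Filter Topology
open scoped ContDiff InnerProductSpace
open Crest.GeometryTopology.MCF

noncomputable section

namespace Crest.Agent.N250.A

namespace A2

theorem lint_ind (μ : Measure E) (y : E) (r t : ℝ) (g : ST → ℝ) :
    ∫⁻ x, ENNReal.ofReal ((Metric.ball y r ×ˢ univ).indicator g (x, t)) ∂μ =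
      ∫⁻ x in Metric.ball y r, ENNReal.ofReal (g (x, t)) ∂μ := by
  rw [← lintegral_indicator Metric.isOpen_ball.measurableSet]
  refine lintegral_congr fun x => ?_
  by_cases h : x ∈ Metric.ball y r
  · rw [indicator_of_mem h, indicator_of_mem (mem_prod.2 ⟨h, mem_univ _⟩)]
  · rw [indicator_of_notMem h, indicator_of_notMem fun a => h a.1, ENNReal.ofReal_zero]

theorem H_pt {F : Mv} (hF : F.Reg) {y x : E} {r t T : ℝ} (hr : 0 < r) (hx : (x, t) ∈ F.M)
    (hb : x ∈ Metric.ball y (2 * r)) (h1 : r ^ 2 ≤ T - t) (h2 : T - t ≤ 2 * r ^ 2) :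
    F.H (x, t) ^ 2 ≤ 16 * Real.pi * Real.exp 1 * r ^ 2 *
      (F.dev (y, T) (x, t) ^ 2 * Phi (y, T) (x, t)) + 2 / r ^ 2 := by
  have hpi := Real.pi_pos
  have hr2 : 0 < r ^ 2 := by positivity
  have hs : 0 < T - t := hr2.trans_le h1
  have hn : ‖x - y‖ ^ 2 ≤ 4 * r ^ 2 := by
    rw [mem_ball_iff_norm] at hb
    nlinarith [norm_nonneg (x - y)]
  have hxn : F.xn y (x, t) ^ 2 ≤ 4 * r ^ 2 := (Hu.xn_sq_le hF hx y).trans hn
  have hP : (8 * Real.pi * r ^ 2)⁻¹ * Real.exp (-1) ≤ Phi (y, T) (x, t) := by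
    refine mul_le_mul (inv_anti₀ (by positivity) (by nlinarith)) (Real.exp_le_exp.2 ?_)
      (by positivity) (by positivity)
    rw [le_div_iff₀ (by positivity)]
    show -1 * (4 * (T - t)) ≤ -‖x - y‖ ^ 2
    linarith
  have hP2 : 1 ≤ 8 * Real.pi * Real.exp 1 * r ^ 2 * Phi (y, T) (x, t) := by
    have := mul_le_mul_of_nonneg_left hP (show 0 ≤ 8 * Real.pi * Real.exp 1 * r ^ 2 by positivity)
    refine le_of_eq_of_le ?_ this
    rw [Real.exp_neg]; field_simp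
  have h3 : (F.xn y (x, t) / (2 * (T - t))) ^ 2 ≤ 1 / r ^ 2 := by
    rw [div_pow, div_le_div_iff₀ (by positivity) hr2]
    nlinarith [mul_le_mul h1 h1 hr2.le hs.le, mul_le_mul_of_nonneg_right hxn hr2.le]
  have h4 : F.H (x, t) = F.dev (y, T) (x, t) + F.xn y (x, t) / (2 * (T - t)) := by
    simp [Mv.dev]
  have h5 := mul_le_mul_of_nonneg_left hP2 (sq_nonneg (F.dev (y, T) (x, t)))
  have h6 : 2 / r ^ 2 = 2 * (1 / r ^ 2) := by ring
  rw [h4, h6]
  nlinarith [sq_nonneg (F.dev (y, T) (x, t) - F.xn y (x, t) / (2 * (T - t)))]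

/-- spacetime `L²` bound for the mean curvature -/
theorem H2 (Λ : ℝ) : ∃ C : ℝ, 0 < C ∧ ∀ (F : Mv) (I : Set ℝ) (y : E) (r t₁ t₂ : ℝ),
    IsOpen I → Fl F I Λ → 0 < r → Icc t₁ t₂ ⊆ I → t₂ - t₁ ≤ r ^ 2 →
    ∫⁻ t in Ioo t₁ t₂, ∫⁻ x in Metric.ball y (2 * r), ENNReal.ofReal (F.H (x, t) ^ 2) ∂F.mu t ≤
      ENNReal.ofReal (C * r ^ 2) := by
  obtain ⟨Cg, hCg, hG⟩ := gauS_holds
  have hΛ : 0 ≤ max Λ 0 := le_max_right _ _
  have hpi := Real.pi_pos
  refine ⟨16 * Real.pi * Real.exp 1 * (Cg * max Λ 0) + 8 * max Λ 0 + 1, by positivity,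
    fun F I y r t₁ t₂ hI hF hr hsub h12 => ?_⟩
  rcases lt_or_ge t₂ t₁ with h | h
  · rw [Ioo_eq_empty_of_le h.le]; simp
  have hr2 : 0 < r ^ 2 := by positivity
  obtain ⟨-, hH⟩ := huiskenS_holds F I Λ hI hF (y, t₂ + r ^ 2) t₁ t₂ h (by simpa using hr2) hsub
  have hA := Hu.ar_max hF.ar
  have b1 : F.Fs t₁ y (t₂ + r ^ 2 - t₁) ≤ Cg * max Λ 0 :=
    ((hG (F.mu t₁) _ hΛ).1 (hA t₁) y _ (by linarith)).2.1
  have b2 : 0 ≤ F.Fs t₂ y (t₂ + r ^ 2 - t₂) :=
    integral_nonneg fun x => (Hu.gau_pos _ (by linarith) _).le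
  have ha : 0 ≤ 16 * Real.pi * Real.exp 1 * r ^ 2 := by positivity
  have key : ∀ t ∈ Ioo t₁ t₂,
      ∫⁻ x in Metric.ball y (2 * r), ENNReal.ofReal (F.H (x, t) ^ 2) ∂F.mu t ≤
      ENNReal.ofReal (16 * Real.pi * Real.exp 1 * r ^ 2) * ∫⁻ x, ENNReal.ofReal
        (F.dev (y, t₂ + r ^ 2) (x, t) ^ 2 * Phi (y, t₂ + r ^ 2) (x, t)) ∂F.mu t +
      ENNReal.ofReal (8 * max Λ 0) := by
    intro t ht
    have hs : 0 < t₂ + r ^ 2 - t := by linarith [ht.2]
    calc _ ≤ ∫⁻ x in Metric.ball y (2 * r), (ENNReal.ofReal (16 * Real.pi * Real.exp 1 * r ^ 2) *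
          ENNReal.ofReal (F.dev (y, t₂ + r ^ 2) (x, t) ^ 2 * Phi (y, t₂ + r ^ 2) (x, t)) +
          ENNReal.ofReal (2 / r ^ 2)) ∂F.mu t := by
          refine lintegral_mono_ae ?_
          filter_upwards [ae_restrict_of_ae (Hu.ae_sl hF.mcf.1 t),
            ae_restrict_mem Metric.isOpen_ball.measurableSet] with x h1 h2
          rw [← ENNReal.ofReal_mul ha]
          exact (ENNReal.ofReal_le_ofReal (H_pt hF.mcf.1 hr h1 h2 (by linarith [ht.2])
            (by linarith [ht.1]))).trans ENNReal.ofReal_add_le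
      _ ≤ _ := by
          rw [lintegral_add_right _ measurable_const, lintegral_const_mul' _ _ ENNReal.ofReal_ne_top,
            setLIntegral_const]
          refine add_le_add (mul_le_mul_right (setLIntegral_le_lintegral _ _) _) ?_
          refine (mul_le_mul_right (hA t y (2 * r) (by positivity)) _).trans (le_of_eq ?_)
          rw [← ENNReal.ofReal_mul (by positivity)]
          congr 1; field_simp; ring
  refine (setLIntegral_mono' measurableSet_Ioo key).trans ?_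
  rw [lintegral_add_right _ measurable_const, lintegral_const_mul' _ _ ENNReal.ofReal_ne_top,
    setLIntegral_const, Real.volume_Ioo]
  rw [show (∫⁻ t in Ioo t₁ t₂, ∫⁻ x, ENNReal.ofReal (F.dev (y, t₂ + r ^ 2) (x, t) ^ 2 *
    Phi (y, t₂ + r ^ 2) (x, t)) ∂F.mu t) = _ from hH]
  rw [← ENNReal.ofReal_mul ha, ← ENNReal.ofReal_mul (by positivity)]
  have c1 : 16 * Real.pi * Real.exp 1 * r ^ 2 * (F.Fs t₁ y (t₂ + r ^ 2 - t₁) -
      F.Fs t₂ y (t₂ + r ^ 2 - t₂)) ≤ 16 * Real.pi * Real.exp 1 * r ^ 2 * (Cg * max Λ 0) :=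
    mul_le_mul_of_nonneg_left (by linarith) ha
  have c2 : 8 * max Λ 0 * (t₂ - t₁) ≤ 8 * max Λ 0 * r ^ 2 :=
    mul_le_mul_of_nonneg_left h12 (by positivity)
  refine (add_le_add (ENNReal.ofReal_le_ofReal c1) (ENNReal.ofReal_le_ofReal c2)).trans ?_
  rw [← ENNReal.ofReal_add (by positivity) (by positivity)]
  exact ENNReal.ofReal_le_ofReal (by nlinarith)

end A2

end Crest.Agent.N250.A

end
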