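import Crest.Agent.N250.MP.Chart

/-!
# Row 250, block A (helper62): local geometry for the first contact argument
-/

set_option autoImplicit false
open MeasureTheory Set Filter Topology Metric
open scoped ContDiff InnerProductSpace
open Crest.GeometryTopology.MCF

noncomputable section

namespace Crest.Agent.N250.Bar

variable {F : Mv} {p : ST}

/-- a curve in the track through a given point, parametrised by time -/
theorem exists_curve (hF : F.Reg) (hp : p ∈ F.M) : ∃ c : ℝ → E, ContinuousAt c p.2 ∧ c p.2 = p.1 ∧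
    ∀ᶠ s in 𝓝 p.2, (c s, s) ∈ F.M := by
  obtain ⟨U, π, hr⟩ := hF.exists_retr hp
  have h1 : ContinuousAt (fun s : ℝ => ((p.1, s) : ST)) p.2 := by fun_prop
  have h2 : ContinuousAt π p := (hr.sm.contDiffAt (hr.isOpen.mem_nhds hr.mem)).continuousAt
  refine ⟨fun s => (π (p.1, s)).1, (ContinuousAt.comp (f := fun s : ℝ => ((p.1, s) : ST)) h2 h1).fst,
    congrArg Prod.fst (hr.fix p hr.mem hp), ?_⟩
  filter_upwards [h1.eventually (hr.isOpen.mem_nhds hr.mem)] with s hs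
  have := hr.maps hs
  rwa [show π (p.1, s) = ((π (p.1, s)).1, s) from Prod.ext rfl (hr.time _ hs)] at this

/-- points of the track are limits of earlier points -/
theorem mem_closure_past (hF : F.Reg) (hp : p ∈ F.M) : p ∈ closure (F.M ∩ {q | q.2 < p.2}) := by
  obtain ⟨c, h1, h2, h3⟩ := exists_curve hF hp
  have h4 : Tendsto (fun s => ((c s, s) : ST)) (𝓝[<] p.2) (𝓝 p) := by
    have := (h1.prodMk continuousAt_id).tendsto
    rw [h2] at this
    exact this.mono_left nhdsWithin_le_nhds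
  refine mem_closure_of_tendsto h4 ?_
  filter_upwards [nhdsWithin_le_nhds h3, self_mem_nhdsWithin] with s a b using ⟨a, b⟩

theorem A2_nonneg (F : Mv) (p : ST) : 0 ≤ F.A2 p := by
  simp only [Mv.A2, Finset.sum_apply, Pi.mul_apply]
  exact Finset.sum_nonneg fun a _ => Finset.sum_nonneg fun b _ => mul_self_nonneg _

theorem abs_Aq_le (F : Mv) (p : ST) (v : E) : |MP.Aq F p v v| ≤ √(F.A2 p) * ‖v‖ ^ 2 := by
  have h := Finset.sum_mul_sq_le_sq_mul_sq (Finset.univ : Finset (Fin 3 × Fin 3))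
    (fun ab => F.A ab.1 ab.2 p) (fun ab => v ab.1 * v ab.2)
  simp only [Fintype.sum_prod_type] at h
  have e1 : ∑ a, ∑ b, F.A a b p ^ 2 = F.A2 p := by
    simp only [Mv.A2, Finset.sum_apply, Pi.mul_apply, sq]
  have e2 : ∑ a, ∑ b, (v a * v b) ^ 2 = (‖v‖ ^ 2) ^ 2 := by
    rw [EuclideanSpace.norm_sq_eq, sq, Finset.sum_mul_sum]
    simp only [Real.norm_eq_abs, sq_abs, mul_pow]
  rw [e1, e2] at h
  refine abs_le_of_sq_le_sq' ?_ (by positivity) |> abs_le.2
  rw [mul_pow, Real.sq_sqrt (A2_nonneg F p)]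
  exact h

/-- the slice is quadratically close to its tangent plane -/
theorem loc_quad (hF : F.Reg) (hp : p ∈ F.M) {ε : ℝ} (hε : 0 < ε) : ∀ᶠ y in 𝓝 p.1,
    (y, p.2) ∈ F.M → |⟪F.n p, y - p.1⟫_ℝ| ≤ 2 * (√(F.A2 p) + ε) * ‖y - p.1‖ ^ 2 := by
  obtain ⟨W, φ, hW, hL⟩ := hF p hp
  set N : ST → E := fun q => ‖gradX φ q.1 q.2‖⁻¹ • gradX φ q.1 q.2 with hN
  have dN : DifferentiableAt ℝ N p :=
    (hL.sm_n.contDiffAt (hL.isOpen.mem_nhds hW)).differentiableAt (by simp)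
  set L := fderiv ℝ N p with hLd
  have eN : F.n =ᶠ[𝓝[F.M] p] N := by
    filter_upwards [nhdsWithin_le_nhds (hL.isOpen.mem_nhds hW), self_mem_nhdsWithin] with q a b
      using hL.n_eq q a b
  have Np : N p = F.n p := (hL.n_eq p hW hp).symm
  obtain ⟨r, hr, hb⟩ := Metric.eventually_nhds_iff_ball.1
    ((dN.hasFDerivAt.isLittleO.bound hε).and (hL.isOpen.mem_nhds hW))
  have hL0 : 0 < 1 / (2 * (‖L‖ + 1)) := by positivity
  filter_upwards [ball_mem_nhds p.1 (lt_min hr hL0)] with y hy hyM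
  rw [mem_ball, dist_eq_norm, lt_min_iff] at hy
  set h := y - p.1 with hh
  have mem : ∀ s ∈ Icc (0 : ℝ) 1, ((p.1 + s • h, p.2) : ST) ∈ ball p r := fun s hs => by
    rw [mem_ball, Prod.dist_eq, dist_self, dist_eq_norm, add_sub_cancel_left, norm_smul,
      Real.norm_eq_abs, abs_of_nonneg hs.1]
    exact max_lt (lt_of_le_of_lt (mul_le_of_le_one_left (norm_nonneg _) hs.2) hy.1) hr
  have der : ∀ s ∈ Icc (0 : ℝ) 1, HasDerivAt (fun s : ℝ => φ (p.1 + s • h, p.2))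
      (fderiv ℝ φ (p.1 + s • h, p.2) (h, 0)) s := fun s hs => by
    have d1 : HasDerivAt (fun s : ℝ => ((p.1 + s • h, p.2) : ST)) (h, 0) s := by
      simpa using (((hasDerivAt_id s).smul_const h).const_add p.1).prodMk (hasDerivAt_const s p.2)
    exact HasFDerivAt.comp_hasDerivAt s (l := φ) (hL.diffAt (hb _ (mem s hs)).2).hasFDerivAt d1
  obtain ⟨s, hs, h0⟩ := exists_hasDerivAt_eq_zero zero_lt_one
    (fun s hs => (der s hs).continuousAt.continuousWithinAt)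
    (by
      have e1 : φ (p.1 + (1 : ℝ) • h, p.2) = 0 := by
        have := (hb _ (mem 1 ⟨zero_le_one, le_rfl⟩)).2
        refine (hL.mem _ this).1 ?_
        simpa [hh] using hyM
      have e0 : φ (p.1 + (0 : ℝ) • h, p.2) = 0 := by simpa using (hL.mem _ hW).1 hp
      rw [e0, e1])
    fun s hs => der s (Ioo_subset_Icc_self hs)
  have hq := hb _ (mem s (Ioo_subset_Icc_self hs))
  set q : ST := (p.1 + s • h, p.2) with hqd
  have z1 : ⟪N q, h⟫_ℝ = 0 := by
    rw [hN, real_inner_smul_left, inner_gradX (hL.diffAt hq.2), h0, mul_zero]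
  have z2 : q - p = s • ((F.PL p h, 0) : ST) + (s * ⟪F.n p, h⟫_ℝ) • ((F.n p, 0) : ST) := by
    ext1
    · simp only [hqd, Prod.fst_sub, add_sub_cancel_left, Prod.fst_add, Prod.smul_fst, Mv.PL,
        smul_sub, smul_smul, sub_add_cancel]
    · simp [hqd]
  have z3 : ⟪L (F.PL p h, 0), h⟫_ℝ = MP.Aq F p h h := by
    rw [← MP.td_n hF hp, hF.td_ext hp dN eN (hF.tg_PL hp h)]
  have z4 : ‖q - p‖ ≤ ‖h‖ := by
    rw [← dist_eq_norm, Prod.dist_eq, dist_self, dist_eq_norm, add_sub_cancel_left, norm_smul,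
      Real.norm_eq_abs, abs_of_pos hs.1]
    exact max_le (mul_le_of_le_one_left (norm_nonneg _) hs.2.le) (norm_nonneg _)
  have z5 : ⟪F.n p, h⟫_ℝ = -⟪N q - N p - L (q - p), h⟫_ℝ - s * MP.Aq F p h h -
      s * ⟪F.n p, h⟫_ℝ * ⟪L (F.n p, 0), h⟫_ℝ := by
    rw [inner_sub_left, inner_sub_left, z1, Np, z2, map_add, map_smul, map_smul, inner_add_left,
      real_inner_smul_left, real_inner_smul_left, z3]
    ring
  have b1 : |⟪N q - N p - L (q - p), h⟫_ℝ| ≤ ε * ‖h‖ ^ 2 := by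
    refine (abs_real_inner_le_norm _ _).trans ?_
    have := mul_le_mul_of_nonneg_right (hq.1.trans (mul_le_mul_of_nonneg_left z4 hε.le))
      (norm_nonneg h)
    linarith
  have b2 : |s * MP.Aq F p h h| ≤ √(F.A2 p) * ‖h‖ ^ 2 := by
    rw [abs_mul, abs_of_pos hs.1]
    exact (mul_le_of_le_one_left (abs_nonneg _) hs.2.le).trans (abs_Aq_le F p h)
  have b3 : |⟪L (F.n p, 0), h⟫_ℝ| ≤ 1 / 2 := by
    refine (abs_real_inner_le_norm _ _).trans ?_
    have e1 : ‖L (F.n p, 0)‖ ≤ ‖L‖ := by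
      simpa [hF.norm_n hp] using L.le_opNorm (F.n p, 0)
    have e2 := hy.2
    rw [lt_div_iff₀ (by positivity)] at e2
    nlinarith [norm_nonneg h, norm_nonneg L]
  have b4 : |s * ⟪F.n p, h⟫_ℝ * ⟪L (F.n p, 0), h⟫_ℝ| ≤ |⟪F.n p, h⟫_ℝ| / 2 := by
    rw [abs_mul, abs_mul, abs_of_pos hs.1]
    have := mul_le_mul (mul_le_of_le_one_left (abs_nonneg ⟪F.n p, h⟫_ℝ) hs.2.le) b3
      (abs_nonneg _) (abs_nonneg _)
    linarith
  have b5 := abs_sub (-⟪N q - N p - L (q - p), h⟫_ℝ - s * MP.Aq F p h h)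
    (s * ⟪F.n p, h⟫_ℝ * ⟪L (F.n p, 0), h⟫_ℝ)
  have b6 := abs_sub (-⟪N q - N p - L (q - p), h⟫_ℝ) (s * MP.Aq F p h h)
  rw [← z5] at b5
  rw [abs_neg] at b6
  linarith

/-- a critical point of the distance with small curvature is a strict local minimum -/
theorem strict_min (hF : F.Reg) (hp : p ∈ F.M) {x : E} (hx : F.PL p (x - p.1) = 0)
    (hA : 16 * dist x p.1 ^ 2 * F.A2 p < 1) :
    ∀ᶠ y in 𝓝 p.1, (y, p.2) ∈ F.M → y ≠ p.1 → dist x p.1 < dist x y := by
  have d0 : 0 ≤ dist x p.1 := dist_nonneg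
  have h1 : 4 * dist x p.1 * √(F.A2 p) < 1 := by
    refine lt_of_pow_lt_pow_left₀ 2 zero_le_one ?_
    rw [mul_pow, mul_pow, Real.sq_sqrt (A2_nonneg F p)]
    linarith
  obtain ⟨ε, hε, h2⟩ : ∃ ε, 0 < ε ∧ 4 * dist x p.1 * (√(F.A2 p) + ε) < 1 := by
    have c1 : ContinuousAt (fun ε : ℝ => 4 * dist x p.1 * (√(F.A2 p) + ε)) 0 := by fun_prop
    have c2 := c1.eventually_lt continuousAt_const (g := fun _ => 1) (by simpa using h1)
    obtain ⟨ε, a, b⟩ := ((c2.filter_mono nhdsWithin_le_nhds).and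
      (self_mem_nhdsWithin (s := Ioi (0 : ℝ)))).exists
    exact ⟨ε, b, a⟩
  filter_upwards [loc_quad hF hp hε] with y hy hM hne
  have h3 := hy hM
  have h4 : x - p.1 = ⟪F.n p, x - p.1⟫_ℝ • F.n p := sub_eq_zero.1 hx
  have h5 : |⟪F.n p, x - p.1⟫_ℝ| = dist x p.1 := by
    rw [dist_eq_norm]
    conv_rhs => rw [h4, norm_smul, hF.norm_n hp, mul_one, Real.norm_eq_abs]
  have h6 : |⟪x - p.1, y - p.1⟫_ℝ| ≤ dist x p.1 * (2 * (√(F.A2 p) + ε) * ‖y - p.1‖ ^ 2) := by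
    rw [h4, real_inner_smul_left, abs_mul, h5]
    exact mul_le_mul_of_nonneg_left h3 d0
  have h7 : 0 < ‖y - p.1‖ ^ 2 := pow_pos (norm_pos_iff.2 (sub_ne_zero.2 hne)) 2
  refine lt_of_pow_lt_pow_left₀ 2 dist_nonneg ?_
  have h8 : dist x y ^ 2 = dist x p.1 ^ 2 - 2 * ⟪x - p.1, y - p.1⟫_ℝ + ‖y - p.1‖ ^ 2 := by
    rw [dist_eq_norm, dist_eq_norm, ← norm_sub_sq_real, sub_sub_sub_cancel_right]
  nlinarith [le_abs_self ⟪x - p.1, y - p.1⟫_ℝ, mul_lt_mul_of_pos_right h2 h7]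

/-- first order condition for the distance on a slice -/
theorem crit_of_min (hF : F.Reg) (hp : p ∈ F.M) {x : E}
    (h : ∀ᶠ y in 𝓝 p.1, (y, p.2) ∈ F.M → dist x p.1 ≤ dist x y) : F.PL p (x - p.1) = 0 := by
  obtain ⟨U, π, hr⟩ := hF.exists_retr hp
  set v := F.PL p (x - p.1) with hv
  have d0 := ((hr.sm.contDiffAt (hr.isOpen.mem_nhds hr.mem)).differentiableAt (by simp)).hasFDerivAt
  have d1 : HasDerivAt (fun s : ℝ => ((p.1 + s • v, p.2) : ST)) (v, 0) 0 := by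
    simpa using (((hasDerivAt_id (0 : ℝ)).smul_const v).const_add p.1).prodMk
      (hasDerivAt_const (0 : ℝ) p.2)
  have e0 : ((p.1 + (0 : ℝ) • v, p.2) : ST) = p := by simp
  have d2 := HasFDerivAt.comp_hasDerivAt_of_eq (0 : ℝ) d0 d1 e0.symm
  rw [hr.der _ (hF.tg_PL hp _)] at d2
  have d4 : HasDerivAt (fun s : ℝ => ((π ∘ fun s : ℝ => ((p.1 + s • v, p.2) : ST)) s).1) v 0 :=
    (ContinuousLinearMap.fst ℝ E ℝ).hasFDerivAt.comp_hasDerivAt (0 : ℝ) d2
  have d3 := (d4.const_sub x).norm_sq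
  have pp : π p = p := hr.fix p hr.mem hp
  have lm : IsLocalMin (fun s : ℝ => ‖x - ((π ∘ fun s : ℝ => ((p.1 + s • v, p.2) : ST)) s).1‖ ^ 2)
      0 := by
    have t1 := d4.continuousAt.tendsto
    have t2 := d1.continuousAt.tendsto
    simp only [Function.comp_apply, e0, pp] at t1 t2
    filter_upwards [t1.eventually h, t2.eventually (hr.isOpen.mem_nhds hr.mem)] with s a b
    have := hr.maps b
    rw [show π (p.1 + s • v, p.2) = ((π (p.1 + s • v, p.2)).1, p.2) from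
      Prod.ext rfl (hr.time _ b)] at this
    have := a this
    simp only [Function.comp_apply, e0, pp]
    rw [dist_eq_norm, dist_eq_norm] at this
    exact pow_le_pow_left₀ (norm_nonneg _) this 2
  have z := lm.hasDerivAt_eq_zero d3
  simp only [Function.comp_apply, e0, pp, inner_neg_right, mul_neg, neg_eq_zero, mul_eq_zero,
    OfNat.ofNat_ne_zero, false_or] at z
  have z2 : ⟪v, v⟫_ℝ = 0 := by
    have := hF.tg_PL hp (x - p.1)
    simp only [Mv.Tg, mul_zero] at this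
    change ⟪x - p.1 - ⟪F.n p, x - p.1⟫_ℝ • F.n p, v⟫_ℝ = 0
    rw [inner_sub_left, real_inner_smul_left, z, this, mul_zero, sub_zero]
  exact inner_self_eq_zero.1 z2

/-- compact pieces of a proper track -/
theorem isCompact_inter {Ω K : Set ST} (hP : F.Proper Ω) (hK : IsCompact K) (h : K ⊆ Ω) :
    IsCompact (F.M ∩ K) := by
  have : F.M ∩ K = closure F.M ∩ K :=
    Subset.antisymm (inter_subset_inter_left _ subset_closure)
      fun q hq => ⟨hP q hq.1 (h hq.2), hq.2⟩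
  rw [this]
  exact hK.inter_left isClosed_closure

theorem locProper (hF : F.Reg) (hp : p ∈ F.M) : ∃ W, IsOpen W ∧ p ∈ W ∧ F.Proper W := by
  obtain ⟨W, φ, hW, hL⟩ := hF p hp
  refine ⟨W, hL.isOpen, hW, fun q hq hqW => (hL.mem q hqW).2 ?_⟩
  have c := (hL.contDiffAt hqW).continuousAt
  by_contra h
  obtain ⟨z, ⟨z1, z2⟩, z3⟩ := mem_closure_iff_nhds.1 hq _
    (inter_mem (c.eventually_ne h) (hL.isOpen.mem_nhds hqW))
  exact z1 ((hL.mem z z2).1 z3)

/-- a strict local minimum of the distance persists as a critical point -/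
theorem persist (hF : F.Reg) (hp : p ∈ F.M) {x : E}
    (h : ∀ᶠ y in 𝓝 p.1, (y, p.2) ∈ F.M → y ≠ p.1 → dist x p.1 < dist x y) {ε : ℝ} (hε : 0 < ε) :
    ∃ r, 0 < r ∧ r ≤ ε ∧ ∀ᶠ z : ST in 𝓝 (x, p.2), ∃ y, (y, z.2) ∈ F.M ∧ dist y p.1 < r ∧
      F.PL (y, z.2) (z.1 - y) = 0 ∧
      ∀ y', (y', z.2) ∈ F.M → dist y' p.1 ≤ r → dist z.1 y ≤ dist z.1 y' := by
  obtain ⟨W, hW, hpW, hP⟩ := locProper hF hp
  obtain ⟨r1, hr1, h1⟩ := Metric.nhds_basis_closedBall.mem_iff.1 (hW.mem_nhds hpW)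
  obtain ⟨r2, hr2, h2⟩ := Metric.nhds_basis_closedBall.mem_iff.1 h
  obtain ⟨r, r0, q0, q1, q2⟩ : ∃ r, 0 < r ∧ r ≤ ε ∧ r ≤ r1 ∧ r ≤ r2 :=
    ⟨min ε (min r1 r2), lt_min hε (lt_min hr1 hr2), min_le_left _ _,
      (min_le_right _ _).trans (min_le_left _ _), (min_le_right _ _).trans (min_le_right _ _)⟩
  have hK : IsCompact (F.M ∩ closedBall p r) :=
    isCompact_inter hP (isCompact_closedBall p r) ((closedBall_subset_closedBall q1).trans h1)
  obtain ⟨c, c1, c2, c3⟩ := exists_curve hF hp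
  have hB : IsCompact ((F.M ∩ closedBall p r) ∩ {q | dist q.1 p.1 = r}) :=
    hK.inter_right (isClosed_eq (by fun_prop) continuous_const)
  have cs : ContinuousAt (fun z : ST => c z.2) (x, p.2) :=
    ContinuousAt.comp (f := fun z : ST => z.2) c1 continuousAt_snd
  have e1 : ∀ᶠ z : ST in 𝓝 (x, p.2), ∀ q ∈ (F.M ∩ closedBall p r) ∩ {q | dist q.1 p.1 = r},
      q.2 = z.2 → dist z.1 (c z.2) < dist z.1 q.1 := by
    refine hB.eventually_forall_of_forall_eventually fun q hq => ?_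
    by_cases e : q.2 = p.2
    · have a0 : ContinuousAt (fun w : ST × ST => c w.1.2) ((x, p.2), q) :=
        ContinuousAt.comp_of_eq (f := fun w : ST × ST => w.1.2) c1 (by fun_prop) rfl
      have a1 : ContinuousAt (fun w : ST × ST => dist w.1.1 (c w.1.2)) ((x, p.2), q) :=
        continuous_dist.continuousAt.comp₂ (by fun_prop) a0
      have a2 : ContinuousAt (fun w : ST × ST => dist w.1.1 w.2.1) ((x, p.2), q) := by fun_prop
      have hd : dist q.1 p.1 = r := hq.2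
      refine (a1.eventually_lt a2 ?_).mono fun w hw _ => hw
      simp only [c2]
      have hq' : ((q.1, p.2) : ST) ∈ F.M := by rw [← e]; exact hq.1.1
      refine h2 (mem_closedBall.2 (hd.trans_le q2)) hq' fun e' => ?_
      rw [e', dist_self] at hd
      exact r0.ne hd
    · have a1 : ContinuousAt (fun w : ST × ST => w.2.2 - w.1.2) ((x, p.2), q) := by fun_prop
      exact (a1.eventually_ne (sub_ne_zero.2 e)).mono fun w hw h' => absurd (sub_eq_zero.2 h') hw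
  have e2 : ∀ᶠ z : ST in 𝓝 (x, p.2), (c z.2, z.2) ∈ F.M :=
    (continuousAt_snd (p := ((x, p.2) : ST))).eventually c3
  have e3 : ∀ᶠ z : ST in 𝓝 (x, p.2), dist (c z.2) p.1 < r :=
    cs.eventually (show ∀ᶠ w in 𝓝 (c p.2), dist w p.1 < r by rw [c2]; exact ball_mem_nhds p.1 r0)
  have e4 : ∀ᶠ z : ST in 𝓝 (x, p.2), dist z.2 p.2 < r :=
    (continuousAt_snd (p := ((x, p.2) : ST))).eventually (ball_mem_nhds p.2 r0)
  refine ⟨r, r0, q0, ?_⟩
  filter_upwards [e1, e2, e3, e4] with z z1 z2 z3 z4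
  have mem : ∀ y', (y', z.2) ∈ F.M → dist y' p.1 ≤ r →
      ((y', z.2) : ST) ∈ (F.M ∩ closedBall p r) ∩ {q | q.2 = z.2} := fun y' a b =>
    ⟨⟨a, mem_closedBall.2 (by rw [Prod.dist_eq]; exact max_le b z4.le)⟩, rfl⟩
  have hK' : IsCompact ((F.M ∩ closedBall p r) ∩ {q : ST | q.2 = z.2}) :=
    hK.inter_right (isClosed_eq continuous_snd continuous_const)
  have cd : Continuous fun q : ST => dist z.1 q.1 := continuous_const.dist continuous_fst
  obtain ⟨q, hq, hm⟩ := hK'.exists_isMinOn ⟨_, mem _ z2 z3.le⟩ cd.continuousOn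
  have t1 : q.2 = z.2 := hq.2
  have t2 : ((q.1, z.2) : ST) ∈ F.M := by rw [← t1]; exact hq.1.1
  have t3 : ∀ y', (y', z.2) ∈ F.M → dist y' p.1 ≤ r → dist z.1 q.1 ≤ dist z.1 y' :=
    fun y' a b => by
      have := isMinOn_iff.1 hm (y', z.2) (mem y' a b)
      simpa only using this
  have t4 : dist q.1 p.1 < r := by
    have a0 := mem_closedBall.1 hq.1.2
    rw [Prod.dist_eq] at a0
    have a : dist q.1 p.1 ≤ r := (le_max_left _ _).trans a0
    refine lt_of_le_of_ne a fun e => ?_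
    exact (z1 q ⟨hq.1, e⟩ t1).not_ge (t3 _ z2 z3.le)
  refine ⟨q.1, t2, t4, crit_of_min hF t2 ?_, t3⟩
  have a : ∀ᶠ y in 𝓝 q.1, dist y p.1 < r := isOpen_ball.mem_nhds t4
  filter_upwards [a] with y b c using t3 y c b.le

end Crest.Agent.N250.Bar

end
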