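import Crest.Agent.N250.A.Stm
import Crest.Agent.N250.A.Bar0
import Crest.Agent.N250.Lim.A
import Crest.Agent.N250.Tr.Inst

/-!
# Row 250, block A (helper62): the first contact argument, `barS_of`
-/

set_option autoImplicit false
open MeasureTheory Set Filter Topology Metric
open scoped ContDiff InnerProductSpace
open Crest.GeometryTopology.MCF

noncomputable section

namespace Crest.Agent.N250

namespace Bar

open A

variable {F : Mv}

/-- critical pairs are far apart when the reach is positive -/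
theorem far (hF : F.Reg) {x y : E} {t ρ : ℝ} (hx : (x, t) ∈ F.M) (hy : (y, t) ∈ F.M) (hne : y ≠ x)
    (hc : F.PL (y, t) (x - y) = 0) (hr : F.Reach (y, t) ρ) : 2 * ρ ≤ dist x y := by
  have h4 : x - y = ⟪F.n (y, t), x - y⟫_ℝ • F.n (y, t) := sub_eq_zero.1 hc
  set c := ⟪F.n (y, t), x - y⟫_ℝ
  have hn := hF.norm_n hy
  have e0 : dist x y = |c| := by rw [dist_eq_norm, h4, norm_smul, hn, mul_one, Real.norm_eq_abs]
  have c0 : c ≠ 0 := fun e => hne (by rw [e, zero_smul, sub_eq_zero] at h4; exact h4.symm)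
  obtain ⟨h1, h2⟩ := hr x hx
  rw [dist_eq_norm, ← sub_sub, h4, ← sub_smul, norm_smul, hn, mul_one, Real.norm_eq_abs] at h1
  rw [dist_eq_norm, ← sub_add, h4, ← add_smul, norm_smul, hn, mul_one, Real.norm_eq_abs] at h2
  rw [e0]
  rcases lt_or_gt_of_ne c0 with h | h
  · rw [abs_of_neg h]
    rcases le_abs'.1 h2 with h' | h' <;> linarith
  · rw [abs_of_pos h]
    rcases le_abs'.1 h1 with h' | h' <;> linarith

theorem hb_add (n : E) (g : ST → ℝ) (c : ℝ) (p : ST) : hb n (fun q => g q + c) p = hb n g p := by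
  simp only [hb, d2, fderiv_add_const]

/-- one step of the continuity argument: no critical pair appears -/
theorem step (hT : TwoS) (hF : F.IsMCF) {ψ : ST → ℝ} {a₀ τ τ' ρ : ℝ} (hτ : a₀ < τ)
    (hK : IsCompact (F.M ∩ univ ×ˢ Icc τ τ')) (hρ : 0 < ρ)
    (hR : ∀ p ∈ F.M, p.2 ∈ Icc τ τ' → F.Reach p ρ)
    (hc : ContinuousOn ψ (univ ×ˢ Icc τ τ')) (hp : ∀ p ∈ F.M, p.2 < τ' → 0 < ψ p)
    (hA : ∀ p ∈ F.M, p.2 ∈ Icc τ τ' → ∀ z, (z, p.2) ∈ F.M → dist z p.1 ≤ 2 * ψ p →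
      64 * ψ p ^ 2 * F.A2 (z, p.2) < 1)
    (hS : ∀ p ∈ F.M, p.2 ∈ Icc τ τ' → ∃ g : ST → ℝ, ContDiffAt ℝ 2 g p ∧ g p = Real.log (ψ p) ∧
      (∀ᶠ q in 𝓝 p, q.2 < p.2 → g q ≤ Real.log (ψ q)) ∧ ∀ n : E, ‖n‖ = 1 → hb n g p < 0)
    (h0 : ∀ p ∈ F.M, a₀ < p.2 → p.2 ≤ τ → NoCrit F p (2 * ψ p)) :
    ∀ p ∈ F.M, a₀ < p.2 → p.2 ≤ τ' → NoCrit F p (2 * ψ p) := by
  have hreg := hF.1
  set K := F.M ∩ univ ×ˢ Icc τ τ' with hKd
  let V : Set (ST × ST) := (K ×ˢ K) ∩ ((fun w : ST × ST =>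
    ((w.1.2 - w.2.2, F.PL w.2 (w.1.1 - w.2.1), dist w.1.1 w.2.1 - 2 * ρ,
      2 * ψ w.1 - dist w.1.1 w.2.1) : ℝ × E × ℝ × ℝ)) ⁻¹' ({0} ×ˢ {0} ×ˢ Ici 0 ×ˢ Ici 0))
  have hV : IsCompact V := by
    refine (hK.prod hK).of_isClosed_subset ?_ inter_subset_left
    refine ContinuousOn.preimage_isClosed_of_isClosed ?_ (hK.prod hK).isClosed
      (isClosed_singleton.prod (isClosed_singleton.prod (isClosed_Ici.prod isClosed_Ici)))
    have c1 : ContinuousOn (fun w : ST × ST => F.n w.2) (K ×ˢ K) :=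
      hreg.sm_n.continuousOn.comp continuousOn_snd fun w hw => hw.2.1
    have c2 : ContinuousOn (fun w : ST × ST => ψ w.1) (K ×ˢ K) :=
      hc.comp continuousOn_fst fun w hw => hw.1.2
    have c3 : Continuous fun w : ST × ST => w.1.1 - w.2.1 := by fun_prop
    have c4 : Continuous fun w : ST × ST => dist w.1.1 w.2.1 := by fun_prop
    refine ContinuousOn.prodMk (by fun_prop) (ContinuousOn.prodMk ?_ (ContinuousOn.prodMk
      (c4.continuousOn.sub continuousOn_const) ((continuousOn_const.mul c2).sub c4.continuousOn)))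
    exact c3.continuousOn.sub ((c1.inner (𝕜 := ℝ) c3.continuousOn).smul c1)
  have memV : ∀ x y t, (x, t) ∈ F.M → (y, t) ∈ F.M → t ∈ Icc τ τ' → y ≠ x →
      F.PL (y, t) (x - y) = 0 → dist x y ≤ 2 * ψ (x, t) → ((x, t), (y, t)) ∈ V :=
    fun x y t hx hy ht hne hpl hd => ⟨⟨⟨hx, trivial, ht⟩, ⟨hy, trivial, ht⟩⟩, sub_self t, hpl,
      sub_nonneg.2 (far hreg hx hy hne hpl (hR _ hy ht)), sub_nonneg.2 hd⟩
  have emp : ¬ V.Nonempty := by
    intro hne
    obtain ⟨⟨⟨x, t⟩, ⟨y, t'⟩⟩, ⟨⟨⟨hx, -, ht⟩, ⟨hy, -⟩⟩, e1, e2, e3, e4⟩, hm⟩ :=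
      hV.exists_isMinOn hne (f := fun w => w.1.2) (by fun_prop)
    obtain rfl : t = t' := sub_eq_zero.1 e1
    have e2 : F.PL (y, t) (x - y) = 0 := e2
    have e3 : 2 * ρ ≤ dist x y := sub_nonneg.1 e3
    have e4 : dist x y ≤ 2 * ψ (x, t) := sub_nonneg.1 e4
    have ht : t ∈ Icc τ τ' := ht
    have dpos : 0 < dist x y := by linarith
    have hxy : x ≠ y := dist_pos.1 dpos
    have past : ∀ p ∈ F.M, a₀ < p.2 → p.2 < t → NoCrit F p (2 * ψ p) := by
      intro p hp1 hp2 hp3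
      rcases le_or_gt p.2 τ with h | h
      · exact h0 p hp1 hp2 h
      · intro z hz hne' hpl
        by_contra hd
        have := isMinOn_iff.1 hm _
          (memV p.1 z p.2 hp1 hz ⟨h.le, hp3.le.trans ht.2⟩ hne' hpl (not_lt.1 hd))
        exact absurd hp3 (not_lt.2 this)
    have a1 := hA _ hx ht y hy (by rw [dist_comm]; exact e4)
    have a2 : 16 * dist x y ^ 2 * F.A2 (y, t) < 1 := by
      have b1 : dist x y ^ 2 ≤ (2 * ψ (x, t)) ^ 2 := pow_le_pow_left₀ dpos.le e4 2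
      have b2 := mul_le_mul_of_nonneg_right b1 (A2_nonneg F (y, t))
      simp only at a1
      linarith
    obtain ⟨r, r0, r1, hper⟩ := persist hreg hy (strict_min hreg hy e2 a2) (half_pos dpos)
    obtain ⟨g, g1, g2, g3, g4⟩ := hS _ hx ht
    have l2 : ∀ s : ℝ, 0 < s → Real.log s + Real.log 2 = Real.log (2 * s) := fun s hs => by
      rw [Real.log_mul two_ne_zero hs.ne', add_comm]
    have key := hT F hF x y t (fun q => g q + Real.log 2) hx hy hxy (g1.add contDiffAt_const) ?_ ?_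
    · rw [hb_add] at key
      exact absurd (g4 _ (hreg.norm_n hx)) (not_lt.2 key)
    · have f1 : Tendsto (fun q : ST × E => q.1) (𝓝 ((x, t), y)) (𝓝 (x, t)) := continuousAt_fst
      have f2 : ∀ᶠ q : ST × E in 𝓝 ((x, t), y), dist q.2 y < r :=
        (continuousAt_snd (p := (((x, t), y) : ST × E))).eventually (ball_mem_nhds y r0)
      have f3 : ∀ᶠ q : ST in 𝓝 (x, t), dist q.1 x < dist x y / 2 :=
        (continuousAt_fst (p := ((x, t) : ST))).eventually (ball_mem_nhds x (half_pos dpos))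
      have f4 : ∀ᶠ q : ST in 𝓝 (x, t), a₀ < q.2 :=
        (continuousAt_snd (p := ((x, t) : ST))).eventually (Ioi_mem_nhds (hτ.trans_le ht.1))
      filter_upwards [f1.eventually hper, f1.eventually g3, f2, f1.eventually f3, f1.eventually f4]
        with q q1 q2 q3 q4 q5 hq hq' hlt
      obtain ⟨z, z1, z2, z3, z4⟩ := q1
      have zne : z ≠ q.1.1 := fun e => by
        rw [e] at z2
        have := dist_triangle_left x y q.1.1
        linarith
      have n1 := past q.1 hq q5 hlt z z1 zne z3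
      have n2 := z4 q.2 hq' q3.le
      have n3 := hp q.1 hq (hlt.trans_le ht.2)
      have n4 := q2 hlt
      have n5 := Real.log_le_log (by linarith) (n1.le.trans n2)
      linarith [l2 _ n3]
    · have n3 : 0 < ψ (x, t) := by linarith
      have := Real.log_le_log dpos e4
      linarith [l2 _ n3]
  intro p hp1 hp2 hp3
  rcases le_or_gt p.2 τ with h | h
  · exact h0 p hp1 hp2 h
  · intro z hz hne hpl
    by_contra hd
    exact emp ⟨_, memV p.1 z p.2 hp1 hz ⟨h.le, hp3⟩ hne hpl (not_lt.1 hd)⟩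

theorem psi_pos (F : Mv) (m : Measure ST) (y : E) (ε σ a₀ : ℝ) {B θ₁ : ℝ} {p : ST} (hB : 0 < B)
    (hθ : 0 < θ₁) (hp : p.2 < 0) : 0 < psi F m y ε B σ a₀ θ₁ p := by
  have : 0 < θ₁ * -p.2 := mul_pos hθ (neg_pos.2 hp)
  unfold psi
  positivity

theorem psi_le {m : Measure ST} {y : E} {ε σ a₀ B θ₁ : ℝ} {p : ST} (hB : 0 < B)
    (hp : p.2 < 0) (hU : 0 ≤ UU F m y ε B σ a₀ p) :
    psi F m y ε B σ a₀ θ₁ p ≤ B⁻¹ * √√(θ₁ * -p.2) := by
  refine mul_le_of_le_one_right (by positivity) (Real.exp_le_one_iff.2 ?_)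
  have : -‖p.1 - y‖ ^ 2 / (32 * -p.2) ≤ 0 :=
    div_nonpos_of_nonpos_of_nonneg (neg_nonpos.2 (sq_nonneg _)) (by linarith)
  linarith

theorem slice_closed {I : Set ℝ} {Λ : ℝ} (h : Fl F I Λ) {t : ℝ} (ht : t ∈ I) :
    IsClosed (F.sl t) := by
  refine isClosed_of_closure_subset fun x hx => h.proper (x, t) ?_ ⟨trivial, ht⟩
  exact map_mem_closure (f := fun y : E => ((y, t) : ST)) (by fun_prop) hx fun y hy => hy

end Bar

open Bar A in
theorem A.barS_of (hKey : KeyS) (hCfg : CfgS) (hCR : A.CRS) (hT : TwoS) (hC : PsiCS)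
    (hSub : PsiSubS) (hRP : ReachPosS) : BarS := by
  intro F a Λ G m hF hm
  have ha := hF.neg
  have hreg := hF.fl.mcf.1
  obtain ⟨ρ, hρ⟩ := hF.bdd
  obtain ⟨ε₀, hε₀, hSub⟩ := hSub Λ G
  obtain ⟨η₀, hη₀, hCR⟩ := hCR
  refine ⟨min ε₀ 1, lt_min hε₀ one_pos, fun ε hε hε1 => ?_⟩
  obtain ⟨B₀, hKey⟩ := hKey Λ G ε 2 (min η₀ (1 / 65)) hε (lt_min hη₀ (by norm_num))
  obtain ⟨B₁, hB₁, hCfg⟩ := hCfg Λ G ε B₀ hε (hε1.trans (min_le_right _ _))
  have sub : ∀ s t, a < s → t < 0 → closedBall (0 : E) ρ ×ˢ Icc s t ⊆ univ ×ˢ Ioo a 0 :=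
    fun s t hs ht q hq => ⟨trivial, hs.trans_le hq.2.1, hq.2.2.trans_lt ht⟩
  have rp : ∀ t < 0, ∃ r, 0 < r ∧ ∀ p ∈ F.M, p.2 ∈ Icc (3 * a / 4) t → F.Reach p r := fun t ht => by
    obtain ⟨r, h1, h2⟩ := hRP F hreg _ _ (isOpen_univ.prod isOpen_Ioo) hF.fl.proper
      ((isCompact_closedBall (0 : E) ρ).prod isCompact_Icc) (sub (3 * a / 4) t (by linarith) ht)
    exact ⟨r, h1, fun p hp h => h2 p ⟨hp, mem_closedBall_zero_iff.2 (hρ p hp), h⟩⟩
  have cp : ∀ s t, a < s → t < 0 → IsCompact (F.M ∩ univ ×ˢ Icc s t) := fun s t hs ht => by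
    have := isCompact_inter hF.fl.proper
      ((isCompact_closedBall (0 : E) ρ).prod isCompact_Icc) (sub s t hs ht)
    convert this using 1
    exact Subset.antisymm (fun q hq => ⟨hq.1, mem_closedBall_zero_iff.2 (hρ q hq.1), hq.2.2⟩)
      fun q hq => ⟨hq.1, trivial, hq.2.2⟩
  obtain ⟨r₀, hr₀, hR₀⟩ := rp (a / 2) (by linarith)
  set B := max B₁ (√√(-a) / r₀ + 1) with hBd
  have hB : 0 < B := hB₁.trans_le (le_max_left _ _)
  refine ⟨B, 1, hB, one_pos, fun y θ₁ hθ hθ1 => ?_⟩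
  obtain ⟨⟨c, hc, hlow⟩, hcont⟩ := hC F a Λ G m hF hm y ε B θ₁ hε.le hB hθ
  refine ⟨min (c ^ 2) θ₁, lt_min (pow_pos hc 2) hθ, fun σ hσ hσ1 => ?_⟩
  set ψ := psi F m y ε B σ (3 * a / 4) θ₁ with hψ
  obtain ⟨hcont, hU⟩ := hcont σ hσ
  have neg : ∀ p ∈ F.M, p.2 < 0 := fun p hp => (hF.fl.time p hp).2
  have pos : ∀ p ∈ F.M, 0 < ψ p := fun p hp => psi_pos F m y ε σ _ hB hθ (neg p hp)
  obtain ⟨r₁, hr₁, hR₁⟩ := rp (-θ₁) (by linarith)
  have init : ∀ p ∈ F.M, 3 * a / 4 < p.2 → p.2 ≤ a / 2 →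
      F.Reach p (ψ p) ∧ NoCrit F p (2 * ψ p) := by
    intro p hp h1 h2
    have l1 : ψ p < r₀ := by
      refine (psi_le hB (neg p hp) (hU p (neg p hp))).trans_lt ?_
      have l2 : √√(θ₁ * -p.2) ≤ √√(-a) :=
        Real.sqrt_le_sqrt (Real.sqrt_le_sqrt (by nlinarith [neg p hp]))
      have l3 : √√(-a) / r₀ < B := lt_of_lt_of_le (lt_add_one _) (le_max_right _ _)
      rw [div_lt_iff₀ hr₀] at l3
      rw [inv_mul_lt_iff₀ hB]
      linarith
    refine ⟨Lim.reach_mono (hreg.norm_n hp) (hR₀ p hp ⟨h1.le, h2⟩) l1.le, fun z hz hne hpl => ?_⟩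
    have := far hreg (t := p.2) hp hz hne hpl (hR₀ _ hz ⟨h1.le, h2⟩)
    linarith
  have main : ∀ n : ℕ, ∀ p ∈ F.M, 3 * a / 4 < p.2 → p.2 ≤ a / 2 + n * c ^ 2 →
      (p.2 ≤ -θ₁ ∨ p.2 ≤ a / 2) → F.Reach p (ψ p) ∧ NoCrit F p (2 * ψ p) := by
    intro n
    induction n with
    | zero => exact fun p hp h1 h2 _ => init p hp h1 (by simpa using h2)
    | succ n ih =>
      have c2 : 0 < c ^ 2 := pow_pos hc 2
      have nc : 0 ≤ (n : ℝ) * c ^ 2 := by positivity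
      have curv : ∀ p ∈ F.M, p.2 ∈ Icc (a / 2 + n * c ^ 2) (min (a / 2 + (n + 1) * c ^ 2) (-θ₁)) →
          ∀ z, (z, p.2) ∈ F.M → dist z p.1 ≤ 2 * ψ p →
          F.A2 (z, p.2) ≤ min η₀ (1 / 65) / ψ p ^ 2 := by
        intro p hp ht z hz hd
        have t1 := ht.2.trans (min_le_left _ _)
        have t2 := ht.2.trans (min_le_right _ _)
        have p0 := pos p hp
        have l1 : c ^ 2 ≤ ψ p ^ 2 :=
          pow_le_pow_left₀ hc.le (hlow σ hσ p hp ⟨by linarith [ht.1], t2⟩) 2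
        obtain ⟨ν, σ', B', R, b1, b2, b3⟩ := hCfg F a m hF hm y B σ θ₁ p (le_max_left _ _) hσ hθ
          ⟨by linarith [ht.1], t2⟩ ((hσ1.trans (min_le_left _ _)).trans l1) fun q hq q1 q2 => by
            obtain ⟨u1, u2⟩ := ih q hq q1 (by linarith) (Or.inl (by linarith))
            exact ⟨u1, fun w w1 w2 w3 => by linarith [u2 w w1 w2 w3, pos q hq]⟩
        have e : ((p.1 + (ψ p)⁻¹⁻¹ • ((ψ p)⁻¹ • (z - p.1)), p.2 + 0 / (ψ p)⁻¹ ^ 2) : ST) =
            (z, p.2) := by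
          rw [inv_inv, smul_smul, mul_inv_cancel₀ p0.ne', one_smul, add_sub_cancel, zero_div,
            add_zero]
        have mem : (((ψ p)⁻¹ • (z - p.1), 0) : ST) ∈ (F.para p (ψ p)⁻¹).M := by
          change _ ∈ F.M
          simp only [e]
          exact hz
        have k := hKey _ ν σ' B' R b1 b2 b3 _ mem (by
          rw [norm_smul, norm_inv, Real.norm_eq_abs, abs_of_pos p0, ← dist_eq_norm,
            inv_mul_le_iff₀ p0]
          linarith)
        rw [Tr.para_A2 p (inv_pos.2 p0) hreg mem] at k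
        simp only [e] at k
        rw [inv_inv] at k
        rw [le_div_iff₀ (pow_pos p0 2)]
        linarith
      intro p hp h1 h2 h3
      rcases le_or_gt p.2 (a / 2 + n * c ^ 2) with h4 | h4
      · exact ih p hp h1 h4 h3
      have h5 : p.2 ≤ -θ₁ := h3.resolve_right (by linarith)
      push_cast at h2
      have h6 : p.2 ≤ min (a / 2 + (n + 1) * c ^ 2) (-θ₁) := le_min h2 h5
      have m0 : min (a / 2 + (n + 1) * c ^ 2) (-θ₁) ≤ -θ₁ := min_le_right _ _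
      have nocrit : NoCrit F p (2 * ψ p) := by
        refine step hT hF.fl.mcf (a₀ := 3 * a / 4) (τ := a / 2 + n * c ^ 2)
          (τ' := min (a / 2 + (n + 1) * c ^ 2) (-θ₁)) (by linarith)
          (cp _ _ (by linarith) (by linarith)) hr₁
          (fun q hq ht => hR₁ q hq ⟨by linarith [ht.1], ht.2.trans m0⟩)
          (hcont.mono fun q hq => ⟨trivial, lt_of_le_of_lt (hq.2.2.trans m0) (by linarith)⟩)
          (fun q hq _ => pos q hq) (fun q hq ht z hz hd => ?_) (fun q hq ht => ?_)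
          (fun q hq q1 q2 => (ih q hq q1 q2 (Or.inl (by linarith))).2) p hp h1 h6
        · have := curv q hq ht z hz hd
          rw [le_div_iff₀ (pow_pos (pos q hq) 2)] at this
          linarith [min_le_right η₀ (1 / 65)]
        · exact hSub F a m hF hm y ε B σ θ₁ q hε.le (hε1.trans (min_le_left _ _)) hB hσ hθ
            ((hσ1.trans (min_le_right _ _)).trans (by linarith [ht.2.trans m0]))
      refine ⟨hCR F p _ hreg hp (pos p hp) (slice_closed hF.fl (hF.fl.time p hp)) nocrit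
        fun z hz hd => (curv p hp ⟨h4.le, h6⟩ z hz hd).trans ?_, nocrit⟩
      exact div_le_div_of_nonneg_right (min_le_left _ _) (sq_nonneg _)
  intro p hp h1 h2
  obtain ⟨n, hn⟩ := exists_nat_ge (-a / c ^ 2)
  rw [div_le_iff₀ (pow_pos hc 2)] at hn
  exact (main n p hp h1 (by linarith [neg p hp]) (Or.inl h2)).1

end Crest.Agent.N250

end
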