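import Crest.Agent.N250.A.Stm
import Crest.Agent.N250.MP.Avoid
import Crest.Agent.N250.Im.MV

/-!
# Row 250, block A (helper60): no critical pairs and small curvature give the two balls
-/

set_option autoImplicit false
open MeasureTheory Set Filter Topology Metric
open scoped ContDiff InnerProductSpace
open Crest.GeometryTopology.MCF

noncomputable section

namespace Crest.Agent.N250.A.CR

open MP

variable {F : Mv}

theorem ev_gt {f : ℝ → ℝ} {d : ℝ} (h : HasDerivAt f d 0) (hd : 0 < d) :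
    ∀ᶠ s in 𝓝[>] 0, f 0 < f s := by
  have := ((hasDerivAt_iff_tendsto_slope_zero.1 h).mono_left (nhdsGT_le_nhdsNE 0)).eventually
    (lt_mem_nhds hd)
  filter_upwards [this, self_mem_nhdsWithin] with s h1 h2
  simp only [zero_add, smul_eq_mul] at h1
  have := (mul_pos_iff_of_pos_left (inv_pos.2 h2)).1 h1
  linarith

theorem inner_PL_self (hF : F.Reg) {p : ST} (hp : p ∈ F.M) (v : E) :
    ⟪v, F.PL p v⟫_ℝ = ‖F.PL p v‖ ^ 2 := by
  rw [← real_inner_self_eq_norm_sq]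
  nth_rewrite 2 [Mv.PL]
  rw [inner_sub_left, inner_smul_left, inner_PL hF hp]; simp

theorem norm_PL_sq (hF : F.Reg) {p : ST} (hp : p ∈ F.M) (v : E) :
    ‖F.PL p v‖ ^ 2 = ‖v‖ ^ 2 - ⟪F.n p, v⟫_ℝ ^ 2 := by
  rw [← inner_PL_self hF hp, Mv.PL, inner_sub_right, inner_smul_right, real_inner_self_eq_norm_sq,
    real_inner_comm]
  ring

/-- a function that increases towards the centre is at most its value at the centre -/
theorem lagr (hF : F.Reg) {x : E} {t R : ℝ} (hK : IsCompact (F.sl t ∩ closedBall x R))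
    (hN : NoCrit F (x, t) R) {h : ST → ℝ} (hc : ContinuousOn h F.M)
    (h0 : (x, t) ∈ F.M → h (x, t) ≤ 0)
    (hd : ∀ y ∈ F.sl t, dist y x ≤ R → y ≠ x → F.PL (y, t) (x - y) ≠ 0 →
      ∃ g, DifferentiableAt ℝ g (y, t) ∧ h =ᶠ[𝓝[F.M] (y, t)] g ∧
        0 < fderiv ℝ g (y, t) (F.PL (y, t) (x - y), 0)) :
    ∀ y ∈ F.sl t, dist y x ≤ R → h (y, t) ≤ 0 := by
  intro y₀ hy₀ hd₀
  obtain ⟨y, ⟨hy, hyR⟩, hmax⟩ := hK.exists_isMaxOn ⟨y₀, hy₀, hd₀⟩
    (hc.comp (f := fun z : E => (z, t)) (by fun_prop) fun z hz => hz.1)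
  refine le_trans (hmax ⟨hy₀, hd₀⟩) ?_
  by_cases hyx : y = x
  · subst hyx; exact h0 hy
  exfalso
  have hP : F.PL (y, t) (x - y) ≠ 0 := fun h =>
    absurd (hN y hy hyx h) (not_lt.2 (by rw [dist_comm]; exact hyR))
  obtain ⟨g, hg, he, hpos⟩ := hd y hy hyR hyx hP
  obtain ⟨π, hπ⟩ := exists_ret hF (p := (y, t)) hy
  set P := F.PL (y, t) (x - y) with hPd
  have hcv : HasDerivAt (fun s : ℝ => π ((y, t) + s • ((P, 0) : ST))) (P, 0) 0 := by
    have := HasFDerivAt.comp_hasDerivAt 0 (f := fun s : ℝ => (y, t) + s • ((P, 0) : ST)) (l := π)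
      (by simpa using (hπ.sm.differentiableAt (by simp)).hasFDerivAt) (line_deriv _ _ 0)
    rwa [hπ.tan _ (tn_PL hF hy _)] at this
  have hc0 : π ((y, t) + (0 : ℝ) • ((P, 0) : ST)) = (y, t) := by simpa using hπ.fix
  have h1 : HasDerivAt (fun s : ℝ => g (π ((y, t) + s • ((P, 0) : ST))))
      (fderiv ℝ g (y, t) (P, 0)) 0 :=
    HasFDerivAt.comp_hasDerivAt 0 (l := g) (by rw [hc0]; exact hg.hasFDerivAt) hcv
  have h2 : HasDerivAt (fun s : ℝ => -‖(π ((y, t) + s • ((P, 0) : ST))).1 - x‖ ^ 2)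
      (2 * ‖P‖ ^ 2) 0 := by
    have h5 : HasDerivAt (fun s : ℝ => (π ((y, t) + s • ((P, 0) : ST))).1 - x) P 0 :=
      ((ContinuousLinearMap.fst ℝ E ℝ).hasFDerivAt.comp_hasDerivAt 0 hcv).sub_const x
    have := h5.norm_sq.neg
    rw [hc0] at this
    refine this.congr_deriv ?_
    rw [← inner_PL_self hF hy, ← neg_sub x y, inner_neg_left]; ring
  have t1 := line_tendsto ((y, t) : ST) (P, 0)
  obtain ⟨s, s1, s2, s3, s4⟩ := ((ev_gt h1 hpos).and ((ev_gt h2 (by positivity)).and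
    (((t1.eventually hπ.ev).and ((hπ.tendsto.comp t1).eventually he)).filter_mono
      nhdsWithin_le_nhds))).exists
  rw [hc0] at s1 s2
  set q := π ((y, t) + s • ((P, 0) : ST)) with hq
  have hq2 : q = (q.1, t) := Prod.ext rfl (s3.2.1.trans (by simp))
  have hq1 : q.1 ∈ F.sl t ∩ closedBall x R := by
    refine ⟨by show (q.1, t) ∈ F.M; rw [← hq2]; exact s3.1,
      mem_closedBall.2 (le_trans ?_ (mem_closedBall.1 hyR))⟩
    rw [dist_eq_norm, dist_eq_norm]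
    exact (lt_of_pow_lt_pow_left₀ 2 (norm_nonneg _) (by linarith)).le
  have h3 : h (q.1, t) ≤ h (y, t) := hmax hq1
  rw [← hq2, he.eq_of_nhdsWithin hy] at h3
  have h4 : h q = g q := s4
  linarith

/-- the derivative of the normal along tangent vectors -/
theorem dN_le (hF : F.Reg) {p : ST} (hp : p ∈ F.M) {N : ST → E} (hN : DifferentiableAt ℝ N p)
    (hn : F.n =ᶠ[𝓝[F.M] p] N) {κ : ℝ} (hκ : 0 ≤ κ) (hA : F.A2 p ≤ κ ^ 2) (v : E) :
    ‖fderiv ℝ N p (F.PL p v, 0)‖ ≤ κ * ‖F.PL p v‖ := by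
  set w := F.PL p v with hw
  let L : E →L[ℝ] E := (fderiv ℝ N p).comp (ContinuousLinearMap.inl ℝ E ℝ)
  have e1 : ∀ b, fderiv ℝ N p (w, 0) b = ∑ a, w a * F.A a b p := fun b => by
    have : fderiv ℝ N p (w, 0) = L (∑ a, w a • F.PL p (ee a)) := by
      rw [← PL_sum, sum_ee, hw, PL_PL hF hp]; rfl
    rw [this, map_sum]
    simp [L, A_eq hF hp hN hn]
  refine abs_le_of_sq_le_sq' ?_ (by positivity) |>.2
  rw [mul_pow, EuclideanSpace.real_norm_sq_eq, EuclideanSpace.real_norm_sq_eq]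
  calc ∑ b, fderiv ℝ N p (w, 0) b ^ 2 ≤ ∑ b, (∑ a, w a ^ 2) * ∑ a, F.A a b p ^ 2 :=
        Finset.sum_le_sum fun b _ => by rw [e1]; exact Finset.sum_mul_sq_le_sq_mul_sq _ _ _
    _ = (∑ a, w a ^ 2) * F.A2 p := by
        rw [← Finset.mul_sum, Finset.sum_comm]
        simp [Mv.A2, sq]
    _ ≤ _ := by
        rw [mul_comm]
        exact mul_le_mul_of_nonneg_right hA (Finset.sum_nonneg fun _ _ => sq_nonneg _)

theorem dN_n (hF : F.Reg) {p : ST} (hp : p ∈ F.M) {N : ST → E} (hN : DifferentiableAt ℝ N p)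
    (hn : F.n =ᶠ[𝓝[F.M] p] N) (v : E) : ⟪fderiv ℝ N p (F.PL p v, 0), F.n p⟫_ℝ = 0 := by
  have h1 := hN.hasFDerivAt.inner ℝ hN.hasFDerivAt
  have h2 : (fun _ => (1 : ℝ)) =ᶠ[𝓝[F.M] p] fun q => ⟪N q, N q⟫_ℝ := by
    filter_upwards [hn, self_mem_nhdsWithin] with q q1 q2
    rw [← q1, inner_nn hF q2]
  have h3 := td_eq hF hp h1.differentiableAt h2 (tn_PL hF hp v)
  rw [td_eq hF hp (differentiableAt_const (1 : ℝ)) EventuallyEq.rfl (tn_PL hF hp v), h1.fderiv] at h3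
  simp only [fderiv_fun_const, Pi.zero_apply, _root_.zero_apply, ContinuousLinearMap.comp_apply,
    ContinuousLinearMap.prod_apply, fderivInnerCLM_apply, ← hn.eq_of_nhdsWithin hp] at h3
  rw [real_inner_comm] at h3
  linarith

/-- the chord from the centre is almost tangent at its other end -/
theorem chord (hF : F.Reg) {x : E} {t R κ κ' : ℝ} (hK : IsCompact (F.sl t ∩ closedBall x R))
    (hN : NoCrit F (x, t) R) (hκ : 0 ≤ κ) (hκ' : κ < κ')
    (hA : ∀ y ∈ F.sl t, dist y x ≤ R → F.A2 (y, t) ≤ κ ^ 2) :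
    ∀ y ∈ F.sl t, dist y x ≤ R → |⟪F.n (y, t), y - x⟫_ℝ| ≤ κ' * ‖y - x‖ ^ 2 / 2 := by
  have key : ∀ e : ℝ, |e| = 1 → ∀ y ∈ F.sl t, dist y x ≤ R →
      e * ⟪F.n (y, t), y - x⟫_ℝ - κ' / 2 * ‖y - x‖ ^ 2 ≤ 0 := fun e he => by
    refine lagr hF hK hN (h := fun q => e * ⟪F.n q, q.1 - x⟫_ℝ - κ' / 2 * ‖q.1 - x‖ ^ 2)
      ((continuousOn_const.mul ((sm_n hF).continuousOn.inner (by fun_prop))).sub (by fun_prop))
      (fun _ => by simp) fun y hy hR _ hP => ?_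
    obtain ⟨N, hNs, hn⟩ := n_ext hF (p := (y, t)) hy
    have hNd := hNs.differentiableAt (by simp)
    have h0 := (hasFDerivAt_fst (𝕜 := ℝ) (p := ((y, t) : ST))).sub_const x
    have h1 := ((hNd.hasFDerivAt.inner ℝ h0).const_mul e).sub (h0.norm_sq.const_mul (κ' / 2))
    refine ⟨_, h1.differentiableAt, hn.mono fun q hq => by simp [hq], ?_⟩
    rw [h1.fderiv]
    have a1 := dN_le hF hy hNd hn hκ (hA y hy hR) (x - y)
    have a2 := dN_n hF hy hNd hn (x - y)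
    have a3 := inner_PL_self hF hy (x - y)
    have a4 := inner_PL hF hy (x - y)
    have a6 : x - y = F.PL (y, t) (x - y) + ⟪F.n (y, t), x - y⟫_ℝ • F.n (y, t) := by simp [Mv.PL]
    set P := F.PL (y, t) (x - y) with hPd
    set u := fderiv ℝ N (y, t) (P, 0) with hu
    have a5 : ⟪u, x - y⟫_ℝ = ⟪u, P⟫_ℝ := by
      rw [a6, inner_add_right, inner_smul_right, a2, mul_zero, add_zero]
    have a7 : |e * ⟪u, P⟫_ℝ| ≤ κ * ‖P‖ * ‖P‖ := by
      rw [abs_mul, he, one_mul]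
      exact (abs_real_inner_le_norm _ _).trans (mul_le_mul_of_nonneg_right a1 (norm_nonneg _))
    have a8 : 0 < ‖P‖ ^ 2 := by positivity
    simp only [_root_.sub_apply, _root_.smul_apply, ContinuousLinearMap.comp_apply,
      ContinuousLinearMap.prod_apply, fderivInnerCLM_apply, ← hn.eq_of_nhdsWithin hy,
      ContinuousLinearMap.coe_fst', innerSL_apply_apply, smul_eq_mul, nsmul_eq_mul]
    rw [a4, ← hu, ← neg_sub x y, inner_neg_right, inner_neg_left, a5, a3]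
    have := (abs_le.1 a7).2
    push_cast
    nlinarith
  intro y hy hR
  have h1 := key 1 (by simp) y hy hR
  have h2 := key (-1) (by simp) y hy hR
  exact abs_le.2 ⟨by linarith, by linarith⟩

/-- the normal is Lipschitz from the centre -/
theorem nlip (hF : F.Reg) {x : E} {t R κ : ℝ} (hK : IsCompact (F.sl t ∩ closedBall x R))
    (hN : NoCrit F (x, t) R) (hκ : 0 < κ)
    (hA : ∀ y ∈ F.sl t, dist y x ≤ R → F.A2 (y, t) ≤ κ ^ 2)
    (hT : ∀ y ∈ F.sl t, dist y x ≤ R → ‖x - y‖ ≤ 2 * ‖F.PL (y, t) (x - y)‖) :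
    ∀ y ∈ F.sl t, dist y x ≤ R → ‖F.n (y, t) - F.n (x, t)‖ ≤ 3 * κ * ‖y - x‖ := by
  have key : ∀ w : E, w ≠ 0 → ∀ y ∈ F.sl t, dist y x ≤ R →
      ⟪F.n (y, t) - F.n (x, t), w⟫_ℝ - 3 * κ * ‖w‖ * √(‖y - x‖ ^ 2) ≤ 0 := fun w hw => by
    refine lagr hF hK hN
      (h := fun q => ⟪F.n q - F.n (x, t), w⟫_ℝ - 3 * κ * ‖w‖ * √(‖q.1 - x‖ ^ 2))
      ((((sm_n hF).continuousOn.sub continuousOn_const).inner continuousOn_const).sub
        (by fun_prop)) (fun _ => by simp) fun y hy hR hyx hP => ?_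
    obtain ⟨N, hNs, hn⟩ := n_ext hF (p := (y, t)) hy
    have hNd := hNs.differentiableAt (by simp)
    have hd : 0 < ‖y - x‖ := norm_pos_iff.2 (sub_ne_zero.2 hyx)
    have h0 := (hasFDerivAt_fst (𝕜 := ℝ) (p := ((y, t) : ST))).sub_const x
    have h1 := ((hNd.hasFDerivAt.sub_const (F.n (x, t))).inner ℝ (hasFDerivAt_const w _)).sub
      ((h0.norm_sq.sqrt (by positivity)).const_mul (3 * κ * ‖w‖))
    refine ⟨_, h1.differentiableAt, hn.mono fun q hq => by simp [hq], ?_⟩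
    rw [h1.fderiv]
    have a1 := dN_le hF hy hNd hn hκ.le (hA y hy hR) (x - y)
    have a3 := inner_PL_self hF hy (x - y)
    have a4 := hT y hy hR
    set P := F.PL (y, t) (x - y) with hPd
    set u := fderiv ℝ N (y, t) (P, 0) with hu
    have a7 : |⟪u, w⟫_ℝ| ≤ κ * ‖P‖ * ‖w‖ :=
      (abs_real_inner_le_norm _ _).trans (mul_le_mul_of_nonneg_right a1 (norm_nonneg _))
    have a8 : 0 < ‖P‖ := norm_pos_iff.2 hP
    have a9 : 0 < ‖w‖ := norm_pos_iff.2 hw
    simp only [_root_.sub_apply, _root_.smul_apply, ContinuousLinearMap.comp_apply,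
      ContinuousLinearMap.prod_apply, fderivInnerCLM_apply, _root_.zero_apply, inner_zero_right,
      ContinuousLinearMap.coe_fst', innerSL_apply_apply, smul_eq_mul, nsmul_eq_mul,
      Real.sqrt_sq hd.le]
    rw [← hu, ← neg_sub x y, inner_neg_left, a3, norm_neg]
    rw [← norm_sub_rev] at hd
    have b1 : 1 / 2 ≤ ‖P‖ / ‖x - y‖ := by rw [le_div_iff₀ hd]; linarith
    have b2 : 1 / (2 * ‖x - y‖) * (((2 : ℕ) : ℝ) * -‖P‖ ^ 2) = -(‖P‖ * (‖P‖ / ‖x - y‖)) := by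
      push_cast; field_simp
    rw [b2]
    have b3 : 0 < κ * ‖P‖ * ‖w‖ := by positivity
    have := (abs_le.1 a7).1
    nlinarith
  intro y hy hR
  by_cases h : F.n (y, t) - F.n (x, t) = 0
  · rw [h, norm_zero]; positivity
  have h1 := key _ h y hy hR
  rw [Real.sqrt_sq (norm_nonneg _), real_inner_self_eq_norm_sq] at h1
  have h2 := norm_pos_iff.2 h
  nlinarith

end CR

open CR MP in
theorem crS_holds : CRS := by
  refine ⟨1 / 100, by norm_num, fun F p r hF hp hr hc hN hA => ?_⟩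
  obtain ⟨x, t⟩ := p
  have hK : IsCompact (F.sl t ∩ closedBall x (2 * r)) :=
    (isCompact_closedBall x (2 * r)).inter_left hc
  have hκ : 0 < 1 / (10 * r) := by positivity
  have hA' : ∀ y ∈ F.sl t, dist y x ≤ 2 * r → F.A2 (y, t) ≤ (1 / (10 * r)) ^ 2 := fun y hy h =>
    (hA y hy h).trans_eq (by field_simp; norm_num)
  have h1 := chord hF hK hN hκ.le (κ' := 2 * (1 / (10 * r))) (by linarith) hA'
  have h1' : ∀ y ∈ F.sl t, dist y x ≤ 2 * r →
      |⟪F.n (y, t), y - x⟫_ℝ| ≤ ‖y - x‖ ^ 2 / (10 * r) := fun y hy h =>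
    (h1 y hy h).trans_eq (by field_simp)
  have h2 := nlip hF hK hN hκ hA' fun y hy h => by
    have b1 := h1' y hy h
    rw [dist_eq_norm] at h
    have b2 : ‖y - x‖ ^ 2 / (10 * r) ≤ ‖y - x‖ / 5 := by
      rw [div_le_div_iff₀ (by positivity) (by norm_num)]
      nlinarith [norm_nonneg (y - x)]
    have b3 := norm_PL_sq hF hy (x - y)
    rw [← neg_sub y x, inner_neg_right, norm_neg] at b3
    rw [← neg_sub y x, norm_neg]
    refine abs_le_of_sq_le_sq' ?_ (by positivity) |>.2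
    have b4 := sq_le_sq' (abs_le.1 (b1.trans b2)).1 (abs_le.1 (b1.trans b2)).2
    nlinarith [sq_nonneg ‖y - x‖]
  rw [Im.reach_iff (norm_n hF hp) hr]
  intro y hy
  show |⟪F.n (x, t), y - x⟫_ℝ| ≤ ‖y - x‖ ^ 2 / (2 * r)
  by_cases h : dist y x ≤ 2 * r
  · have b1 := h1' y hy h
    have b2 := (abs_real_inner_le_norm (F.n (y, t) - F.n (x, t)) (y - x)).trans
      (mul_le_mul_of_nonneg_right (h2 y hy h) (norm_nonneg _))
    rw [inner_sub_left] at b2
    have b3 : 3 * (1 / (10 * r)) * ‖y - x‖ * ‖y - x‖ = 3 * (‖y - x‖ ^ 2 / (10 * r)) := by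
      field_simp
    have b4 : ‖y - x‖ ^ 2 / (2 * r) = 5 * (‖y - x‖ ^ 2 / (10 * r)) := by field_simp; ring
    have b5 : 0 ≤ ‖y - x‖ ^ 2 / (10 * r) := by positivity
    rw [b3] at b2
    rw [b4]
    exact abs_le.2 ⟨by linarith [abs_le.1 b1, abs_le.1 b2], by linarith [abs_le.1 b1, abs_le.1 b2]⟩
  · rw [dist_eq_norm, not_le] at h
    refine (abs_real_inner_le_norm _ _).trans ?_
    rw [norm_n hF hp, one_mul, le_div_iff₀ (by positivity)]
    nlinarith [norm_nonneg (y - x)]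

end Crest.Agent.N250.A

end
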