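import Crest.Agent.N250.A.Cfg0

/-!
# Row 250, block A (helper36): rescaling at a point gives a normalised configuration
-/

set_option autoImplicit false
open MeasureTheory Set Filter Topology Metric
open scoped ContDiff InnerProductSpace
open Crest.GeometryTopology.MCF

noncomputable section

namespace Crest.Agent.N250.A

namespace Cf

variable {F : Mv} {m : Measure ST} {a Λ G ε B κ σ t t' : ℝ} {y : E} {p q : ST}

/-- the strip -/
abbrev Sp (a t : ℝ) : Set ST := {q : ST | 3 * a / 4 < q.2 ∧ q.2 < t}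

theorem meas_Sp (a t : ℝ) : MeasurableSet (Sp a t) := measurable_snd measurableSet_Ioo

/-- the compensating density -/
def ex (F : Mv) (t : ℝ) (q : ST) : ℝ := F.A2 q * (2 * (t - q.2) / q.2 ^ 2)

/-- the frozen density -/
def ww (F : Mv) (y : E) (ε B κ t : ℝ) (q : ST) : ℝ := dens F y ε B t q + κ * ex F t q

/-- the frozen source -/
def rho (F : Mv) (m : Measure ST) (y : E) (a ε B κ t : ℝ) : Measure ST :=
  (m.restrict (Sp a t)).withDensity fun q => ENNReal.ofReal (ww F y ε B κ t q)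

theorem ex_nonneg (h : q.2 ≤ t) : 0 ≤ ex F t q :=
  mul_nonneg (A2_nonneg F q) (div_nonneg (by linarith) (sq_nonneg _))

theorem damp (h : q.2 ≤ t) (ht : t < 0) : 0 ≤ 1 - ((t - q.2) / q.2) ^ 2 := by
  have : 0 < q.2 ^ 2 := by nlinarith
  rw [div_pow, sub_nonneg, div_le_one this]
  nlinarith

theorem dev_le (hε : 0 ≤ ε) (hκ : 0 ≤ κ) (h : q.2 ≤ t) (ht : t < 0) :
    ε * B * F.dev (y, 0) q ^ 2 ≤ ww F y ε B κ t q := by
  have h1 := mul_nonneg (mul_nonneg hε (A2_nonneg F q)) (damp h ht)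
  have h2 := mul_nonneg hκ (ex_nonneg (F := F) h)
  unfold ww dens
  linarith

theorem ww_nonneg (hε : 0 ≤ ε) (hB : 0 ≤ B) (hκ : 0 ≤ κ) (h : q.2 ≤ t) (ht : t < 0) : 0 ≤ ww F y ε B κ t q :=
  le_trans (by positivity) (dev_le hε hκ h ht)

theorem A2_le (hε : 0 ≤ ε) (hB : 0 ≤ B) (hκ : 0 ≤ κ) (h : q.2 ≤ t) (h2 : ((t - q.2) / q.2) ^ 2 ≤ 1 / 2) :
    ε / 2 * F.A2 q ≤ ww F y ε B κ t q := by
  have h1 := mul_le_mul_of_nonneg_left h2 (mul_nonneg hε (A2_nonneg F q))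
  have h3 := mul_nonneg hκ (ex_nonneg (F := F) h)
  have h4 : 0 ≤ ε * B * F.dev (y, 0) q ^ 2 := by positivity
  unfold ww dens
  linarith

theorem dens_le (hε : 0 ≤ ε) (h : q.2 ≤ t') (h' : t' ≤ t) (hκ : ε * (t - t') ≤ κ) :
    dens F y ε B t' q ≤ ww F y ε B κ t q := by
  have h1 : ((t - q.2) / q.2) ^ 2 - ((t' - q.2) / q.2) ^ 2 ≤ (t - t') * (2 * (t - q.2) / q.2 ^ 2) := by
    rw [div_pow, div_pow, ← sub_div, ← mul_div_assoc]
    refine div_le_div_of_nonneg_right ?_ (sq_nonneg _)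
    nlinarith
  have h2 := mul_le_mul_of_nonneg_left h1 (mul_nonneg hε (A2_nonneg F q))
  have h3 := mul_le_mul_of_nonneg_right hκ (ex_nonneg (F := F) (h.trans h'))
  unfold ww dens
  unfold ex at h3 ⊢
  linarith

theorem cont_dens (hF : F.Reg) (ht : t < 0) (s : ℝ) :
    ContinuousOn (dens F y ε B t') (F.M ∩ univ ×ˢ Icc s t) := by
  have h1 := (cont_A2 hF).mono (inter_subset_left (t := univ ×ˢ Icc s t))
  have h2 : ContinuousOn (F.dev (y, 0)) (F.M ∩ univ ×ˢ Icc s t) := fun q hq =>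
    (hF.dev_cont hq.1 (hq.2.2.2.trans_lt ht)).mono inter_subset_left
  have h3 : ∀ q ∈ F.M ∩ univ ×ˢ Icc s t, q.2 ≠ 0 := fun q hq => (hq.2.2.2.trans_lt ht).ne
  unfold dens
  fun_prop (disch := exact h3)

theorem cont_ex (hF : F.Reg) (ht : t < 0) (s : ℝ) : ContinuousOn (ex F t') (F.M ∩ univ ×ˢ Icc s t) := by
  have h1 := (cont_A2 hF).mono (inter_subset_left (t := univ ×ˢ Icc s t))
  have h3 : ∀ q ∈ F.M ∩ univ ×ˢ Icc s t, q.2 ^ 2 ≠ 0 := fun q hq => pow_ne_zero 2 (hq.2.2.2.trans_lt ht).ne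
  unfold ex
  fun_prop (disch := exact h3)

theorem cont_ww (hF : F.Reg) (ht : t < 0) (s : ℝ) :
    ContinuousOn (ww F y ε B κ t') (F.M ∩ univ ×ˢ Icc s t) :=
  (cont_dens hF ht s).add (continuousOn_const.mul (cont_ex hF ht s))

theorem cont_gau (hσ : 0 < σ) (p : ST) (s : ℝ) :
    ContinuousOn (fun q : ST => gau q.1 (p.2 - q.2 + σ) p.1) (F.M ∩ univ ×ˢ Icc s p.2) := by
  have h : ∀ q ∈ F.M ∩ univ ×ˢ Icc s p.2, 0 < p.2 - q.2 + σ := fun q hq => by linarith [hq.2.2.2]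
  have h1 : ∀ q ∈ F.M ∩ univ ×ˢ Icc s p.2, 4 * Real.pi * (p.2 - q.2 + σ) ≠ 0 := fun q hq => by
    have := h q hq; positivity
  have h2 : ∀ q ∈ F.M ∩ univ ×ˢ Icc s p.2, 4 * (p.2 - q.2 + σ) ≠ 0 := fun q hq => by
    have := h q hq; positivity
  unfold gau
  fun_prop (disch := first | exact h1 | exact h2)

theorem intg' (hF : Cpt F a Λ G) (hm : IsStm F m) (ht : t < 0) {f : ST → ℝ}
    (hf : ContinuousOn f (F.M ∩ univ ×ˢ Icc (3 * a / 4) t)) : IntegrableOn f (Sp a t) m :=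
  intg hF hm (by linarith [hF.neg]) ht hf

theorem rho_fin (hF : Cpt F a Λ G) (hm : IsStm F m) (ht : t < 0) : IsFiniteMeasure (rho F m y a ε B κ t) :=
  isFiniteMeasure_withDensity_ofReal (intg' hF hm ht (cont_ww hF.fl.mcf.1 ht _)).2

theorem rho_apply {U : Set ST} (hU : MeasurableSet U) (h : U ⊆ Sp a t) :
    rho F m y a ε B κ t U = ∫⁻ q in U, ENNReal.ofReal (ww F y ε B κ t q) ∂m := by
  rw [rho, withDensity_apply _ hU, Measure.restrict_restrict hU, inter_eq_left.2 h]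

theorem pot_rho (hF : Cpt F a Λ G) (hm : IsStm F m) (hε : 0 ≤ ε) (hB : 0 ≤ B) (hκ : 0 ≤ κ) (ht : t < 0)
    (h : p.2 ≤ t) : pot (rho F m y a ε B κ t) σ p =
      ∫ q in Sp a p.2, gau q.1 (p.2 - q.2 + σ) p.1 * ww F y ε B κ t q ∂m := by
  have hS : MeasurableSet {q : ST | q.2 < p.2} := measurable_snd measurableSet_Iio
  have e : {q : ST | q.2 < p.2} ∩ Sp a t = Sp a p.2 :=
    Subset.antisymm (fun q hq => ⟨hq.2.1, hq.1⟩) fun q hq => ⟨hq.2, hq.1, hq.2.trans_le h⟩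
  have i := intg' (f := ww F y ε B κ t) hF hm (h.trans_lt ht) (cont_ww hF.fl.mcf.1 (h.trans_lt ht) _)
  rw [pot, rho, restrict_withDensity hS, Measure.restrict_restrict hS, e,
    integral_withDensity_eq_integral_toReal_smul₀ i.aemeasurable.ennreal_ofReal
      (ae_of_all _ fun _ => ENNReal.ofReal_lt_top)]
  refine setIntegral_congr_fun (meas_Sp _ _) fun q hq => ?_
  simp only [smul_eq_mul]
  rw [ENNReal.toReal_ofReal (ww_nonneg hε hB hκ (hq.2.le.trans h) ht), mul_comm]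

theorem pot_top (hF : Cpt F a Λ G) (hm : IsStm F m) (hε : 0 ≤ ε) (hB : 0 ≤ B) (hκ : 0 ≤ κ) (hσ : 0 < σ)
    (ht : p.2 < 0) : pot (rho F m y a ε B κ p.2) σ p = UU F m y ε B σ (3 * a / 4) p +
      κ * ∫ q in Sp a p.2, gau q.1 (p.2 - q.2 + σ) p.1 * ex F p.2 q ∂m := by
  have hR := hF.fl.mcf.1
  have i1 : IntegrableOn (fun q => gau q.1 (p.2 - q.2 + σ) p.1 * dens F y ε B p.2 q) (Sp a p.2) m :=
    intg' hF hm ht ((cont_gau hσ p _).mul (cont_dens hR ht _))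
  have i2 : IntegrableOn (fun q => gau q.1 (p.2 - q.2 + σ) p.1 * ex F p.2 q) (Sp a p.2) m :=
    intg' hF hm ht ((cont_gau hσ p _).mul (cont_ex hR ht _))
  rw [pot_rho hF hm hε hB hκ ht le_rfl, UU, ← integral_const_mul, ← integral_add i1 (i2.const_mul κ)]
  congr 1
  funext q
  simp only [ww]
  ring

theorem UU_le (hF : Cpt F a Λ G) (hm : IsStm F m) (hε : 0 ≤ ε) (hB : 0 ≤ B) (hσ : 0 < σ)
    (ht : t < 0) (h : p.2 ≤ t) (hκ : ε * (t - p.2) ≤ κ) :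
    UU F m y ε B σ (3 * a / 4) p ≤ pot (rho F m y a ε B κ t) σ p := by
  have hR := hF.fl.mcf.1
  have h0 := h.trans_lt ht
  rw [pot_rho hF hm hε hB ((mul_nonneg hε (sub_nonneg.2 h)).trans hκ) ht h, UU]
  refine setIntegral_mono_on (intg' hF hm h0 ((cont_gau hσ p _).mul (cont_dens hR h0 _)))
    (intg' hF hm h0 ((cont_gau hσ p _).mul (cont_ww hR h0 _))) (meas_Sp _ _) fun q hq => ?_
  exact mul_le_mul_of_nonneg_left (dens_le hε hq.2.le h hκ) (gau_nonneg _ (by linarith [hq.2]) _)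

theorem UU_nonneg (hε : 0 ≤ ε) (hB : 0 ≤ B) (hσ : 0 < σ) (ht : p.2 < 0) : 0 ≤ UU F m y ε B σ (3 * a / 4) p := by
  refine setIntegral_nonneg (meas_Sp _ _) fun q hq => mul_nonneg (gau_nonneg _ (by linarith [hq.2]) _) ?_
  simpa [ww] using ww_nonneg (F := F) (y := y) hε hB le_rfl hq.2.le ht

/-- the numerical situation at the contact point -/
structure Nm (a : ℝ) (y : E) (p : ST) (c R : ℝ) : Prop where
  c0 : 0 < c
  R4 : 4 ≤ R
  lo : a / 2 ≤ p.2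
  th : p.2 = -(R ^ 4 * c ^ 2)
  dx : ‖p.1 - y‖ ^ 2 ≤ 64 * (R ^ 4 * c ^ 2) * Real.log R

variable {c R D t₁ t₂ : ℝ}

theorem Nm.neg (h : Nm a y p c R) : p.2 < 0 := by
  have := h.c0
  have : 0 < R := by linarith [h.R4]
  rw [h.th, neg_lt_zero]; positivity

theorem Nm.low (h : Nm a y p c R) (h1 : -R ^ 2 ≤ t₁) : 3 * a / 4 < p.2 + c ^ 2 * t₁ := by
  have h2 : 0 < c ^ 2 := pow_pos h.c0 2
  have h3 : 16 ≤ R ^ 2 := by nlinarith [h.R4]
  have h4 : 16 * R ^ 2 ≤ R ^ 4 := by nlinarith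
  have h5 := mul_le_mul_of_nonneg_left h1 h2.le
  have h6 := mul_le_mul_of_nonneg_left h4 h2.le
  have h7 := mul_le_mul_of_nonneg_left h3 h2.le
  linarith [h.lo, h.th]

theorem Nm.dx' (h : Nm a y p c R) : ‖p.1 - y‖ ^ 2 ≤ 64 * R ^ 5 * c ^ 2 := by
  have h0 : 0 < R := by linarith [h.R4]
  have := mul_le_mul_of_nonneg_left (Real.log_le_self h0.le) (by positivity : 0 ≤ 64 * (R ^ 4 * c ^ 2))
  linarith [h.dx]

theorem Nm.near (h : Nm a y p c R) {z : E} (hz : ‖z - p.1‖ ≤ c * R) :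
    ‖z - y‖ ^ 2 ≤ ‖p.1 - y‖ ^ 2 + 32 * (R ^ 4 * c ^ 2) ∧ ‖z - y‖ ^ 2 ≤ 130 * R ^ 5 * c ^ 2 := by
  have h0 : 0 < R := by linarith [h.R4]
  have hc := h.c0
  have h1 : ‖z - y‖ ≤ ‖p.1 - y‖ + c * R := by linarith [norm_sub_le_norm_sub_add_norm_sub z p.1 y]
  have h2 : ‖z - y‖ ^ 2 ≤ (‖p.1 - y‖ + c * R) ^ 2 := by gcongr
  have h3 := h.dx'
  have h4 : ‖p.1 - y‖ ≤ 8 * R ^ 3 * c := by
    refine abs_le_of_sq_le_sq' (h3.trans ?_) (by positivity) |>.2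
    have : R ^ 5 ≤ R ^ 6 := pow_le_pow_right₀ (by linarith [h.R4]) (by norm_num)
    nlinarith [sq_nonneg c]
  have h5 : ‖p.1 - y‖ * (c * R) ≤ 8 * R ^ 3 * c * (c * R) := by gcongr
  have h6 : R ^ 2 * c ^ 2 ≤ R ^ 4 * c ^ 2 := by gcongr <;> linarith [h.R4]
  have h7 : R ^ 2 * c ^ 2 ≤ R ^ 5 * c ^ 2 := by gcongr <;> linarith [h.R4]
  have h8 : 0 ≤ R ^ 4 * c ^ 2 := by positivity
  constructor
  · nlinarith
  · nlinarith [sq_nonneg (‖p.1 - y‖ - c * R)]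

theorem dv (c t : ℝ) : t / c⁻¹ ^ 2 = c ^ 2 * t := by rw [inv_pow, div_inv_eq_mul, mul_comm]

theorem box_sub (h : Nm a y p c R) (h1 : -R ^ 2 ≤ t₁) (h2 : t₂ ≤ 0) :
    ball p.1 (c * D) ×ˢ Ioo (p.2 + c ^ 2 * t₁) (p.2 + c ^ 2 * t₂) ⊆ Sp a p.2 := fun q hq =>
  ⟨(h.low h1).trans hq.2.1, by nlinarith [hq.2.2, sq_nonneg c]⟩

theorem nu_box (h : Nm a y p c R) (h1 : -R ^ 2 ≤ t₁) (h2 : t₂ ≤ 0) :
    sc p (inv_pos.2 h.c0) (rho F m y a ε B κ p.2) (ball 0 D ×ˢ Ioo t₁ t₂) =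
      ∫⁻ q in ball p.1 (c * D) ×ˢ Ioo (p.2 + c ^ 2 * t₁) (p.2 + c ^ 2 * t₂),
        ENNReal.ofReal (c⁻¹ ^ 2 * ww F y ε B κ p.2 q) ∂m := by
  rw [← pre_box p (inv_pos.2 h.c0), sc_pre, inv_inv, dv, dv,
    rho_apply (measurableSet_ball.prod measurableSet_Ioo) (box_sub h h1 h2),
    ← lintegral_const_mul' _ _ ENNReal.ofReal_ne_top]
  simp only [ENNReal.ofReal_mul (sq_nonneg c⁻¹)]

theorem stI_box (hc : 0 < c) (hF : F.Reg) (hm : IsStm F m) {f f' : ST → ℝ} (hf : ContinuousOn f F.M)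
    (h : ∀ q ∈ (F.para p c⁻¹).M, f' q = c ^ 2 * f (Th p (inv_pos.2 hc) q)) {b : ℝ} (hb : 0 ≤ b) :
    ENNReal.ofReal b * (F.para p c⁻¹).stI ((ball 0 D ×ˢ univ).indicator f') t₁ t₂ =
      ∫⁻ q in ball p.1 (c * D) ×ˢ Ioo (p.2 + c ^ 2 * t₁) (p.2 + c ^ 2 * t₂),
        ENNReal.ofReal (c⁻¹ ^ 2 * (b * f q)) ∂m := by
  rw [stI_para p (inv_pos.2 hc) hF hm (f := fun q => c ^ 2 * f q) (continuousOn_const.mul hf) h, inv_inv, dv, dv,
    ← mul_assoc, ← ENNReal.ofReal_mul hb, ← lintegral_const_mul' _ _ ENNReal.ofReal_ne_top]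
  refine lintegral_congr fun q => ?_
  rw [← ENNReal.ofReal_mul (by positivity)]
  congr 1
  field_simp

theorem domA (h : Nm a y p c R) (hF : F.Reg) (hm : IsStm F m) (hε : 0 ≤ ε) (hB : 0 ≤ B) (hκ : 0 ≤ κ)
    (h1 : -R ^ 2 ≤ t₁) (h2 : t₂ ≤ 0) :
    ENNReal.ofReal (ε / 2) * (F.para p c⁻¹).stI ((ball 0 D ×ˢ univ).indicator (F.para p c⁻¹).A2) t₁ t₂ ≤
      sc p (inv_pos.2 h.c0) (rho F m y a ε B κ p.2) (ball 0 D ×ˢ Ioo t₁ t₂) := by
  rw [nu_box h h1 h2, stI_box h.c0 hF hm (cont_A2 hF)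
    (fun q hq => by rw [Tr.para_A2 p (inv_pos.2 h.c0) hF hq, Th_apply, inv_inv]) (by positivity)]
  refine setLIntegral_mono' (measurableSet_ball.prod measurableSet_Ioo) fun q hq => ENNReal.ofReal_le_ofReal ?_
  have k := (box_sub h h1 h2 hq).2.le
  refine mul_le_mul_of_nonneg_left (A2_le hε hB hκ k ?_) (sq_nonneg _)
  have n := h.neg
  have c2 : 0 < c ^ 2 := pow_pos h.c0 2
  have h3 : 16 ≤ R ^ 2 := by nlinarith [h.R4]
  have h4 : 16 * R ^ 2 ≤ R ^ 4 := by nlinarith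
  have h5 := mul_le_mul_of_nonneg_left h1 c2.le
  have h6 := mul_le_mul_of_nonneg_left h4 c2.le
  have h7 : 16 * (p.2 - q.2) ≤ -q.2 := by linarith [hq.2.1, h.th]
  rw [div_pow, div_le_iff₀ (by nlinarith)]
  nlinarith

theorem H_le (h : Nm a y p c R) (hF : F.Reg) (hq : q ∈ F.M) (hz : ‖q.1 - p.1‖ ≤ c * R) (ht : q.2 ≤ p.2) :
    F.H q ^ 2 ≤ 2 * F.dev (y, 0) q ^ 2 + c⁻¹ ^ 2 * (65 / R) := by
  have h0 : 0 < R := by linarith [h.R4]
  have hc := h.c0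
  have h1 : |F.xn y q| ≤ ‖q.1 - y‖ := by
    simpa [Mv.xn, Tr.n_unit hF hq] using abs_real_inner_le_norm (q.1 - y) (F.n q)
  have h2 : F.xn y q ^ 2 ≤ 130 * R ^ 5 * c ^ 2 := by
    rw [← sq_abs]
    exact le_trans (by gcongr) (h.near hz).2
  have h3 : R ^ 4 * c ^ 2 ≤ 0 - q.2 := by linarith [h.th]
  have h4 : R ^ 5 * R ≤ R ^ 4 * R ^ 4 := by
    rw [← pow_succ, ← pow_add]; exact pow_le_pow_right₀ (by linarith [h.R4]) (by norm_num)
  have h5 : 2 * (F.xn y q / (2 * (0 - q.2))) ^ 2 ≤ c⁻¹ ^ 2 * (65 / R) := by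
    calc _ = F.xn y q ^ 2 / (2 * (0 - q.2) ^ 2) := by
          have : 0 < 0 - q.2 := lt_of_lt_of_le (by positivity) h3
          field_simp
      _ ≤ 130 * R ^ 5 * c ^ 2 / (2 * (R ^ 4 * c ^ 2) ^ 2) := by gcongr
      _ = c⁻¹ ^ 2 * (65 * (R ^ 5 / (R ^ 4 * R ^ 4))) := by field_simp; ring
      _ ≤ c⁻¹ ^ 2 * (65 * (1 / R)) := by
          gcongr _ * (_ * ?_)
          rw [div_le_div_iff₀ (by positivity) h0]; linarith
      _ = _ := by ring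
  have e : F.H q = F.dev (y, 0) q + F.xn y q / (2 * (0 - q.2)) := by simp only [Mv.dev]; ring
  rw [e]
  nlinarith [sq_nonneg (F.dev (y, 0) q - F.xn y q / (2 * (0 - q.2)))]

theorem domH (h : Nm a y p c R) (hF : F.Reg) (hA : F.AR Λ) (hm : IsStm F m) (hε : 0 ≤ ε) (hκ : 0 ≤ κ) {B' : ℝ}
    (hB' : 0 < B') (hB : 2 * B' ≤ ε * B) (hΛ : 65 * |Λ| * B' ≤ R) (hD : D ≤ R) (h1 : -R ^ 2 ≤ t₁) (h2 : t₂ ≤ 0) :
    (F.para p c⁻¹).stI ((ball 0 D ×ˢ univ).indicator fun q => (F.para p c⁻¹).H q ^ 2) t₁ t₂ ≤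
      ENNReal.ofReal B'⁻¹ * (sc p (inv_pos.2 h.c0) (rho F m y a ε B κ p.2) (ball 0 D ×ˢ Ioo t₁ t₂) +
        ENNReal.ofReal (D ^ 2 * (t₂ - t₁))) := by
  have h0 : 0 < R := by linarith [h.R4]
  have hc := h.c0
  have e := stI_box (D := D) (t₁ := t₁) (t₂ := t₂) (f' := fun q => (F.para p c⁻¹).H q ^ 2)
    (f := fun q => F.H q ^ 2) hc hF hm (hF.smH.continuousOn.pow 2)
    (fun q hq => by rw [Tr.para_H p (inv_pos.2 hc) hF hq, Th_apply, inv_inv, mul_pow]) hB'.le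
  rw [ENNReal.ofReal_inv_of_pos hB', ← ENNReal.div_eq_inv_mul,
    ENNReal.le_div_iff_mul_le (Or.inl (ENNReal.ofReal_pos.2 hB').ne') (Or.inl ENNReal.ofReal_ne_top), mul_comm, e,
    nu_box h h1 h2]
  rcases le_or_gt D 0 with hD0 | hD0
  · rw [ball_eq_empty.2 (mul_nonpos_of_nonneg_of_nonpos hc.le hD0)]
    simp
  set U := ball p.1 (c * D) ×ˢ Ioo (p.2 + c ^ 2 * t₁) (p.2 + c ^ 2 * t₂)
  have hU : MeasurableSet U := measurableSet_ball.prod measurableSet_Ioo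
  calc _ ≤ ∫⁻ q in U, (ENNReal.ofReal (c⁻¹ ^ 2 * ww F y ε B κ p.2 q) +
        ENNReal.ofReal (c⁻¹ ^ 4 * (65 * B' / R))) ∂m := by
        refine lintegral_mono_ae ?_
        filter_upwards [ae_restrict_mem hU, ae_restrict_of_ae (ae_M hF hm)] with q hq hM
        refine le_trans (ENNReal.ofReal_le_ofReal ?_) ENNReal.ofReal_add_le
        have k := (box_sub h h1 h2 hq).2.le
        have k1 := mul_le_mul_of_nonneg_left (H_le h hF hM
          ((mem_ball_iff_norm.1 hq.1).le.trans (by gcongr)) k) hB'.le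
        have k2 := dev_le (F := F) (y := y) (B := B) hε hκ k h.neg
        have k3 := mul_le_mul_of_nonneg_right hB (sq_nonneg (F.dev (y, 0) q))
        have k4 : B' * F.H q ^ 2 ≤ ww F y ε B κ p.2 q + c⁻¹ ^ 2 * (65 * B' / R) := by
          have : B' * (c⁻¹ ^ 2 * (65 / R)) = c⁻¹ ^ 2 * (65 * B' / R) := by ring
          linarith
        calc _ ≤ c⁻¹ ^ 2 * (ww F y ε B κ p.2 q + c⁻¹ ^ 2 * (65 * B' / R)) := by gcongr
          _ = _ := by ring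
    _ ≤ _ := by
        rw [lintegral_add_right _ measurable_const, setLIntegral_const]
        refine add_le_add le_rfl ((mul_le_mul_right (m_box hA hm p.1 (by positivity) _ _) _).trans ?_)
        rw [show p.2 + c ^ 2 * t₂ - (p.2 + c ^ 2 * t₁) = c ^ 2 * (t₂ - t₁) by ring, ENNReal.ofReal_mul (sq_nonneg c),
          ENNReal.ofReal_mul (sq_nonneg D), ← mul_assoc, ← mul_assoc, ← ENNReal.ofReal_mul (by positivity),
          mul_comm _ (ENNReal.ofReal (c ^ 2)), ← ENNReal.ofReal_mul (by positivity)]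
        refine mul_le_mul_left (ENNReal.ofReal_le_ofReal ?_) _
        have k : 65 * B' / R * Λ ≤ 1 := by
          rw [div_mul_eq_mul_div, div_le_one h0]
          nlinarith [le_abs_self Λ]
        calc _ = 65 * B' / R * Λ * D ^ 2 := by field_simp
          _ ≤ 1 * D ^ 2 := by gcongr
          _ = _ := one_mul _

variable {θ₁ : ℝ}

theorem psi_pos (hB : 0 < B) (hθ : 0 < θ₁) (hp : p.2 < 0) : 0 < psi F m y ε B σ (3 * a / 4) θ₁ p := by
  have : 0 < θ₁ * -p.2 := mul_pos hθ (neg_pos.2 hp)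
  unfold psi
  positivity

/-- the normalised barrier lies below the barrier -/
theorem rad_le (h : Nm a y p c R) (hF : Cpt F a Λ G) (hm : IsStm F m) (hε : 0 ≤ ε) (hB : 0 < B) (hσ : 0 < σ)
    (hθ : 0 < θ₁) (hc : psi F m y ε B σ (3 * a / 4) θ₁ p = c) (hκ : ε * (R ^ 2 * c ^ 2) ≤ κ)
    (h0 : pot (rho F m y a ε B κ p.2) σ p ≤ UU F m y ε B σ (3 * a / 4) p + 1)
    (hz : ‖q.1 - p.1‖ ≤ c * R) (h1 : p.2 - R ^ 2 * c ^ 2 ≤ q.2) (h2 : q.2 ≤ p.2) :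
    Real.exp (pot (rho F m y a ε B κ p.2) σ p - pot (rho F m y a ε B κ p.2) σ q - 2) * c ≤
      psi F m y ε B σ (3 * a / 4) θ₁ q := by
  have n := neg_pos.2 h.neg
  have k1 := UU_le (y := y) (κ := κ) hF hm hε hB.le hσ h.neg h2
    ((mul_le_mul_of_nonneg_left (by linarith) hε).trans hκ)
  have k2 : ‖q.1 - y‖ ^ 2 / (32 * -q.2) ≤ ‖p.1 - y‖ ^ 2 / (32 * -p.2) + 1 := by
    calc _ ≤ (‖p.1 - y‖ ^ 2 + 32 * -p.2) / (32 * -p.2) := by
          gcongr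
          rw [h.th, neg_neg]; exact (h.near hz).1
      _ = _ := by rw [add_div, div_self (by positivity)]
  rw [← hc, psi, psi, mul_left_comm, ← Real.exp_add]
  gcongr
  rw [neg_div, neg_div]
  linarith

/-- the numbers -/
theorem nm (hε : 0 ≤ ε) (hB : 16 ≤ B) (hσ : 0 < σ) (hθ : 0 < θ₁) (hp : p.2 ∈ Icc (a / 2) (-θ₁))
    (hc : psi F m y ε B σ (3 * a / 4) θ₁ p = c) :
    ∃ R, Nm a y p c R ∧ B ≤ R ^ 2 ∧ UU F m y ε B σ (3 * a / 4) p ≤ 2 * Real.log R := by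
  have n : p.2 < 0 := by linarith [hp.2]
  have n' := neg_pos.2 n
  have B0 : 0 < B := by linarith
  have c0 : 0 < c := hc ▸ psi_pos B0 hθ n
  have U0 := UU_nonneg (F := F) (m := m) (y := y) (a := a) hε B0.le hσ n
  set U := UU F m y ε B σ (3 * a / 4) p
  set R := √√(-p.2 / c ^ 2)
  have R0 : 0 < R := by positivity
  have e2 : R ^ 2 = √(-p.2) / c := by
    rw [Real.sq_sqrt (Real.sqrt_nonneg _), Real.sqrt_div n'.le, Real.sqrt_sq c0.le]
  have e4 : R ^ 4 * c ^ 2 = -p.2 := by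
    rw [show R ^ 4 = (R ^ 2) ^ 2 by ring, e2, div_pow, Real.sq_sqrt n'.le]; field_simp
  have x0 : 0 ≤ ‖p.1 - y‖ ^ 2 / (32 * -p.2) := by positivity
  have s1 : √√(θ₁ * -p.2) ≤ √(-p.2) :=
    Real.sqrt_le_sqrt (Real.sqrt_le_iff.2 ⟨n'.le, by nlinarith [hp.2]⟩)
  have k : B * Real.exp (‖p.1 - y‖ ^ 2 / (32 * -p.2) + U) ≤ R ^ 2 := by
    rw [e2, le_div_iff₀ c0, ← hc, psi, neg_div, ← neg_add', Real.exp_neg]
    refine le_trans (le_of_eq ?_) s1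
    field_simp
    exact mul_comm _ _
  have k1 : 1 ≤ Real.exp (‖p.1 - y‖ ^ 2 / (32 * -p.2) + U) := Real.one_le_exp (by positivity)
  have k2 : ‖p.1 - y‖ ^ 2 / (32 * -p.2) + U ≤ 2 * Real.log R := by
    have := Real.log_pow R 2
    push_cast at this
    rw [← this, Real.le_log_iff_exp_le (by positivity)]
    nlinarith
  have k3 : B ≤ R ^ 2 := by nlinarith
  refine ⟨R, ⟨c0, by nlinarith, hp.1, by linarith, ?_⟩, k3, by linarith⟩
  have k4 : ‖p.1 - y‖ ^ 2 / (32 * -p.2) ≤ 2 * Real.log R := by linarith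
  rw [div_le_iff₀ (by positivity)] at k4
  rw [e4]
  linarith

end Cf

open Cf in
theorem cfgS_of (hC : CostS) : CfgS := by
  intro Λ G ε B₀ hε hε1
  obtain ⟨C, C0, hC⟩ := hC Λ G
  set B' := |B₀| + 1
  have B'0 : 0 < B' := by positivity
  set R₁ := 4 + C + B' + 65 * |Λ| * B'
  have R₁0 : 0 < R₁ := by positivity
  have l0 : 0 ≤ 65 * |Λ| * B' := by positivity
  refine ⟨R₁ ^ 2 + 2 * B' / ε, by positivity, fun F a m hF hm y B σ θ₁ p hB hσ hθ hp hσc hg => ?_⟩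
  have b0 : 0 < 2 * B' / ε := by positivity
  have b1 : 2 * B' ≤ ε * B := by
    rw [mul_comm ε, ← div_le_iff₀ hε]; linarith [sq_nonneg R₁]
  have b2 : R₁ ^ 2 ≤ B := by linarith
  have b3 : 16 ≤ B := by nlinarith [show 4 ≤ R₁ by simp only [R₁]; linarith]
  have B0 : 0 < B := by linarith
  generalize hc : psi F m y ε B σ (3 * a / 4) θ₁ p = c at hσc hg ⊢
  obtain ⟨R, h, hR, hU⟩ := nm hε.le b3 hσ hθ hp hc
  have R4 := h.R4
  have hR1 : R₁ ≤ R := (abs_le_of_sq_le_sq' (b2.trans hR) (by linarith)).2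
  simp only [R₁] at hR1
  have c0 := h.c0
  have c2 : 0 < c ^ 2 := by positivity
  have hl := inv_pos.2 c0
  have hr := hF.fl.mcf.1
  have r2 : 16 ≤ R ^ 2 := by nlinarith
  have r4 : 16 * R ^ 2 ≤ R ^ 4 := by nlinarith
  have κ0 : 0 ≤ ε * (R ^ 2 * c ^ 2) := by positivity
  have := rho_fin (y := y) (ε := ε) (B := B) (κ := ε * (R ^ 2 * c ^ 2)) hF hm h.neg
  have T0 : Th p hl 0 = p := by simp [Th_apply]
  have h0 : pot (rho F m y a ε B (ε * (R ^ 2 * c ^ 2)) p.2) σ p ≤ UU F m y ε B σ (3 * a / 4) p + 1 := by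
    rw [pot_top hF hm hε.le B0.le κ0 hσ h.neg]
    have k := hC F a m hF hm σ p hσ (by rw [h.th, neg_neg]; nlinarith)
    refine add_le_add le_rfl ((mul_le_mul_of_nonneg_left k κ0).trans ?_)
    rw [h.th, neg_neg, ← mul_div_assoc, div_le_one (by positivity)]
    have : ε * C ≤ R ^ 2 := by nlinarith
    calc _ = ε * C * (R ^ 2 * c ^ 2) := by ring
      _ ≤ R ^ 2 * (R ^ 2 * c ^ 2) := by gcongr
      _ = _ := by ring
  refine ⟨sc p hl (rho F m y a ε B (ε * (R ^ 2 * c ^ 2)) p.2), σ * c⁻¹ ^ 2, B', R,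
    by linarith [le_abs_self B₀], by linarith [le_abs_self B₀], ⟨(a - p.2) / c ^ 2, R ^ 4, ?_, by nlinarith, ?_⟩,
    Tr.para_lgb p hl hr hF.lgb, sc_fin p hl _, by positivity, ?_, ?_,
    fun D t₁ t₂ _ h1 h2 => domA h hr hm hε.le B0.le κ0 h1 h2,
    fun D t₁ t₂ hD h1 h2 => domH h hr hF.fl.ar hm hε.le κ0 B'0 b1 (by linarith) hD h1 h2, fun q hq hz ht => ?_⟩
  · rw [div_lt_iff₀ c2]
    nlinarith [h.lo, h.th]
  · convert Tr.para_fl p hl hF.fl using 1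
    ext t
    simp only [mem_Ioo, mem_ofPred_eq, dv, div_lt_iff₀ c2]
    refine and_congr ⟨fun k => by linarith, fun k => by linarith⟩ ?_
    rw [h.th, ← mul_lt_mul_iff_left₀ c2]
    constructor <;> intro k <;> linarith
  · rw [inv_pow, ← div_eq_mul_inv, div_le_one c2]; exact hσc
  · rw [pot_sc, T0]; linarith
  · have e1 : (Th p hl q).1 - p.1 = c • q.1 := by simp [Th_apply]
    have e2 : (Th p hl q).2 = p.2 + c ^ 2 * q.2 := by rw [Th_apply, dv]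
    have t1 := mul_le_mul_of_nonneg_left ht.1 c2.le
    have t2 := mul_le_mul_of_nonneg_left ht.2 c2.le
    obtain ⟨g1, g2⟩ := hg (Th p hl q) hq (e2 ▸ h.low ht.1) (by rw [e2]; linarith)
    have k := rad_le (q := Th p hl q) h hF hm hε.le B0 hσ hθ hc le_rfl h0
      (by rw [e1, norm_smul, Real.norm_eq_abs, abs_of_pos c0]; gcongr) (by rw [e2]; linarith) (by rw [e2]; linarith)
    have e : rad (sc p hl (rho F m y a ε B (ε * (R ^ 2 * c ^ 2)) p.2)) (σ * c⁻¹ ^ 2) q / c⁻¹ ≤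
        psi F m y ε B σ (3 * a / 4) θ₁ (Th p hl q) := by
      rwa [rad, pot_sc, pot_sc, T0, div_inv_eq_mul]
    exact ⟨(Tr.para_reach p hl hq _).2 (g1.mono_reg hr hq e),
      noCrit_para p hl fun z hz h1 h2 => e.trans_lt (g2 z hz h1 h2)⟩

end Crest.Agent.N250.A

end
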