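import Crest.Agent.N250.A.Cost
import Crest.Agent.N250.A.Cfg0
import Crest.Agent.N250.FV.Closed

/-! Row 250, block A (helper37): `CostS`, closed. -/

set_option autoImplicit false
open MeasureTheory Set Filter Topology

namespace Crest.Agent.N250.A

theorem costS_of (hA : A2S) : CostS := by
  intro Λ G
  obtain ⟨C, hC, hB⟩ := Cost.blk hA Λ G
  refine ⟨4 * C, by positivity, fun F a m hF hm σ p hσ hp => ?_⟩
  have h := (hB.cost hC.le hF hm (a₀ := 3 * a / 4) (by linarith [hF.neg]) hσ hp).2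
  have e : ∀ q : ST, gau q.1 (p.2 - q.2 + σ) p.1 * (F.A2 q * (2 * (p.2 - q.2) / q.2 ^ 2)) =
      2 * (gau q.1 (p.2 - q.2 + σ) p.1 * (F.A2 q * ((p.2 - q.2) / q.2 ^ 2))) := fun q => by ring
  simp only [e, integral_const_mul]
  rw [show 4 * C / -p.2 = 2 * (2 * C / -p.2) by ring]
  linarith

theorem costS_holds : CostS := costS_of a2S_holds

theorem blk_holds (Λ G : ℝ) : ∃ C : ℝ, 0 < C ∧ Cost.Blk Λ G C := Cost.blk a2S_holds Λ G

end Crest.Agent.N250.A
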