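import Crest.Agent.N250.A.Fin1

/-!
# Row 250, block A (helper83): `FinS`
-/

set_option autoImplicit false
open MeasureTheory Set Filter Topology Metric
open scoped ContDiff InnerProductSpace ENNReal
open Crest.GeometryTopology.MCF

noncomputable section

namespace Crest.Agent.N250.A

namespace Fn

/-- parabolic mass bound on `(a, 0)` -/
def PB (ν : Measure ST) (a C : ℝ) : Prop := ∀ y r t₁ t₂, 0 < r → a < t₁ → t₂ < 0 → t₂ - t₁ ≤ r ^ 2 →
  ν.restrict (Prod.snd ⁻¹' Ioc t₁ t₂) (ball y r ×ˢ univ) ≤ ENNReal.ofReal (C * r ^ 2)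

theorem blk : ∃ C : ℝ, 1 ≤ C ∧ ∀ (ν : Measure ST) (a Λ : ℝ), 0 ≤ Λ → PB ν a Λ →
    ∀ (z : E) (s t₁ t₂ : ℝ) (k : ST → ℝ) (c : ℝ), 0 < s → a < t₁ → t₂ < 0 → t₂ - t₁ ≤ s → 0 ≤ c →
    (∀ q : ST, q.2 ∈ Ioc t₁ t₂ → k q ≤ c * gau z s q.1) →
    ∫⁻ q in Prod.snd ⁻¹' Ioc t₁ t₂, ENNReal.ofReal (k q) ∂ν ≤ ENNReal.ofReal (c * (C * Λ)) := by
  obtain ⟨C, hC, h⟩ := gau_big
  refine ⟨C, hC, fun ν a Λ hΛ hν z s t₁ t₂ k c hs h1 h2 h3 hc hk => ?_⟩
  have := h (ν.restrict (Prod.snd ⁻¹' Ioc t₁ t₂)) Λ z s hs hΛ fun r hr => by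
    have hq := Real.sqrt_pos.2 hs
    refine hν z r t₁ t₂ (by linarith) h1 h2 (h3.trans ?_)
    have := pow_le_pow_left₀ hq.le hr 2
    rwa [Real.sq_sqrt hs.le] at this
  rw [ENNReal.ofReal_mul hc]
  refine le_trans ?_ (mul_le_mul_right this _)
  rw [← lintegral_const_mul' _ _ ENNReal.ofReal_ne_top]
  refine setLIntegral_mono' (measurable_snd measurableSet_Ioc) fun q hq => ?_
  rw [← ENNReal.ofReal_mul hc]
  exact ENNReal.ofReal_le_ofReal (hk q hq)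

theorem sum_min (N : ℕ) : (Summable fun j : ℕ => min (1 : ℝ) (2 ^ N / 2 ^ j)) ∧
    ∑' j : ℕ, min (1 : ℝ) (2 ^ N / 2 ^ j) ≤ N + 2 := by
  have e : ∀ j : ℕ, (2 : ℝ) ^ N / 2 ^ j = 2 ^ N * (1 / 2) ^ j := fun j => by
    rw [one_div, inv_pow, div_eq_mul_inv]
  have hs : Summable fun j : ℕ => min (1 : ℝ) (2 ^ N / 2 ^ j) :=
    .of_nonneg_of_le (fun j => by positivity) (fun j => (min_le_right _ _).trans (e j).le)
      (summable_geometric_two.mul_left _)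
  refine ⟨hs, ?_⟩
  rw [← hs.sum_add_tsum_nat_add N]
  refine add_le_add ?_ ?_
  · refine (Finset.sum_le_sum fun j _ => min_le_left _ _).trans ?_
    simp
  · refine (((summable_nat_add_iff N).2 hs).tsum_le_tsum (fun j => (min_le_right _ _).trans ?_)
      summable_geometric_two).trans tsum_geometric_two.le
    rw [pow_add, one_div, inv_pow]
    apply le_of_eq; field_simp

/-- the damped curvature potential at lags at least `ρ²` -/
theorem farA : ∃ C : ℝ, 1 ≤ C ∧ ∀ (ν : Measure ST) (a Λ : ℝ), 0 ≤ Λ → PB ν a Λ →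
    ∀ (z : E) (a₀ t ρ σ : ℝ) (N : ℕ), a < a₀ → t < 0 → 0 < ρ → 0 < σ → σ ≤ ρ ^ 2 →
    2 * -t ≤ 2 ^ N * ρ ^ 2 →
    ∫⁻ q in Prod.snd ⁻¹' Ioc a₀ (t - ρ ^ 2),
      ENNReal.ofReal (gau q.1 (t - q.2 + σ) z * (1 - ((t - q.2) / q.2) ^ 2)) ∂ν ≤
      ENNReal.ofReal ((N + 2) * (3 * (C * Λ))) := by
  obtain ⟨C, hC, h⟩ := blk
  refine ⟨C, hC, fun ν a Λ hΛ hν z a₀ t ρ σ N ha ht hρ hσ hσρ hN => ?_⟩
  have cov : (Prod.snd ⁻¹' Ioc a₀ (t - ρ ^ 2) : Set ST) ⊆
      ⋃ j : ℕ, Prod.snd ⁻¹' Ioc (max a₀ (t - 2 ^ (j + 1) * ρ ^ 2)) (t - 2 ^ j * ρ ^ 2) := by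
    intro q hq
    have h1 : 1 ≤ (t - q.2) / ρ ^ 2 := (one_le_div (by positivity)).2 (by linarith [hq.2])
    obtain ⟨j, j1, j2⟩ := exists_nat_pow_near h1 one_lt_two
    rw [le_div_iff₀ (by positivity)] at j1
    rw [div_lt_iff₀ (by positivity)] at j2
    exact mem_iUnion.2 ⟨j, max_lt hq.1 (by linarith), by linarith⟩
  refine ((lintegral_mono_set cov).trans (lintegral_iUnion_le _ _)).trans ?_
  have hb : ∀ j : ℕ, ∫⁻ q in Prod.snd ⁻¹' Ioc (max a₀ (t - 2 ^ (j + 1) * ρ ^ 2)) (t - 2 ^ j * ρ ^ 2),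
      ENNReal.ofReal (gau q.1 (t - q.2 + σ) z * (1 - ((t - q.2) / q.2) ^ 2)) ∂ν ≤
      ENNReal.ofReal (min (1 : ℝ) (2 ^ N / 2 ^ j) * (3 * (C * Λ))) := by
    intro j
    have p1 : (1 : ℝ) ≤ 2 ^ j := one_le_pow₀ one_le_two
    have p2 : ρ ^ 2 ≤ 2 ^ j * ρ ^ 2 := le_mul_of_one_le_left (by positivity) p1
    have p3 : 0 < 2 ^ j * ρ ^ 2 := by positivity
    rw [← mul_assoc]
    refine h ν a Λ hΛ hν z (3 * (2 ^ j * ρ ^ 2)) _ _ _ _ (by positivity)
      (ha.trans_le (le_max_left _ _)) (by linarith) ?_ (by positivity) fun q hq => ?_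
    · have := le_max_right a₀ (t - 2 ^ (j + 1) * ρ ^ 2)
      have e : (2 : ℝ) ^ (j + 1) * ρ ^ 2 = 2 * (2 ^ j * ρ ^ 2) := by ring
      linarith
    have q1 := (le_max_right _ _).trans_lt hq.1
    rw [pow_succ] at q1
    have q2 := hq.2
    have g1 : gau q.1 (t - q.2 + σ) z ≤ 3 * gau z (3 * (2 ^ j * ρ ^ 2)) q.1 := by
      rw [gau_symm]
      refine (gau_scale z q.1 (a := 3 * (2 ^ j * ρ ^ 2)) (by linarith) (by linarith)).trans ?_
      refine mul_le_mul_of_nonneg_right ?_ (gau_pos (by positivity) _ _).le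
      rw [div_le_iff₀ (by linarith)]; linarith
    have g2 : 1 - ((t - q.2) / q.2) ^ 2 ≤ min (1 : ℝ) (2 ^ N / 2 ^ j) := by
      refine le_min (by linarith [sq_nonneg ((t - q.2) / q.2)]) ?_
      have s0 : 0 < -q.2 := by linarith
      have e : 1 - ((t - q.2) / q.2) ^ 2 = 2 * -t / -q.2 - (t / q.2) ^ 2 := by
        have : q.2 ≠ 0 := by linarith
        field_simp; ring
      have : 2 * -t / -q.2 ≤ 2 ^ N / 2 ^ j := by
        rw [div_le_div_iff₀ s0 (by positivity)]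
        calc 2 * -t * 2 ^ j ≤ 2 ^ N * ρ ^ 2 * 2 ^ j := by gcongr
          _ = 2 ^ N * (2 ^ j * ρ ^ 2) := by ring
          _ ≤ 2 ^ N * -q.2 := by gcongr; linarith
      linarith [sq_nonneg (t / q.2)]
    calc _ ≤ gau q.1 (t - q.2 + σ) z * min (1 : ℝ) (2 ^ N / 2 ^ j) :=
          mul_le_mul_of_nonneg_left g2 (gau_pos (by linarith) _ _).le
      _ ≤ 3 * gau z (3 * (2 ^ j * ρ ^ 2)) q.1 * min (1 : ℝ) (2 ^ N / 2 ^ j) :=
          mul_le_mul_of_nonneg_right g1 (by positivity)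
      _ = _ := by ring
  refine (ENNReal.tsum_le_tsum hb).trans ?_
  rw [← ENNReal.ofReal_tsum_of_nonneg (fun j => by positivity) ((sum_min N).1.mul_right _), tsum_mul_right]
  exact ENNReal.ofReal_le_ofReal (mul_le_mul_of_nonneg_right (sum_min N).2 (by positivity))

variable {F : Mv} {m : Measure ST}

theorem a2_nonneg (F : Mv) (q : ST) : 0 ≤ F.A2 q := by
  simp only [Mv.A2, Finset.sum_apply, Pi.mul_apply]
  exact Finset.sum_nonneg fun a _ => Finset.sum_nonneg fun b _ => mul_self_nonneg _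

theorem a2_cont (hF : F.Reg) : ContinuousOn F.A2 F.M := by
  have : F.A2 = fun p => ∑ a, ∑ b, F.A a b p * F.A a b p := by ext p; simp [Mv.A2]
  rw [this]
  exact continuousOn_finsetSum _ fun a _ => continuousOn_finsetSum _ fun b _ =>
    (hF.smA a b).continuousOn.mul (hF.smA a b).continuousOn

theorem pb_of (hF : F.Reg) (hm : IsStm F m) {a C : ℝ}
    (h : ∀ y r t₁ t₂, 0 < r → Icc t₁ t₂ ⊆ Ioo a 0 → t₂ - t₁ ≤ r ^ 2 →
      F.stI ((ball y r ×ˢ univ).indicator F.A2) t₁ t₂ ≤ ENNReal.ofReal (C * r ^ 2)) :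
    PB (m.withDensity (dn F F.A2)) a C := by
  intro y r t₁ t₂ hr h1 h2 h3
  have ms : MeasurableSet (ball y r ×ˢ (univ : Set ℝ)) := measurableSet_ball.prod .univ
  have e : (fun q => ENNReal.ofReal ((ball y r ×ˢ (univ : Set ℝ)).indicator (1 : ST → ℝ) q)) =
      (ball y r ×ˢ (univ : Set ℝ)).indicator 1 := by
    ext q; by_cases k : q ∈ ball y r ×ˢ (univ : Set ℝ) <;> simp [indicator_of_mem, indicator_of_notMem, k]
  have := lint_strip hF hm (a2_cont hF) (a2_nonneg F) (k := (ball y r ×ˢ univ).indicator 1)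
    (e ▸ measurable_one.indicator ms) t₁ t₂
  rw [e, lintegral_indicator_one ms] at this
  rw [this]
  refine le_trans (le_of_eq ?_) (h y r t₁ t₂ hr (fun s hs => ⟨h1.trans_le hs.1, hs.2.trans_lt h2⟩) h3)
  congr 1
  ext q
  by_cases k : q ∈ ball y r ×ˢ (univ : Set ℝ) <;> simp [indicator_of_mem, indicator_of_notMem, k]

theorem UU_le (hF : F.Reg) (hneg : ∀ p ∈ F.M, p.2 < 0) (hm : IsStm F m) (y z : E)
    {ε B σ a₀ t T : ℝ} (hε : 0 ≤ ε) (hB : 0 ≤ B) (hσ : 0 < σ) (ht : t < 0) (hT : 0 ≤ T)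
    (h : ENNReal.ofReal ε * ∫⁻ q in Prod.snd ⁻¹' Ioc a₀ t, ENNReal.ofReal (gau q.1 (t - q.2 + σ) z *
        (1 - ((t - q.2) / q.2) ^ 2)) ∂m.withDensity (dn F F.A2) +
      ENNReal.ofReal (ε * B) * ∫⁻ q in Prod.snd ⁻¹' Ioc a₀ t, ENNReal.ofReal (gau q.1 (t - q.2 + σ) z)
        ∂m.withDensity (dn F fun q => F.dev (y, 0) q ^ 2) ≤ ENNReal.ofReal T) :
    UU F m y ε B σ a₀ (z, t) ≤ T := by
  have ms : MeasurableSet (Prod.snd ⁻¹' Ioc a₀ t : Set ST) := measurable_snd measurableSet_Ioc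
  have m1 : Measurable fun q : ST => ENNReal.ofReal (gau q.1 (t - q.2 + σ) z) :=
    meas_gau (by fun_prop) (by fun_prop) (by fun_prop)
  have m2 : Measurable fun q : ST =>
      ENNReal.ofReal (gau q.1 (t - q.2 + σ) z * (1 - ((t - q.2) / q.2) ^ 2)) := by
    unfold gau; fun_prop
  have d1 := meas_dn hF (a2_cont hF)
  have d2 := meas_dn hF (f := fun q => F.dev (y, 0) q ^ 2) fun p hp => (hF.dev_cont hp (hneg p hp)).pow 2
  rw [setLIntegral_withDensity_eq_setLIntegral_mul _ d1 m2 ms,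
    setLIntegral_withDensity_eq_setLIntegral_mul _ d2 m1 ms,
    ← lintegral_const_mul' _ _ ENNReal.ofReal_ne_top, ← lintegral_const_mul' _ _ ENNReal.ofReal_ne_top,
    ← lintegral_add_left ((d1.mul m2).const_mul _)] at h
  unfold UU
  refine (Real.le_norm_self _).trans ((norm_integral_le_lintegral_norm _).trans
    (ENNReal.toReal_le_of_le_ofReal hT (le_trans ?_ h)))
  have ms' : MeasurableSet {q : ST | a₀ < q.2 ∧ q.2 < t} := measurable_snd measurableSet_Ioo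
  refine le_trans (setLIntegral_mono_ae' ms' ?_) (lintegral_mono_set fun q hq => ⟨hq.1, hq.2.le⟩)
  filter_upwards [ae_M hF hm] with q hq hq'
  have g0 := (gau_pos (s := t - q.2 + σ) (by linarith [hq'.2]) q.1 z).le
  have a0 := a2_nonneg F q
  have k0 : 0 ≤ 1 - ((t - q.2) / q.2) ^ 2 := by
    have : q.2 < 0 := hneg q hq
    rw [div_pow, sub_nonneg, div_le_one (by nlinarith)]
    nlinarith [hq'.2]
  simp only [Pi.mul_apply, dn, indicator_of_mem hq, dens]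
  rw [Real.norm_of_nonneg (by positivity), ← ENNReal.ofReal_mul a0, ← ENNReal.ofReal_mul hε,
    ← ENNReal.ofReal_mul (sq_nonneg _), ← ENNReal.ofReal_mul (by positivity),
    ← ENNReal.ofReal_add (by positivity) (by positivity)]
  exact ENNReal.ofReal_le_ofReal (le_of_eq (by ring))

theorem devI (hH : HuiskenS) {a Λ : ℝ} (hF : Fl F (Ioo a 0) Λ) (hm : IsStm F m) (y : E)
    {t₁ t₂ c T : ℝ} {J : Set ℝ} {k : ST → ℝ} (h0 : t₁ ≤ t₂) (h1 : a < t₁) (h2 : t₂ < 0)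
    (hJ : MeasurableSet J) (hJ' : J ⊆ Ioc t₁ t₂) (hc : 0 ≤ c)
    (hk : ∀ q : ST, q.2 ∈ J → k q ≤ c * gau y (-q.2) q.1)
    (hT : F.Fs t₁ y (-t₁) - F.Fs t₂ y (-t₂) ≤ T) :
    ∫⁻ q in Prod.snd ⁻¹' J, ENNReal.ofReal (k q) ∂m.withDensity (dn F fun q => F.dev (y, 0) q ^ 2) ≤
      ENNReal.ofReal (c * T) := by
  have hR := hF.mcf.1
  have e := lint_strip hR hm (f := fun q => F.dev (y, 0) q ^ 2) (k := Phi (y, 0))
    (fun p hp => (hR.dev_cont hp (hF.time p hp).2).pow 2) (fun q => sq_nonneg _)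
    (meas_gau (by fun_prop) (by fun_prop) (by fun_prop)) t₁ t₂
  rw [(hH F _ Λ isOpen_Ioo hF (y, 0) t₁ t₂ h0 h2
    fun s hs => ⟨h1.trans_le hs.1, hs.2.trans_lt h2⟩).2] at e
  simp only [zero_sub] at e
  rw [ENNReal.ofReal_mul hc]
  refine le_trans ?_ (mul_le_mul_right (e.trans_le (ENNReal.ofReal_le_ofReal hT)) _)
  rw [← lintegral_const_mul' _ _ ENNReal.ofReal_ne_top]
  refine le_trans (setLIntegral_mono' (measurable_snd hJ) fun q hq => ?_)
    (lintegral_mono_set (preimage_mono hJ'))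
  rw [← ENNReal.ofReal_mul hc]
  refine ENNReal.ofReal_le_ofReal ((hk q hq).trans (le_of_eq ?_))
  simp [Phi]

theorem split (ν : Measure ST) (g : ST → ℝ≥0∞) (a b c : ℝ) :
    ∫⁻ q in Prod.snd ⁻¹' Ioc a c, g q ∂ν ≤
      ∫⁻ q in Prod.snd ⁻¹' Ioc a b, g q ∂ν + ∫⁻ q in Prod.snd ⁻¹' Ioc b c, g q ∂ν :=
  (lintegral_mono_set (by rw [← preimage_union]; exact preimage_mono Ioc_subset_Ioc_union_Ioc)).trans
    (lintegral_union_le _ _ _)

theorem fs_le {μ : Measure E} {y : E} {s T : ℝ} (hs : 0 < s) (hT : 0 ≤ T)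
    (h : ∫⁻ x, ENNReal.ofReal (gau y s x) ∂μ ≤ ENNReal.ofReal T) : ∫ x, gau y s x ∂μ ≤ T := by
  refine (Real.le_norm_self _).trans ((norm_integral_le_lintegral_norm _).trans
    (ENNReal.toReal_le_of_le_ofReal hT (le_trans (le_of_eq ?_) h)))
  exact lintegral_congr fun x => by rw [Real.norm_of_nonneg (gau_pos hs _ _).le]

theorem psi_ge (y z : E) {ε B σ a₀ r θ D T : ℝ} (hB : 0 < B) (hr : 0 < r) (hθ : r ^ 2 ≤ θ)
    (hz : ‖z - y‖ ^ 2 ≤ D * r ^ 2) (hU : UU F m y ε B σ a₀ (z, -θ) ≤ T) :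
    B⁻¹ * r * Real.exp (-(D / 32 + T)) ≤ psi F m y ε B σ a₀ (r ^ 2) (z, -θ) := by
  unfold psi
  simp only [neg_neg]
  have h0 : 0 < θ := lt_of_lt_of_le (by positivity) hθ
  have h1 : r ≤ √√(r ^ 2 * θ) := by
    refine Real.le_sqrt_of_sq_le (Real.le_sqrt_of_sq_le ?_)
    nlinarith [sq_nonneg r]
  have h2 : ‖z - y‖ ^ 2 / (32 * θ) ≤ D / 32 := by
    have : 0 ≤ D := by
      by_contra k
      nlinarith [sq_nonneg ‖z - y‖, sq_pos_of_pos hr]
    rw [div_le_iff₀ (by positivity)]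
    nlinarith
  refine mul_le_mul (mul_le_mul_of_nonneg_left h1 (by positivity)) (Real.exp_le_exp.2 ?_)
    (by positivity) (by positivity)
  rw [neg_div]; linarith

end Fn

open Fn in
theorem finS_of (hA : A2S) (hH : HuiskenS) : FinS := by
  intro Λ G
  obtain ⟨CA, CA0, hA⟩ := hA Λ G
  obtain ⟨C1, hC1, h1⟩ := farA
  obtain ⟨C2, hC2, h2⟩ := blk
  obtain ⟨C3, hC3, h3⟩ := cheb
  obtain ⟨C4, hC4, h4⟩ := gau_ar
  obtain ⟨L0, hL0⟩ : ∃ L0, L0 = max Λ 0 := ⟨_, rfl⟩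
  have L00 : 0 ≤ L0 := hL0 ▸ le_max_right _ _
  refine ⟨1 / (24 * (C1 * CA)), by positivity, fun ε B R L e Λ' hε hε0 hB hL he hΛ' => ?_⟩
  have hp := Real.pi_pos
  obtain ⟨cL, hcL⟩ : ∃ c, c = 4 * Real.pi * Real.exp (L ^ 2 / 4) * (C3 * L0) := ⟨_, rfl⟩
  have cL0 : 0 ≤ cL := by rw [hcL]; positivity
  obtain ⟨K, hK⟩ : ∃ c, c = 1 + 2 * (cL * (3 * (C2 * CA))) / e := ⟨_, rfl⟩
  have K0 : 0 < K := by rw [hK]; positivity
  obtain ⟨Ee, hE⟩ : ∃ c, c = Real.exp (2 * (L + R) ^ 2 / 4) := ⟨_, rfl⟩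
  have E0 : 0 < Ee := by rw [hE]; positivity
  obtain ⟨K', hK'⟩ : ∃ c, c = ε * (12 * (C1 * CA) + K) + ε * B * (3 * Ee * (C4 * L0) + 2) := ⟨_, rfl⟩
  have K'0 : 0 ≤ K' := by rw [hK']; positivity
  obtain ⟨n, hn⟩ := exists_nat_ge (4 * (B * Λ' * Real.exp ((L + R) ^ 2 / 32 + K')) + 1)
  have n1 : 1 ≤ n := by
    have : (1 : ℝ) ≤ n := le_trans (le_add_of_nonneg_left (by positivity)) hn
    exact_mod_cast this
  obtain ⟨u, hu⟩ : ∃ u : ℝ, u = 2 ^ n := ⟨_, rfl⟩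
  have u2 : 2 ≤ u := hu ▸ le_self_pow₀ one_le_two (by omega)
  have u0 : 0 < u := by linarith
  obtain ⟨η, hη⟩ : ∃ c, c = 1 / (3 * u ^ 2 * Ee * (1 + 2 * cL / e)) := ⟨_, rfl⟩
  have η0 : 0 < η := by rw [hη]; positivity
  have η1 : 3 * u ^ 2 * Ee * η ≤ 1 := by
    rw [hη, mul_one_div, div_le_one (by positivity)]
    exact le_mul_of_one_le_right (by positivity) (le_add_of_nonneg_right (by positivity))
  have η2 : cL * (3 * u ^ 2 * Ee * η) / 1 ≤ e / 2 := by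
    have : cL * (3 * u ^ 2 * Ee * η) / 1 = e / 2 * (2 * cL / (e + 2 * cL)) := by
      rw [hη]; field_simp
    rw [this]
    exact mul_le_of_le_one_right (by positivity) ((div_le_one (by positivity)).2 (by linarith))
  have K1 : cL * (3 * (C2 * CA)) / K ≤ e / 2 := by
    rw [div_le_iff₀ K0, hK]
    have : e / 2 * (1 + 2 * (cL * (3 * (C2 * CA))) / e) = e / 2 + cL * (3 * (C2 * CA)) := by field_simp
    linarith
  refine ⟨u⁻¹, η, 4, by positivity, inv_le_one_of_one_le₀ (by linarith), η0, le_rfl,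
    fun F a m hF hm y x r σ hr hσ hσρ ha hη' hx => ?_⟩
  obtain ⟨ρ, hρ⟩ : ∃ ρ, ρ = u⁻¹ * r := ⟨_, rfl⟩
  rw [← hρ] at hσρ ⊢
  have ρ0 : 0 < ρ := by rw [hρ]; positivity
  have ρ1 : r ^ 2 = u ^ 2 * ρ ^ 2 := by rw [hρ]; field_simp
  have ρ2 : 4 * ρ ^ 2 ≤ r ^ 2 := by
    rw [ρ1]
    refine mul_le_mul_of_nonneg_right ?_ (by positivity)
    have := pow_le_pow_left₀ zero_le_two u2 2
    linarith
  have ρ3 : ρ ≤ r := by
    rw [hρ]; exact mul_le_of_le_one_left hr.le (inv_le_one_of_one_le₀ (by linarith))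
  have q1 : (4 * r) ^ 2 = 16 * r ^ 2 := by ring
  have q2 : (r / 4) ^ 2 = r ^ 2 / 16 := by ring
  have hb : ∀ b, ρ ^ 2 ≤ b → 3 * r ^ 2 ≤ 3 * u ^ 2 * b := fun b k => by
    have := mul_le_mul_of_nonneg_left k (sq_nonneg u)
    linarith
  have rr : 0 < r ^ 2 := by positivity
  have ρρ : 0 < ρ ^ 2 := by positivity
  have R0 : 0 < R := by
    have := dist_nonneg.trans_lt hx
    exact (mul_pos_iff_of_pos_right hr).1 this
  obtain ⟨t, ht⟩ : ∃ t, t = -r ^ 2 - ρ ^ 2 := ⟨_, rfl⟩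
  rw [← ht]
  have a1 : a < -(16 * r ^ 2) := by linarith
  have hR := hF.fl.mcf.1
  have := sfin_m hF.fl.ar hm
  have rt : ∀ s, Rt (F.mu s) L0 := fun s y r hr => (hF.fl.ar s y r hr).trans
    (ENNReal.ofReal_le_ofReal (mul_le_mul_of_nonneg_right (hL0 ▸ le_max_left _ _) (by positivity)))
  have pb := pb_of hR hm (a := a) fun y r t₁ t₂ k1 k2 k3 =>
    hA F _ y r t₁ t₂ isOpen_Ioo hF.fl hF.lgb k1 k2 k3
  have near : ∀ w : E, dist w x ≤ L * ρ → ‖w - y‖ ^ 2 ≤ (L + R) ^ 2 * r ^ 2 := fun w hw => by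
    rw [← mul_pow, ← dist_eq_norm]
    refine pow_le_pow_left₀ dist_nonneg ?_ 2
    have := dist_triangle w x y
    have := mul_le_mul_of_nonneg_left ρ3 (show 0 ≤ L by linarith)
    linarith
  have win : F.Fs (-(4 * r) ^ 2) y (-(-(4 * r) ^ 2)) - F.Fs (-(r / 4) ^ 2) y (-(-(r / 4) ^ 2)) ≤ η := by
    simpa only [Mv.Fg, zero_sub, neg_neg] using hη'.le
  have cmp : ∀ (w : E) (q : ST) (b c : ℝ), dist w x ≤ L * ρ → 0 < b → b + r ^ 2 / 2 ≤ -q.2 → -q.2 ≤ c * b →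
      gau w b q.1 ≤ c * Ee * gau y (-q.2) q.1 := fun w q b c hw b0 b1 b2 => by
    refine (gau_cmp y w q.1 (D := 2 * (L + R) ^ 2) b0 (by positivity) b1 (by linarith [near w hw])).trans ?_
    rw [← hE]
    refine mul_le_mul_of_nonneg_right (mul_le_mul_of_nonneg_right ((div_le_iff₀ b0).2 b2) E0.le)
      (gau_pos (by linarith) _ _).le
  have bm : Measurable fun q : ST => t - q.2 + σ := by fun_prop
  have ms : MeasurableSet (Prod.snd ⁻¹' Ioc (t - ρ ^ 2) t : Set ST) := measurable_snd measurableSet_Ioc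
  have bp : ∀ ν : Measure ST, ∀ᵐ q ∂ν.restrict (Prod.snd ⁻¹' Ioc (t - ρ ^ 2) t), 0 < t - q.2 + σ :=
    fun ν => (ae_restrict_mem ms).mono fun q hq => by linarith [hq.2]
  have cA := h3 (F.mu t) L0 _ _ x ρ L K (3 * (C2 * CA)) L00 (rt t) bm (bp _) ρ0 K0 (by positivity)
    (h2 _ a CA CA0.le pb x (3 * ρ ^ 2) (t - ρ ^ 2) t _ 3 (by positivity) (by linarith) (by linarith)
      (by linarith) (by norm_num) fun q hq => by
        refine (gau_scale x q.1 (a := 3 * ρ ^ 2) (by linarith [hq.2]) (by linarith [hq.1])).trans ?_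
        refine mul_le_mul_of_nonneg_right ?_ (gau_pos (by positivity) _ _).le
        rw [div_le_iff₀ (by linarith [hq.2])]; linarith [hq.2])
  have cD := h3 (F.mu t) L0 _ _ x ρ L 1 (3 * u ^ 2 * Ee * η) L00 (rt t) bm (bp _) ρ0 one_pos (by positivity)
    (devI hH hF.fl hm y (t₁ := -(4 * r) ^ 2) (t₂ := -(r / 4) ^ 2) (J := Ioc (t - ρ ^ 2) t)
      (by linarith) ha (by linarith) measurableSet_Ioc
      (Ioc_subset_Ioc (by linarith) (by linarith)) (by positivity) (fun q hq =>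
        cmp x q _ (3 * u ^ 2) (by rw [dist_self]; positivity) (by linarith [hq.2]) (by linarith)
          (le_trans (by linarith [hq.1]) (hb _ (by linarith [hq.2])))) win)
  rw [← hcL] at cA cD
  refine le_trans (measure_mono fun z hz => ?_) ((measure_union_le _ _).trans ((add_le_add cA cD).trans ?_))
  swap
  · rw [← ENNReal.ofReal_add (by positivity) (by positivity)]
    refine ENNReal.ofReal_le_ofReal ?_
    rw [← add_mul]
    exact mul_le_mul_of_nonneg_right (by linarith) ρρ.le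
  by_contra hc
  simp only [mem_union, mem_inter_iff, mem_setOf_eq, hz.2, and_true, not_or, not_le] at hc
  have zx : dist z x ≤ L * ρ := (mem_ball.1 hz.2).le
  have fA := h1 _ a CA CA0.le pb z (3 * a / 4) t ρ σ (2 * n + 2) (by linarith) (by linarith) ρ0 hσ hσρ
    (by rw [pow_add, pow_mul', ← hu]; linarith)
  have nA : ∫⁻ q in Prod.snd ⁻¹' Ioc (t - ρ ^ 2) t, ENNReal.ofReal (gau q.1 (t - q.2 + σ) z *
      (1 - ((t - q.2) / q.2) ^ 2)) ∂m.withDensity (dn F F.A2) ≤ ENNReal.ofReal K :=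
    le_trans (setLIntegral_mono' ms fun q hq => ENNReal.ofReal_le_ofReal (mul_le_of_le_one_right
      (gau_pos (by linarith [hq.2]) _ _).le (by linarith [sq_nonneg ((t - q.2) / q.2)]))) hc.1.le
  have fD := devI hH hF.fl hm y (t₁ := 3 * a / 4) (t₂ := t - r ^ 2) (J := Ioc (3 * a / 4) (t - r ^ 2))
    (k := fun q => gau q.1 (t - q.2 + σ) z) (c := 3 * Ee) (T := C4 * L0)
    (by linarith) (by linarith) (by linarith) measurableSet_Ioc subset_rfl (by positivity)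
    (fun q hq => (gau_symm _ _ _).trans_le (cmp z q _ 3 zx (by linarith [hq.2]) (by linarith)
      (by linarith [hq.2]))) (by
      have k1 := fs_le (by linarith) (by positivity)
        (h4 (F.mu (3 * a / 4)) L0 y (-(3 * a / 4)) (by linarith) L00 (rt _ y))
      have k2 : 0 ≤ F.Fs (t - r ^ 2) y (-(t - r ^ 2)) :=
        integral_nonneg fun w => (gau_pos (by linarith) _ _).le
      unfold Mv.Fs at k2 ⊢
      linarith)
  have mD := devI hH hF.fl hm y (t₁ := -(4 * r) ^ 2) (t₂ := -(r / 4) ^ 2) (J := Ioc (t - r ^ 2) (t - ρ ^ 2))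
    (k := fun q => gau q.1 (t - q.2 + σ) z) (c := 3 * u ^ 2 * Ee) (by linarith) ha (by linarith)
    measurableSet_Ioc (Ioc_subset_Ioc (by linarith) (by linarith)) (by positivity)
    (fun q hq => (gau_symm _ _ _).trans_le (cmp z q _ (3 * u ^ 2) zx (by linarith [hq.2]) (by linarith)
      (le_trans (by linarith [hq.1]) (hb _ (by linarith [hq.2]))))) win
  have hU : UU F m y ε B σ (3 * a / 4) (z, t) ≤ n / 4 + K' := by
    refine UU_le hR (fun p hp => (hF.fl.time p hp).2) hm y z hε.le hB.le hσ (by linarith)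
      (by positivity) ?_
    refine (add_le_add (mul_le_mul_right ((split _ _ _ (t - ρ ^ 2) _).trans (add_le_add fA nA)) _)
      (mul_le_mul_right ((split _ _ _ (t - r ^ 2) _).trans (add_le_add fD
        ((split _ _ _ (t - ρ ^ 2) _).trans (add_le_add (mD.trans (ENNReal.ofReal_le_ofReal η1))
          hc.2.le)))) _)).trans ?_
    rw [← ENNReal.ofReal_add (by positivity) (by positivity),
      ← ENNReal.ofReal_add (by positivity) (by positivity),
      ← ENNReal.ofReal_add (by positivity) (by positivity), ← ENNReal.ofReal_mul hε.le,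
      ← ENNReal.ofReal_mul (by positivity), ← ENNReal.ofReal_add (by positivity) (by positivity)]
    refine ENNReal.ofReal_le_ofReal ?_
    have k : ε * (24 * (C1 * CA)) ≤ 1 := (le_div_iff₀ (by positivity)).1 hε0
    have k' := mul_le_mul_of_nonneg_left k (show (0 : ℝ) ≤ n / 4 by positivity)
    rw [hK']
    push_cast
    linarith
  have e1 : t = -(r ^ 2 + ρ ^ 2) := by rw [ht]; ring
  have ps := psi_ge y z hB hr (θ := r ^ 2 + ρ ^ 2) (by linarith) (near z zx) (e1 ▸ hU)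
  rw [← e1] at ps
  refine absurd (ps.trans_lt hz.1) (not_lt.2 ?_)
  have k1 : Real.exp (n / 2) ≤ u := by
    rw [hu, show (n : ℝ) / 2 = n * (1 / 2) by ring, Real.exp_nat_mul]
    refine pow_le_pow_left₀ (by positivity) ?_ n
    have := Real.log_two_gt_d9
    exact (Real.le_log_iff_exp_le two_pos).1 (by linarith)
  have k2 : B * Λ' * Real.exp ((L + R) ^ 2 / 32 + K') ≤ Real.exp (n / 4) := by
    linarith [Real.add_one_le_exp ((n : ℝ) / 4)]
  have k3 : Real.exp (n / 2) = Real.exp (n / 4) * Real.exp (n / 4) := by rw [← Real.exp_add]; congr 1; ring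
  have k4 : Real.exp (-((L + R) ^ 2 / 32 + (n / 4 + K'))) =
      (Real.exp ((L + R) ^ 2 / 32 + K') * Real.exp (n / 4))⁻¹ := by
    rw [← Real.exp_add, ← Real.exp_neg]; congr 1; ring
  have k5 : B * (Real.exp ((L + R) ^ 2 / 32 + K') * Real.exp (n / 4)) * Λ' ≤ u := by
    have := mul_le_mul_of_nonneg_right k2 (Real.exp_pos (n / 4)).le
    linarith
  rw [k4, hρ, mul_right_comm, ← mul_inv, ← mul_assoc]
  refine mul_le_mul_of_nonneg_right ?_ hr.le
  rw [← div_eq_mul_inv, div_le_iff₀ u0, ← div_eq_inv_mul, le_div_iff₀ (by positivity)]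
  linarith

end Crest.Agent.N250.A

end
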