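import Crest.Agent.N250.Defs

/-!
# Row 250, block A (helper41): good points give Gaussian density close to one
-/

set_option autoImplicit false
open MeasureTheory Set Filter Topology Metric
open scoped ContDiff InnerProductSpace ENNReal NNReal
open Crest.GeometryTopology.MCF

noncomputable section

namespace Crest.Agent.N250.A

/-- the slice is contained in the flat cone of slope `η` inside the ball of radius `a` about `p` -/
def Cone (F : Mv) (p : ST) (η a : ℝ) : Prop :=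
  ∀ y ∈ F.sl p.2, ‖y - p.1‖ < a → |⟪y - p.1, F.n p⟫_ℝ| ≤ η * ‖y - p.1‖

lemma Cone.mono {F : Mv} {p : ST} {η η' a a' : ℝ} (h : Cone F p η a) (h1 : η ≤ η') (h2 : a' ≤ a) :
    Cone F p η' a' := fun y hy hl =>
  (h y hy (hl.trans_le h2)).trans (mul_le_mul_of_nonneg_right h1 (norm_nonneg _))

/-- two-sided tangent balls give a cone -/
lemma cone_of_reach {F : Mv} {p : ST} {ρ η : ℝ} (h : F.Reach p ρ) (hρ : 0 < ρ)
    (hn : ‖F.n p‖ = 1) : Cone F p η (2 * η * ρ) := by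
  intro y hy hl
  obtain ⟨h1, h2⟩ := h y hy
  rw [dist_eq_norm] at h1 h2
  have e1 : y - (p.1 + ρ • F.n p) = (y - p.1) - ρ • F.n p := by abel
  have e2 : y - (p.1 - ρ • F.n p) = (y - p.1) + ρ • F.n p := by abel
  rw [e1] at h1; rw [e2] at h2
  set v := y - p.1
  have a1 := pow_le_pow_left₀ hρ.le h1 2
  have a2 := pow_le_pow_left₀ hρ.le h2 2
  rw [norm_sub_sq_real, norm_smul, inner_smul_right, hn, Real.norm_eq_abs, abs_of_pos hρ] at a1
  rw [norm_add_sq_real, norm_smul, inner_smul_right, hn, Real.norm_eq_abs, abs_of_pos hρ] at a2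
  simp only [mul_one] at a1 a2
  have hv := norm_nonneg v
  have k : ‖v‖ ^ 2 ≤ 2 * ρ * (η * ‖v‖) := by nlinarith
  rw [abs_le]
  constructor <;> nlinarith

lemma gau_pos {s : ℝ} (hs : 0 < s) (y x : E) : 0 < gau y s x := by
  unfold gau; have := Real.pi_pos; positivity

lemma gau_le {s : ℝ} (hs : 0 < s) (y x : E) : gau y s x ≤ (4 * Real.pi * s)⁻¹ := by
  unfold gau
  have := Real.pi_pos
  have h : Real.exp (-‖x - y‖ ^ 2 / (4 * s)) ≤ 1 := by
    rw [Real.exp_le_one_iff]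
    exact div_nonpos_of_nonpos_of_nonneg (by simp) (by positivity)
  exact mul_le_of_le_one_right (by positivity) h

lemma gau_cont (y : E) (s : ℝ) : Continuous (gau y s) := by
  unfold gau; fun_prop

/-- Gaussian areas are bounded by the area ratios -/
lemma gau_ar : ∃ C : ℝ, 1 ≤ C ∧ ∀ (μ : Measure E) (Λ : ℝ) (y : E) (s : ℝ), 0 < s → 0 ≤ Λ →
    (∀ r, 0 < r → μ (ball y r) ≤ ENNReal.ofReal (Λ * r ^ 2)) →
    ∫⁻ x, ENNReal.ofReal (gau y s x) ∂μ ≤ ENNReal.ofReal (C * Λ) := by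
  have hs : Summable fun j : ℕ => ((j : ℝ) + 1) ^ 2 * Real.exp (1 - j) := by
    have h := (summable_nat_add_iff 1).2 (Real.summable_pow_mul_exp_neg_nat_mul 2 one_pos)
    refine (h.mul_left (Real.exp 2)).congr fun j => ?_
    push_cast
    rw [mul_left_comm, ← Real.exp_add]
    congr 2; ring
  set T := ∑' j : ℕ, ((j : ℝ) + 1) ^ 2 * Real.exp (1 - j)
  have hT : 0 ≤ T := tsum_nonneg fun j => by positivity
  refine ⟨T + 1, by linarith, fun μ Λ y s hs0 hΛ h => ?_⟩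
  have hp := Real.pi_gt_three
  have hq : 0 < √s := Real.sqrt_pos.2 hs0
  have key : ∀ x, ENNReal.ofReal (gau y s x) ≤ ∑' j : ℕ, (ball y ((j + 1) * √s)).indicator
      (fun _ => ENNReal.ofReal (s⁻¹ * Real.exp (1 - j))) x := by
    intro x
    set j := ⌊‖x - y‖ / √s⌋₊
    have h1 : (j : ℝ) ≤ ‖x - y‖ / √s := Nat.floor_le (by positivity)
    have h2 : ‖x - y‖ / √s < j + 1 := Nat.lt_floor_add_one _
    refine le_trans ?_ (ENNReal.le_tsum j)
    rw [indicator_of_mem (by rw [mem_ball, dist_eq_norm]; exact (div_lt_iff₀ hq).1 h2)]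
    refine ENNReal.ofReal_le_ofReal ?_
    unfold gau
    refine mul_le_mul (inv_anti₀ hs0 (by nlinarith)) (Real.exp_le_exp.2 ?_) (by positivity)
      (by positivity)
    have h3 : (j : ℝ) * √s ≤ ‖x - y‖ := (le_div_iff₀ hq).1 h1
    have h4 : ((j : ℝ) * √s) ^ 2 ≤ ‖x - y‖ ^ 2 := pow_le_pow_left₀ (by positivity) h3 2
    rw [mul_pow, Real.sq_sqrt hs0.le] at h4
    rw [div_le_iff₀ (by positivity)]
    nlinarith [mul_nonneg (sq_nonneg ((j : ℝ) - 2)) hs0.le]
  refine (lintegral_mono key).trans ?_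
  rw [lintegral_tsum fun j => (measurable_const.indicator measurableSet_ball).aemeasurable]
  have k2 : ∀ j : ℕ, ∫⁻ x, (ball y ((j + 1) * √s)).indicator
      (fun _ => ENNReal.ofReal (s⁻¹ * Real.exp (1 - j))) x ∂μ ≤
      ENNReal.ofReal (((j : ℝ) + 1) ^ 2 * Real.exp (1 - j) * Λ) := by
    intro j
    rw [lintegral_indicator measurableSet_ball, setLIntegral_const]
    refine (mul_le_mul_right (h _ (by positivity)) _).trans (le_of_eq ?_)
    rw [← ENNReal.ofReal_mul (by positivity), mul_pow, Real.sq_sqrt hs0.le]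
    congr 1; field_simp
  refine (ENNReal.tsum_le_tsum k2).trans ?_
  rw [← ENNReal.ofReal_tsum_of_nonneg (fun j => by positivity) (hs.mul_right Λ), tsum_mul_right]
  exact ENNReal.ofReal_le_ofReal (by nlinarith)

/-- the Gaussian tail -/
lemma gau_tail {s L : ℝ} (hs : 0 < s) {y x : E} (hL : 0 ≤ L) (h : L * √s ≤ ‖x - y‖) :
    gau y s x ≤ 2 * Real.exp (-L ^ 2 / 8) * gau y (2 * s) x := by
  unfold gau
  have hp := Real.pi_pos
  have h4 : (L * √s) ^ 2 ≤ ‖x - y‖ ^ 2 := pow_le_pow_left₀ (by positivity) h 2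
  rw [mul_pow, Real.sq_sqrt hs.le] at h4
  have e : 2 * Real.exp (-L ^ 2 / 8) * ((4 * Real.pi * (2 * s))⁻¹ *
      Real.exp (-‖x - y‖ ^ 2 / (4 * (2 * s)))) = (4 * Real.pi * s)⁻¹ *
      Real.exp (-L ^ 2 / 8 + -‖x - y‖ ^ 2 / (4 * (2 * s))) := by
    rw [Real.exp_add]; field_simp
  rw [e]
  refine mul_le_mul_of_nonneg_left (Real.exp_le_exp.2 ?_) (by positivity)
  have : -L ^ 2 / 8 + -‖x - y‖ ^ 2 / (4 * (2 * s)) - -‖x - y‖ ^ 2 / (4 * s) =
      (‖x - y‖ ^ 2 - L ^ 2 * s) / (8 * s) := by field_simp; ring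
  have h5 : 0 ≤ (‖x - y‖ ^ 2 - L ^ 2 * s) / (8 * s) := div_nonneg (by linarith) (by positivity)
  linarith

lemma muHE_image_le {X Y : Type} [EMetricSpace X] [MeasurableSpace X] [BorelSpace X]
    [EMetricSpace Y] [MeasurableSpace Y] [BorelSpace Y] {L : ℝ≥0} {f : X → Y} {s : Set X}
    (h : LipschitzOnWith L f s) :
    (μHE[2] : Measure Y) (f '' s) ≤ (L : ℝ≥0∞) ^ 2 * (μHE[2] : Measure X) s := by
  simp only [Measure.euclideanHausdorffMeasure_def, Measure.smul_apply, ENNReal.smul_def,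
    smul_eq_mul]
  have := h.hausdorffMeasure_image_le (d := ((2 : ℕ) : ℝ)) (by positivity)
  rw [ENNReal.rpow_natCast] at this
  calc _ ≤ _ * ((L : ℝ≥0∞) ^ 2 * _) := mul_le_mul_right this _
    _ = _ := by ring

/-- a set of small slope has Gaussian area at most `(1 - θ²)⁻¹` -/
lemma gau_slope {G : Set E} (hG : MeasurableSet G) {ν : E} (hν : ‖ν‖ = 1) {θ : ℝ}
    (h1 : θ ^ 2 < 1) (h : ∀ p ∈ G, ∀ q ∈ G, |⟪p - q, ν⟫_ℝ| ≤ θ * ‖p - q‖) (y : E) {s : ℝ}
    (hs : 0 < s) :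
    ∫⁻ x in G, ENNReal.ofReal (gau y s x) ∂(μHE[2] : Measure E) ≤
      ENNReal.ofReal (1 - θ ^ 2)⁻¹ := by
  have hν0 : ν ≠ 0 := by rintro rfl; simp at hν
  have : Fact (Module.finrank ℝ E = 2 + 1) := ⟨by simp⟩
  set P : Submodule ℝ E := (ℝ ∙ ν)ᗮ
  have hP : Module.finrank ℝ P = 2 := Submodule.finrank_orthogonal_span_singleton hν0
  set π : E →L[ℝ] P := P.orthogonalProjectionOnto
  have hπ : ∀ v : E, ‖π v‖ ^ 2 = ‖v‖ ^ 2 - ⟪v, ν⟫_ℝ ^ 2 := by
    intro v
    have e : ((π v : P) : E) = v - ⟪v, ν⟫_ℝ • ν := by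
      change P.starProjection v = _
      rw [Submodule.starProjection_orthogonal_val, Submodule.starProjection_unit_singleton ℝ hν,
        real_inner_comm]
    rw [Submodule.coe_norm, e, norm_sub_sq_real, norm_smul, inner_smul_right, hν]
    simp only [Real.norm_eq_abs, mul_one, sq_abs]; ring
  have hd : 0 < 1 - θ ^ 2 := by linarith
  set L : ℝ≥0 := ⟨√(1 - θ ^ 2)⁻¹, Real.sqrt_nonneg _⟩
  have hL : (L : ℝ) ^ 2 = (1 - θ ^ 2)⁻¹ := Real.sq_sqrt (by positivity)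
  have anti : ∀ p ∈ G, ∀ q ∈ G, ‖p - q‖ ≤ L * ‖π p - π q‖ := by
    intro p hp q hq
    have a := h p hp q hq
    have b := hπ (p - q)
    have c : ⟪p - q, ν⟫_ℝ ^ 2 ≤ (θ * ‖p - q‖) ^ 2 := by
      rw [← sq_abs]; exact pow_le_pow_left₀ (abs_nonneg _) a 2
    rw [← map_sub]
    refine (pow_le_pow_iff_left₀ (norm_nonneg _) (by positivity) two_ne_zero).1 ?_
    rw [mul_pow, hL, b, ← div_eq_inv_mul, le_div_iff₀ hd]
    nlinarith
  have inj : InjOn π G := fun p hp q hq e => by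
    have := anti p hp q hq
    rw [e, sub_self, norm_zero, mul_zero] at this
    exact sub_eq_zero.1 (norm_le_zero_iff.1 this)
  have lip : LipschitzOnWith L (Function.invFunOn π G) (π '' G) := by
    refine LipschitzOnWith.of_dist_le_mul ?_
    rintro _ ⟨p, hp, rfl⟩ _ ⟨q, hq, rfl⟩
    rw [inj.leftInvOn_invFunOn hp, inj.leftInvOn_invFunOn hq, dist_eq_norm, dist_eq_norm]
    exact anti p hp q hq
  have hv : (μHE[2] : Measure P) = volume := by
    rw [← hP]; exact InnerProductSpace.euclideanHausdorffMeasure_eq_volume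
  have hm : Measure.map π ((μHE[2] : Measure E).restrict G) ≤
      ((L : ℝ≥0∞) ^ 2) • (volume : Measure P) := by
    refine Measure.le_iff.2 fun B hB => ?_
    rw [Measure.map_apply π.continuous.measurable hB,
      Measure.restrict_apply (π.continuous.measurable hB), Measure.smul_apply, smul_eq_mul, ← hv]
    have sub : π ⁻¹' B ∩ G ⊆ Function.invFunOn π G '' (π '' G ∩ B) := fun p hp =>
      ⟨π p, ⟨⟨p, hp.2, rfl⟩, hp.1⟩, inj.leftInvOn_invFunOn hp.2⟩
    exact (measure_mono sub).trans ((muHE_image_le (lip.mono inter_subset_left)).trans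
      (mul_le_mul_right (measure_mono inter_subset_right) _))
  set g : P → ℝ := fun w => (4 * Real.pi * s)⁻¹ * Real.exp (-(4 * s)⁻¹ * ‖w - π y‖ ^ 2)
  have hp := Real.pi_pos
  have gc : Continuous g := by fun_prop
  have g1 : ∫ w, g w = 1 := by
    simp only [g]
    rw [integral_const_mul, integral_sub_right_eq_self (fun w : P => Real.exp (-(4 * s)⁻¹ * ‖w‖ ^ 2)),
      GaussianFourier.integral_rexp_neg_mul_sq_norm (by positivity), hP]
    norm_num; field_simp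
  have gi : Integrable g := by
    by_contra hn; rw [integral_undef hn] at g1; exact zero_ne_one g1
  have g2 : ∫⁻ w, ENNReal.ofReal (g w) = 1 := by
    rw [← ofReal_integral_eq_lintegral_ofReal gi (ae_of_all _ fun w => by positivity), g1]; simp
  have le1 : ∀ x, ENNReal.ofReal (gau y s x) ≤ ENNReal.ofReal (g (π x)) := by
    intro x
    refine ENNReal.ofReal_le_ofReal ?_
    unfold gau
    refine mul_le_mul_of_nonneg_left (Real.exp_le_exp.2 ?_) (by positivity)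
    rw [← map_sub, hπ, div_eq_inv_mul]
    have : 0 < (4 * s)⁻¹ := by positivity
    nlinarith [mul_nonneg this.le (sq_nonneg ⟪x - y, ν⟫_ℝ)]
  calc _ ≤ ∫⁻ x in G, ENNReal.ofReal (g (π x)) ∂(μHE[2] : Measure E) := lintegral_mono le1
    _ = ∫⁻ w, ENNReal.ofReal (g w) ∂(Measure.map π ((μHE[2] : Measure E).restrict G)) :=
      (lintegral_map gc.measurable.ennreal_ofReal π.continuous.measurable).symm
    _ ≤ ∫⁻ w, ENNReal.ofReal (g w) ∂(((L : ℝ≥0∞) ^ 2) • (volume : Measure P)) :=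
      lintegral_mono' hm le_rfl
    _ = _ := by
      rw [lintegral_smul_measure, g2, smul_eq_mul, mul_one, ← hL,
        ENNReal.ofReal_pow L.coe_nonneg, ENNReal.ofReal_coe_nnreal]

/-- a unit vector orthogonal to two unit vectors, with the distance to its line -/
lemma exists_axis {ν ν' : E} (h1 : ‖ν‖ = 1) (h2 : ‖ν'‖ = 1) {α : ℝ} (hα : 0 < α)
    (h : ⟪ν, ν'⟫_ℝ ^ 2 ≤ 1 - α ^ 2) : ∃ e : E, ‖e‖ = 1 ∧ ∀ (v : E) (w : ℝ),
      |⟪v, ν⟫_ℝ| ≤ w → |⟪v, ν'⟫_ℝ| ≤ w → ‖v - ⟪v, e⟫_ℝ • e‖ ≤ 2 * w / α := by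
  set c : E := !₂[ν 1 * ν' 2 - ν 2 * ν' 1, ν 2 * ν' 0 - ν 0 * ν' 2, ν 0 * ν' 1 - ν 1 * ν' 0]
  have ip : ∀ a b : E, ⟪a, b⟫_ℝ = a 0 * b 0 + a 1 * b 1 + a 2 * b 2 := fun a b => by
    simp [PiLp.inner_apply, Fin.sum_univ_three]; ring
  have nq : ∀ a : E, ‖a‖ ^ 2 = a 0 * a 0 + a 1 * a 1 + a 2 * a 2 := fun a => by
    rw [← real_inner_self_eq_norm_sq, ip]
  have n1 := nq ν; have n2 := nq ν'
  rw [h1] at n1; rw [h2] at n2
  have c0 : c 0 = ν 1 * ν' 2 - ν 2 * ν' 1 := by simp [c]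
  have c1 : c 1 = ν 2 * ν' 0 - ν 0 * ν' 2 := by simp [c]
  have c2 : c 2 = ν 0 * ν' 1 - ν 1 * ν' 0 := by simp [c]
  have hc : ‖c‖ ^ 2 = 1 - ⟪ν, ν'⟫_ℝ ^ 2 := by
    rw [nq, ip, c0, c1, c2]
    linear_combination (-(ν' 0 * ν' 0 + ν' 1 * ν' 1 + ν' 2 * ν' 2)) * n1 - n2
  have hcα : α ≤ ‖c‖ := (pow_le_pow_iff_left₀ hα.le (norm_nonneg _) two_ne_zero).1 (by linarith)
  have hc0 : 0 < ‖c‖ := hα.trans_le hcα
  refine ⟨‖c‖⁻¹ • c, by rw [norm_smul, norm_inv, norm_norm, inv_mul_cancel₀ hc0.ne'],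
    fun v w a b => ?_⟩
  have hw : 0 ≤ w := (abs_nonneg _).trans a
  have id1 : ‖v‖ ^ 2 * ‖c‖ ^ 2 - ⟪v, c⟫_ℝ ^ 2 =
      ⟪v, ν⟫_ℝ ^ 2 + ⟪v, ν'⟫_ℝ ^ 2 - 2 * ⟪v, ν⟫_ℝ * ⟪v, ν'⟫_ℝ * ⟪ν, ν'⟫_ℝ := by
    rw [nq, nq, ip, ip, ip, ip, c0, c1, c2]
    linear_combination (v 0 * ν' 0 + v 1 * ν' 1 + v 2 * ν' 2) ^ 2 * (-n1) +
      (v 0 * ν 0 + v 1 * ν 1 + v 2 * ν 2) ^ 2 * (-n2)
  have id2 : ‖v - ⟪v, ‖c‖⁻¹ • c⟫_ℝ • ‖c‖⁻¹ • c‖ ^ 2 * ‖c‖ ^ 2 =
      ‖v‖ ^ 2 * ‖c‖ ^ 2 - ⟪v, c⟫_ℝ ^ 2 := by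
    rw [norm_sub_sq_real, norm_smul, norm_smul, norm_inv, norm_norm, inv_mul_cancel₀ hc0.ne',
      inner_smul_right, inner_smul_right]
    simp only [Real.norm_eq_abs, mul_one, sq_abs]
    field_simp; ring
  have hi : |⟪ν, ν'⟫_ℝ| ≤ 1 := by simpa [h1, h2] using abs_real_inner_le_norm ν ν'
  have k : ⟪v, ν⟫_ℝ ^ 2 + ⟪v, ν'⟫_ℝ ^ 2 - 2 * ⟪v, ν⟫_ℝ * ⟪v, ν'⟫_ℝ * ⟪ν, ν'⟫_ℝ ≤ (2 * w) ^ 2 := by
    have a2 := pow_le_pow_left₀ (abs_nonneg _) a 2
    have b2 := pow_le_pow_left₀ (abs_nonneg _) b 2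
    rw [sq_abs] at a2 b2
    have : |⟪v, ν⟫_ℝ * ⟪v, ν'⟫_ℝ * ⟪ν, ν'⟫_ℝ| ≤ w * w * 1 := by
      rw [abs_mul, abs_mul]
      exact mul_le_mul (mul_le_mul a b (abs_nonneg _) hw) hi (abs_nonneg _) (by positivity)
    nlinarith [neg_abs_le (⟪v, ν⟫_ℝ * ⟪v, ν'⟫_ℝ * ⟪ν, ν'⟫_ℝ)]
  rw [le_div_iff₀ hα]
  refine (mul_le_mul_of_nonneg_left hcα (norm_nonneg _)).trans ?_
  refine (pow_le_pow_iff_left₀ (by positivity) (by positivity) two_ne_zero).1 ?_
  rw [mul_pow, id2, id1]; exact k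

/-- a thin tube has small area -/
lemma tube {μ : Measure E} {Λ : ℝ} (hΛ : 0 ≤ Λ)
    (h : ∀ y r, 0 < r → μ (ball y r) ≤ ENNReal.ofReal (Λ * r ^ 2)) {S : Set E} {p e : E}
    (he : ‖e‖ = 1) {d R : ℝ} (hd : 0 < d) (hR : d ≤ R)
    (hS : ∀ x ∈ S, ‖x - p‖ ≤ R ∧ ‖(x - p) - ⟪x - p, e⟫_ℝ • e‖ ≤ d) :
    μ S ≤ ENNReal.ofReal (45 * Λ * R * d) := by
  set N := ⌈R / d⌉₊
  have hN : (N : ℝ) ≤ R / d + 1 := (Nat.ceil_lt_add_one (div_nonneg (by linarith) hd.le)).le
  have hN' : R / d ≤ N := Nat.le_ceil _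
  have sub : S ⊆ ⋃ j ∈ Finset.range (2 * N + 1), ball (p + (((j : ℝ) - N) * d) • e) (3 * d) := by
    intro x hx
    obtain ⟨a, b⟩ := hS x hx
    set t := ⟪x - p, e⟫_ℝ
    have ht : |t| ≤ R := by
      have := abs_real_inner_le_norm (x - p) e
      rw [he, mul_one] at this; exact this.trans a
    have ht' := abs_le.1 ht
    have t0 : 0 ≤ t / d + N := by
      have : -(R / d) ≤ t / d := by rw [← neg_div]; exact div_le_div_of_nonneg_right ht'.1 hd.le
      linarith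
    have t1 : t / d + N ≤ 2 * N := by
      have : t / d ≤ R / d := div_le_div_of_nonneg_right ht'.2 hd.le
      linarith
    set j := ⌊t / d + N⌋₊
    have j1 : (j : ℝ) ≤ t / d + N := Nat.floor_le t0
    have j2 : t / d + N < j + 1 := Nat.lt_floor_add_one _
    refine mem_iUnion₂.2 ⟨j, Finset.mem_range.2 ?_, ?_⟩
    · have : (j : ℝ) ≤ ((2 * N : ℕ) : ℝ) := by push_cast; linarith
      exact Nat.lt_succ_of_le (by exact_mod_cast this)
    rw [mem_ball, dist_eq_norm]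
    have e1 : x - (p + (((j : ℝ) - N) * d) • e) =
        ((x - p) - t • e) + (t - ((j : ℝ) - N) * d) • e := by rw [sub_smul]; abel
    have e2 : t = t / d * d := by field_simp
    have k : |t - ((j : ℝ) - N) * d| ≤ d := by
      rw [abs_le]; constructor <;> nlinarith
    rw [e1]
    refine (norm_add_le _ _).trans_lt ?_
    rw [norm_smul, he, Real.norm_eq_abs]; linarith
  refine (measure_mono sub).trans ((measure_biUnion_finset_le _ _).trans ?_)
  refine (Finset.sum_le_card_nsmul _ _ _ fun j _ => h _ _ (by positivity)).trans ?_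
  rw [Finset.card_range, nsmul_eq_mul, ← ENNReal.ofReal_natCast, ← ENNReal.ofReal_mul (by positivity)]
  refine ENNReal.ofReal_le_ofReal ?_
  push_cast
  have k1 : (1 : ℝ) ≤ R / d := (one_le_div hd).2 hR
  have k2 : (2 * (N : ℝ) + 1) ≤ 5 * (R / d) := by linarith
  calc _ ≤ 5 * (R / d) * (Λ * (3 * d) ^ 2) := mul_le_mul_of_nonneg_right k2 (by positivity)
    _ = _ := by field_simp; ring

/-- A1: if most points of the slice in `B(y, K r)` have an empty cone of size `2 K r`, then the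
Gaussian area at scale `r` is at most `1 + e` -/
theorem good {Λ e : ℝ} (hΛ : 0 ≤ Λ) (he : 0 < e) : ∃ K δ η₀ : ℝ, 1 ≤ K ∧ 0 < δ ∧ 0 < η₀ ∧
    ∀ (F : Mv) (t : ℝ) (y : E) (r : ℝ) (G : Set E), 0 < r → F.AR Λ →
      (∀ x ∈ G, x ∈ F.sl t ∧ ‖F.n (x, t)‖ = 1 ∧ Cone F (x, t) η₀ (2 * K * r)) →
      F.mu t (ball y (K * r) \ G) ≤ ENNReal.ofReal (δ * r ^ 2) →
      ∀ y' ∈ ball y r, ∀ s ∈ Icc (r ^ 2 / 4) (r ^ 2), F.Fs t y' s ≤ 1 + e := by
  obtain ⟨C, hC, hg⟩ := gau_ar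
  have hp := Real.pi_gt_three
  obtain ⟨L, hL0, hL⟩ : ∃ L : ℝ, 0 ≤ L ∧ 2 * Real.exp (-L ^ 2 / 8) * (C * Λ) ≤ e / 3 := by
    refine ⟨8 + 48 * C * Λ / e, by positivity, ?_⟩
    set L := 8 + 48 * C * Λ / e
    have l8 : 8 ≤ L := le_add_of_nonneg_right (by positivity)
    have a := Real.add_one_le_exp (L ^ 2 / 8)
    have b : 48 * C * Λ ≤ L * e := by
      have : L * e = 8 * e + 48 * C * Λ := by simp only [L]; field_simp
      linarith
    rw [neg_div, Real.exp_neg, mul_assoc, ← div_eq_inv_mul, ← mul_div_assoc,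
      div_le_div_iff₀ (Real.exp_pos _) (by norm_num)]
    nlinarith [mul_le_mul_of_nonneg_left a he.le, mul_nonneg (mul_nonneg he.le (by linarith : 0 ≤ L))
      (by linarith : 0 ≤ L - 8)]
  set K := L + 1
  have hK : 1 ≤ K := by simp only [K]; linarith
  -- `η₀ = α²`
  obtain ⟨α, a0, a1, a2, a3⟩ : ∃ α : ℝ, 0 < α ∧ α ≤ 1 / 10 ∧ α ≤ e / 30 ∧
      360 * Λ * K ^ 2 * α ≤ 1 := by
    refine ⟨min (min (1 / 10) (e / 30)) (360 * Λ * K ^ 2 + 1)⁻¹, by positivity,
      (min_le_left _ _).trans (min_le_left _ _), (min_le_left _ _).trans (min_le_right _ _), ?_⟩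
    refine (mul_le_mul_of_nonneg_left (min_le_right _ _) (by positivity)).trans ?_
    rw [← div_eq_mul_inv, div_le_one (by positivity)]; linarith
  refine ⟨K, e, α ^ 2, hK, he, by positivity, fun F t y r G hr hA hG hb y' hy' s hs => ?_⟩
  have s0 : 0 < s := lt_of_lt_of_le (by positivity) hs.1
  have gb : ∀ x, ENNReal.ofReal (gau y' s x) ≤ ENNReal.ofReal (3 * r ^ 2)⁻¹ := fun x =>
    ENNReal.ofReal_le_ofReal ((gau_le s0 _ _).trans (inv_anti₀ (by positivity) (by nlinarith [hs.1])))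
  have small : ∀ (B : Set E) (m : ℝ), 0 ≤ m → F.mu t B ≤ ENNReal.ofReal (m * r ^ 2) →
      ∫⁻ x in B, ENNReal.ofReal (gau y' s x) ∂F.mu t ≤ ENNReal.ofReal (m / 3) := by
    intro B m hm hB
    refine (lintegral_mono gb).trans ?_
    rw [setLIntegral_const]
    refine (mul_le_mul_right hB _).trans (le_of_eq ?_)
    rw [← ENNReal.ofReal_mul (by positivity)]; congr 1; field_simp
  have tail : ∫⁻ x in (ball y (K * r))ᶜ, ENNReal.ofReal (gau y' s x) ∂F.mu t ≤
      ENNReal.ofReal (e / 3) := by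
    have k : ∀ x ∈ (ball y (K * r))ᶜ, ENNReal.ofReal (gau y' s x) ≤
        ENNReal.ofReal (2 * Real.exp (-L ^ 2 / 8)) * ENNReal.ofReal (gau y' (2 * s) x) := by
      intro x hx
      rw [← ENNReal.ofReal_mul (by positivity)]
      refine ENNReal.ofReal_le_ofReal (gau_tail s0 hL0 ?_)
      rw [mem_compl_iff, mem_ball, not_lt] at hx
      have h1 := dist_triangle x y' y
      have h2 := mem_ball.1 hy'
      have h3 : √s ≤ r := Real.sqrt_le_iff.2 ⟨hr.le, hs.2⟩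
      rw [← dist_eq_norm]
      simp only [K] at hx
      nlinarith
    refine (setLIntegral_mono' measurableSet_ball.compl k).trans ?_
    refine (setLIntegral_le_lintegral _ _).trans ?_
    rw [lintegral_const_mul' _ _ ENNReal.ofReal_ne_top]
    refine (mul_le_mul_right (hg _ Λ y' _ (by positivity) hΛ (hA t y')) _).trans ?_
    rw [← ENNReal.ofReal_mul (by positivity)]
    exact ENNReal.ofReal_le_ofReal hL
  set B := toMeasurable (F.mu t) (ball y (K * r) \ G)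
  have hB : MeasurableSet B := measurableSet_toMeasurable _ _
  set G' := ball y (K * r) \ B
  have hG' : MeasurableSet G' := measurableSet_ball.diff hB
  have GG : ∀ x ∈ G', x ∈ G := fun x hx => by
    by_contra hn; exact hx.2 (subset_toMeasurable _ _ ⟨hx.1, hn⟩)
  have cone : ∀ p ∈ G', ∀ q ∈ G', |⟪q - p, F.n (p, t)⟫_ℝ| ≤ α ^ 2 * ‖q - p‖ ∧
      ‖q - p‖ ≤ 2 * K * r := by
    intro p hp q hq
    have : ‖q - p‖ < 2 * K * r := by
      have := dist_triangle_right q p y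
      rw [← dist_eq_norm]; linarith [mem_ball.1 hp.1, mem_ball.1 hq.1]
    exact ⟨(hG p (GG p hp)).2.2 q (hG q (GG q hq)).1 this, this.le⟩
  have main : ∫⁻ x in G', ENNReal.ofReal (gau y' s x) ∂F.mu t ≤ ENNReal.ofReal (1 + e / 3) := by
    rcases G'.eq_empty_or_nonempty with h0 | ⟨p, hp⟩
    · simp [h0]
    have np := (hG p (GG p hp)).2.1
    by_cases hc : ∀ q ∈ G', 1 - α ^ 2 ≤ ⟪F.n (p, t), F.n (q, t)⟫_ℝ ^ 2
    · have e1 : (F.mu t).restrict G' = (μHE[2] : Measure E).restrict G' := by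
        unfold Mv.mu
        rw [Measure.restrict_restrict hG', inter_eq_left.2 fun x hx => (hG x (GG x hx)).1]
      rw [e1]
      refine (gau_slope hG' np (θ := 2 * α) (by nlinarith) (fun a ha b hb => ?_) y' s0).trans
        (ENNReal.ofReal_le_ofReal ?_)
      · have nb := (hG b (GG b hb)).2.1
        have k1 := (cone b hb a ha).1
        have k2 := hc b hb
        set u := F.n (p, t); set w := F.n (b, t); set c := ⟪u, w⟫_ℝ
        have e2 : ⟪a - b, u⟫_ℝ = ⟪a - b, u - c • w⟫_ℝ + c * ⟪a - b, w⟫_ℝ := by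
          rw [inner_sub_right, inner_smul_right]; ring
        have e3 : ‖u - c • w‖ ≤ α := by
          refine (pow_le_pow_iff_left₀ (norm_nonneg _) a0.le two_ne_zero).1 ?_
          rw [norm_sub_sq_real, norm_smul, inner_smul_right, np, nb]
          simp only [Real.norm_eq_abs, mul_one, sq_abs]
          change 1 ^ 2 - 2 * (c * c) + c ^ 2 ≤ _
          nlinarith
        have e4 : |c| ≤ 1 := by simpa [np, nb] using abs_real_inner_le_norm u w
        have e5 := abs_real_inner_le_norm (a - b) (u - c • w)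
        have n0 := norm_nonneg (a - b)
        rw [e2]
        refine (abs_add_le _ _).trans ?_
        rw [abs_mul]
        nlinarith [mul_le_mul e4 k1 (abs_nonneg _) zero_le_one,
          mul_le_mul_of_nonneg_left e3 n0, mul_nonneg (mul_nonneg a0.le n0) (by linarith : 0 ≤ 1 - α)]
      · rw [inv_le_comm₀ (by nlinarith) (by positivity), ← one_div, div_le_iff₀ (by positivity)]
        nlinarith [mul_nonneg he.le (by nlinarith : 0 ≤ 1 / 25 - 4 * α ^ 2)]
    · push Not at hc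
      obtain ⟨q, hq, hc⟩ := hc
      obtain ⟨u, u1, hu⟩ := exists_axis np (hG q (GG q hq)).2.1 a0 hc.le
      have := tube hΛ (hA t) (S := G') (p := p) u1 (d := 8 * α * K * r) (R := 2 * K * r)
        (by positivity) (by nlinarith [mul_pos (by linarith : 0 < K) hr]) fun x hx => ?_
      · refine (small _ 2 (by norm_num) (this.trans (ENNReal.ofReal_le_ofReal ?_))).trans
          (ENNReal.ofReal_le_ofReal (by linarith))
        nlinarith [mul_le_mul_of_nonneg_right a3 (sq_nonneg r)]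
      obtain ⟨k1, k2⟩ := cone p hp x hx
      obtain ⟨k3, k4⟩ := cone q hq x hx
      obtain ⟨k5, k6⟩ := cone q hq p hp
      have w0 : 0 ≤ α ^ 2 := sq_nonneg _
      refine ⟨k2, (hu _ (α ^ 2 * (4 * K * r)) ?_ ?_).trans (le_of_eq (by field_simp; ring))⟩
      · nlinarith [mul_le_mul_of_nonneg_left k2 w0, norm_nonneg (x - p), mul_nonneg w0 (norm_nonneg (x - p))]
      · have : x - p = (x - q) - (p - q) := by abel
        rw [this, inner_sub_left]
        refine (abs_sub _ _).trans ?_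
        nlinarith [mul_le_mul_of_nonneg_left k4 w0, mul_le_mul_of_nonneg_left k6 w0]
  have tot : ∫⁻ x, ENNReal.ofReal (gau y' s x) ∂F.mu t ≤ ENNReal.ofReal (1 + e) := by
    have u : (univ : Set E) ⊆ (G' ∪ B) ∪ (ball y (K * r))ᶜ := fun x _ => by
      by_cases h1 : x ∈ ball y (K * r)
      · by_cases h2 : x ∈ B
        · exact Or.inl (Or.inr h2)
        · exact Or.inl (Or.inl ⟨h1, h2⟩)
      · exact Or.inr h1
    rw [← setLIntegral_univ]
    refine (lintegral_mono_set u).trans ((lintegral_union_le _ _ _).trans ?_)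
    refine (add_le_add ((lintegral_union_le _ _ _).trans (add_le_add main
      (small B e he.le (by rw [measure_toMeasurable]; exact hb)))) tail).trans (le_of_eq ?_)
    rw [← ENNReal.ofReal_add (by positivity) (by positivity),
      ← ENNReal.ofReal_add (by positivity) (by positivity)]
    congr 1; ring
  unfold Mv.Fs
  rw [integral_eq_lintegral_of_nonneg_ae (ae_of_all _ fun x => (gau_pos s0 _ _).le)
    (gau_cont _ _).aestronglyMeasurable]
  exact ENNReal.toReal_le_of_le_ofReal (by positivity) tot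

end Crest.Agent.N250.A

end
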