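import Crest.Agent.N250.A.Stm
import Crest.Agent.N250.A.Good

/-!
# Row 250, block A (helper68): the kernel leaves `KMassS` and `KAtS`
-/

set_option autoImplicit false
open MeasureTheory Set Filter Topology Metric
open scoped ContDiff InnerProductSpace ENNReal
open Crest.GeometryTopology.MCF

noncomputable section

namespace Crest.Agent.N250.A

namespace KAt

theorem meas_g (σ s : ℝ) : Measurable fun w : E × ST => gau w.2.1 (s - w.2.2 + σ) w.1 := by
  unfold gau; fun_prop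

theorem meas_g1 (σ s : ℝ) (y : E) : Measurable fun q : ST => gau q.1 (s - q.2 + σ) y := by
  unfold gau; fun_prop

theorem meas_T (σ r : ℝ) :
    Measurable fun q : ST => gau q.1 (σ - q.2) 0 * min 1 (r * isc σ q) := by
  unfold gau isc; fun_prop

theorem meas_lt (s : ℝ) : MeasurableSet {q : ST | q.2 < s} :=
  measurableSet_lt measurable_snd measurable_const

theorem isc_nonneg {σ : ℝ} {q : ST} (h : 0 ≤ σ - q.2) : 0 ≤ isc σ q := by
  unfold isc; positivity

theorem inv_le {a b : ℝ} (ha : 0 < a) (h : a ≤ b) : (4 * Real.pi * b)⁻¹ ≤ (4 * Real.pi * a)⁻¹ := by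
  have := Real.pi_pos
  exact inv_anti₀ (by positivity) (by gcongr)

theorem pot_eq (ν : Measure ST) [IsFiniteMeasure ν] {σ : ℝ} (hσ : 0 < σ) (p : ST) :
    0 ≤ pot ν σ p ∧ ENNReal.ofReal (pot ν σ p) =
      ∫⁻ q in {q : ST | q.2 < p.2}, ENNReal.ofReal (gau q.1 (p.2 - q.2 + σ) p.1) ∂ν := by
  have h0 : 0 ≤ᵐ[ν.restrict {q : ST | q.2 < p.2}] fun q => gau q.1 (p.2 - q.2 + σ) p.1 :=
    ae_restrict_of_forall_mem (meas_lt _) fun q hq => by
      have : q.2 < p.2 := hq
      exact (gau_pos (by linarith) _ _).le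
  refine ⟨integral_nonneg_of_ae h0, ofReal_integral_eq_lintegral_ofReal ?_ h0⟩
  refine Integrable.of_bound (meas_g1 σ _ _).aestronglyMeasurable (4 * Real.pi * σ)⁻¹ ?_
  refine ae_restrict_of_forall_mem (meas_lt _) fun q hq => ?_
  have : q.2 < p.2 := hq
  rw [Real.norm_of_nonneg (gau_pos (by linarith) _ _).le]
  exact (gau_le (by linarith) _ _).trans (inv_le hσ (by linarith))

theorem TT_eq (ν : Measure ST) [IsFiniteMeasure ν] {σ r : ℝ} (hσ : 0 < σ) (hr : 0 ≤ r) :
    0 ≤ TT ν σ r ∧ ENNReal.ofReal (TT ν σ r) =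
      ∫⁻ q in {q : ST | q.2 < 0},
        ENNReal.ofReal (gau q.1 (σ - q.2) 0 * min 1 (r * isc σ q)) ∂ν := by
  have hm : ∀ q : ST, q.2 < 0 → 0 ≤ min 1 (r * isc σ q) := fun q hq =>
    le_min zero_le_one (mul_nonneg hr (isc_nonneg (by linarith)))
  have h0 : 0 ≤ᵐ[ν.restrict {q : ST | q.2 < 0}]
      fun q => gau q.1 (σ - q.2) 0 * min 1 (r * isc σ q) :=
    ae_restrict_of_forall_mem (meas_lt _) fun q hq => by
      have : q.2 < 0 := hq
      exact mul_nonneg (gau_pos (by linarith) _ _).le (hm q this)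
  refine ⟨integral_nonneg_of_ae h0, ofReal_integral_eq_lintegral_ofReal ?_ h0⟩
  refine Integrable.of_bound (meas_T σ r).aestronglyMeasurable (4 * Real.pi * σ)⁻¹ ?_
  refine ae_restrict_of_forall_mem (meas_lt _) fun q hq => ?_
  have hq : q.2 < 0 := hq
  have g0 := (gau_pos (s := σ - q.2) (by linarith) q.1 0).le
  rw [Real.norm_of_nonneg (mul_nonneg g0 (hm q hq))]
  exact (mul_le_of_le_one_right g0 (min_le_left _ _)).trans
    ((gau_le (by linarith) _ _).trans (inv_le hσ (by linarith)))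

theorem gau_ratio {a b : ℝ} (ha : 0 < a) (hb : 0 < b) (y z : E) :
    gau z b y = gau z a 0 * (a / b * Real.exp (‖z‖ ^ 2 / (4 * a) - ‖y - z‖ ^ 2 / (4 * b))) := by
  unfold gau
  have := Real.pi_pos
  rw [zero_sub, norm_neg, show -‖y - z‖ ^ 2 / (4 * b) =
    -‖z‖ ^ 2 / (4 * a) + (‖z‖ ^ 2 / (4 * a) - ‖y - z‖ ^ 2 / (4 * b)) by ring, Real.exp_add]
  field_simp

theorem exp_le_lin {c m : ℝ} (hc : 0 ≤ c) (h0 : 0 ≤ m) (h1 : m ≤ 1) :
    Real.exp (c * m) ≤ 1 + c * Real.exp c * m := by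
  have h2 : Real.exp (c * m) ≤ Real.exp c := Real.exp_le_exp.2 (mul_le_of_le_one_right hc h1)
  have h3 := Real.add_one_le_exp (-(c * m))
  have h4 : Real.exp (-(c * m)) * Real.exp (c * m) = 1 := by rw [← Real.exp_add]; simp
  have h5 := mul_le_mul_of_nonneg_right h3 (Real.exp_pos (c * m)).le
  have h6 := mul_le_mul_of_nonneg_left h2 (mul_nonneg hc h0)
  nlinarith

/-- pointwise comparison of the kernels away from the near set -/
theorem ratio {τ ρ D : ℝ} (hτ : 1 ≤ τ) (hρ : 0 < ρ) (hD : 0 ≤ D) : ∃ C : ℝ, 0 ≤ C ∧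
    ∀ (σ s : ℝ) (y y₀ : E) (q : ST), 0 < σ → s ∈ Icc (-(2 * τ)) (-τ) → ‖y‖ ≤ D →
      dist y y₀ ≤ ρ / 2 → q.2 < s → q ∉ ball y₀ ρ ×ˢ Icc (-(4 * τ)) (-τ) →
      gau q.1 (s - q.2 + σ) y ≤ gau q.1 (σ - q.2) 0 * (1 + C * min 1 (1 * isc σ q)) := by
  set K := D / 2 * Real.exp (D / 2) with hK
  set K2 := 256 * τ / ρ ^ 2 * Real.exp (3 * D ^ 2 / 4) with hK2
  have K0 : 0 ≤ K := by positivity
  have K20 : 0 ≤ K2 := by positivity
  have e0 := Real.exp_pos (D ^ 2 / 4)
  refine ⟨(4 * τ + K + 4 * τ * K) + 2 * Real.exp (D ^ 2 / 4) + 4 * τ * K2, by positivity, ?_⟩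
  rintro σ s y y₀ ⟨z, t⟩ hσ ⟨s1, s2⟩ hy hyy hts hN
  simp only at hts ⊢
  obtain ⟨a, ha⟩ : ∃ a, a = σ - t := ⟨_, rfl⟩
  obtain ⟨b, hb⟩ : ∃ b, b = s - t + σ := ⟨_, rfl⟩
  have a1 : 1 ≤ a := by linarith
  have a0 : 0 < a := by linarith
  have b0 : 0 < b := by linarith
  have ab : a = b + -s := by linarith
  have hi : isc σ (z, t) = (√a + ‖z‖) / a := by rw [ha]; rfl
  have sq1 : 1 ≤ √a := Real.one_le_sqrt.2 a1
  have z0 := norm_nonneg z
  have y0 := norm_nonneg y
  have u0 := norm_nonneg (y - z)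
  have tri : ‖z‖ ≤ ‖y - z‖ + ‖y‖ := by
    have := norm_sub_le y (y - z); rw [sub_sub_cancel] at this; linarith
  have i1 : 1 / a ≤ isc σ (z, t) := by rw [hi]; gcongr; linarith
  have i2 : ‖z‖ / a ≤ isc σ (z, t) := by rw [hi]; gcongr; linarith
  have i0 : 0 ≤ isc σ (z, t) := le_trans (by positivity) i1
  rw [one_mul, ← ha, ← hb, gau_ratio a0 b0]
  refine mul_le_mul_of_nonneg_left ?_ (gau_pos a0 _ _).le
  generalize isc σ (z, t) = i at i0 i1 i2
  have m0 : 0 ≤ min 1 i := le_min zero_le_one i0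
  have τ0 : 0 < τ := by linarith
  by_cases h1 : a ≤ 2 * b
  · by_cases h2 : i ≤ 1
    · rw [min_eq_right h2]
      have r1 : a / b ≤ 1 + 4 * τ * i := by
        have : a / b = 1 + -s / b := by rw [ab]; field_simp
        rw [this]
        have h3 : -s / b ≤ 4 * τ * (1 / a) := by
          rw [mul_one_div, div_le_div_iff₀ b0 a0]; nlinarith
        nlinarith
      have r2 : ‖z‖ ^ 2 / (4 * a) - ‖y - z‖ ^ 2 / (4 * b) ≤ D / 2 * i := by
        have h3 : ‖y - z‖ ^ 2 / (4 * a) ≤ ‖y - z‖ ^ 2 / (4 * b) := by gcongr; linarith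
        have h4 : ‖z‖ ^ 2 - ‖y - z‖ ^ 2 ≤ 2 * D * ‖z‖ := by
          have h5 := abs_norm_sub_norm_le y z
          have h6 : (‖y‖ - ‖z‖) ^ 2 ≤ ‖y - z‖ ^ 2 := by
            rw [← sq_abs]; exact pow_le_pow_left₀ (abs_nonneg _) h5 2
          nlinarith
        have h5 : ‖z‖ ^ 2 / (4 * a) - ‖y - z‖ ^ 2 / (4 * a) ≤ D / 2 * (‖z‖ / a) := by
          rw [← sub_div, div_le_iff₀ (by positivity)]
          have : D / 2 * (‖z‖ / a) * (4 * a) = 2 * D * ‖z‖ := by field_simp; ring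
          linarith
        have h6 := mul_le_mul_of_nonneg_left i2 (show 0 ≤ D / 2 by positivity)
        linarith
      have r3 := (Real.exp_le_exp.2 r2).trans (exp_le_lin (by positivity) i0 h2)
      refine (mul_le_mul r1 r3 (Real.exp_pos _).le (by positivity)).trans ?_
      rw [← hK]
      have h7 : 4 * τ * K * (i * i) ≤ 4 * τ * K * i :=
        mul_le_mul_of_nonneg_left (mul_le_of_le_one_right i0 h2) (by positivity)
      have h8 : 0 ≤ (2 * Real.exp (D ^ 2 / 4) + 4 * τ * K2) * i := by positivity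
      nlinarith
    · rw [min_eq_left (not_le.1 h2).le]
      have r1 : a / b ≤ 2 := by rw [div_le_iff₀ b0]; exact h1
      have r2 : ‖z‖ ^ 2 / (4 * a) - ‖y - z‖ ^ 2 / (4 * b) ≤ D ^ 2 / 4 := by
        have s0 : 0 < -s := by linarith
        have h3 : ‖z‖ ^ 2 / (4 * a) ≤ (‖y - z‖ + ‖y‖) ^ 2 / (4 * a) := by gcongr
        have h4 : (‖y - z‖ + ‖y‖) ^ 2 / (4 * a) ≤ ‖y - z‖ ^ 2 / (4 * b) + ‖y‖ ^ 2 / (4 * -s) := by
          rw [ab, div_add_div _ _ (by positivity) (by positivity),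
            div_le_div_iff₀ (by positivity) (by positivity)]
          nlinarith [sq_nonneg (‖y - z‖ * -s - ‖y‖ * b)]
        have h5 : ‖y‖ ^ 2 / (4 * -s) ≤ D ^ 2 / (4 * 1) := by gcongr; linarith
        linarith
      refine (mul_le_mul r1 (Real.exp_le_exp.2 r2) (Real.exp_pos _).le zero_le_two).trans ?_
      have h8 : 0 ≤ (4 * τ + K + 4 * τ * K) + 4 * τ * K2 := by positivity
      linarith
  · have h1 := not_le.1 h1
    have a4 : a ≤ 4 * τ := by linarith
    have hz : ρ ≤ dist z y₀ := by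
      by_contra h
      exact hN ⟨mem_ball.2 (not_le.1 h), by simp only; linarith, by simp only; linarith⟩
    have hu : ρ / 2 ≤ ‖y - z‖ := by
      have := dist_triangle z y y₀
      rw [dist_comm z y, dist_eq_norm y z] at this; linarith
    have m1 : 1 ≤ 4 * τ * min 1 i := by
      rcases le_total 1 i with h | h
      · rw [min_eq_left h]; linarith
      · rw [min_eq_right h]
        have h3 : 1 ≤ i * a := (div_le_iff₀ a0).1 i1
        nlinarith
    have r2 : ‖z‖ ^ 2 / (4 * a) - ‖y - z‖ ^ 2 / (4 * b) ≤ 3 * D ^ 2 / 4 + -(ρ ^ 2 / (64 * b)) := by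
      have h3 : ‖z‖ ^ 2 ≤ 3 / 2 * ‖y - z‖ ^ 2 + 3 * D ^ 2 := by
        have h9 : ‖z‖ ^ 2 ≤ (‖y - z‖ + D) ^ 2 := pow_le_pow_left₀ z0 (by linarith) 2
        nlinarith [sq_nonneg (‖y - z‖ - 2 * D)]
      have h4 : ‖z‖ ^ 2 / (4 * a) ≤ 3 / 2 * ‖y - z‖ ^ 2 / (4 * a) + 3 * D ^ 2 / (4 * a) := by
        rw [← add_div]; gcongr
      have h5 : 3 / 2 * ‖y - z‖ ^ 2 / (4 * a) ≤ 3 / 2 * ‖y - z‖ ^ 2 / (4 * (2 * b)) := by gcongr
      have h6 : 3 * D ^ 2 / (4 * a) ≤ 3 * D ^ 2 / (4 * 1) := by gcongr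
      have h7 : (ρ / 2) ^ 2 / (16 * b) ≤ ‖y - z‖ ^ 2 / (16 * b) := by gcongr
      have h8 : 3 / 2 * ‖y - z‖ ^ 2 / (4 * (2 * b)) - ‖y - z‖ ^ 2 / (4 * b) =
          -(‖y - z‖ ^ 2 / (16 * b)) := by field_simp; ring
      have h9 : (ρ / 2) ^ 2 / (16 * b) = ρ ^ 2 / (64 * b) := by field_simp; ring
      linarith
    have r3 : a / b * Real.exp (-(ρ ^ 2 / (64 * b))) ≤ 256 * τ / ρ ^ 2 := by
      have h3 : ρ ^ 2 / (64 * b) ≤ Real.exp (ρ ^ 2 / (64 * b)) := by
        linarith [Real.add_one_le_exp (ρ ^ 2 / (64 * b))]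
      have h4 : Real.exp (-(ρ ^ 2 / (64 * b))) ≤ (ρ ^ 2 / (64 * b))⁻¹ := by
        rw [Real.exp_neg]; exact inv_anti₀ (by positivity) h3
      calc a / b * Real.exp (-(ρ ^ 2 / (64 * b))) ≤ 4 * τ / b * (ρ ^ 2 / (64 * b))⁻¹ := by gcongr
        _ = 256 * τ / ρ ^ 2 := by field_simp; ring
    have r4 : a / b * Real.exp (‖z‖ ^ 2 / (4 * a) - ‖y - z‖ ^ 2 / (4 * b)) ≤ K2 := by
      refine (mul_le_mul_of_nonneg_left (Real.exp_le_exp.2 r2) (by positivity)).trans ?_
      rw [Real.exp_add, hK2, mul_left_comm, mul_comm]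
      exact mul_le_mul_of_nonneg_right r3 (Real.exp_pos _).le
    have h7 := mul_le_mul_of_nonneg_left m1 K20
    have h8 : 0 ≤ ((4 * τ + K + 4 * τ * K) + 2 * Real.exp (D ^ 2 / 4)) * min 1 i := by positivity
    nlinarith

end KAt

open KAt

theorem kMassS_holds : KMassS := by
  intro D a₀ hD ha
  have hp := Real.pi_pos
  set g := (4 * Real.pi * (D ^ 2 + 1))⁻¹ * Real.exp (-D ^ 2 / (4 * a₀)) * (√(D ^ 2 + 1))⁻¹ with hg
  have g0 : 0 < g := by positivity
  refine ⟨g⁻¹, by positivity, fun ν _ σ hσ hσ1 => ?_⟩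
  have hS : MeasurableSet (ball (0 : E) D ×ˢ Icc (-D ^ 2) (-a₀)) :=
    measurableSet_ball.prod measurableSet_Icc
  have key : ENNReal.ofReal g * ν (ball 0 D ×ˢ Icc (-D ^ 2) (-a₀)) ≤ ENNReal.ofReal (TT ν σ 1) := by
    rw [(TT_eq ν hσ zero_le_one).2, ← setLIntegral_const]
    refine le_trans (setLIntegral_mono' hS ?_) (lintegral_mono_set (s := ball 0 D ×ˢ Icc (-D ^ 2) (-a₀)) ?_)
    · rintro ⟨z, t⟩ ⟨h1, h2, h3⟩
      simp only [mem_ball, dist_zero_right] at h1 h2 h3 ⊢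
      refine ENNReal.ofReal_le_ofReal ?_
      have a0 : 0 < σ - t := by linarith
      have a1 : σ - t ≤ D ^ 2 + 1 := by linarith
      have s1 : 1 ≤ √(D ^ 2 + 1) := Real.one_le_sqrt.2 (by nlinarith)
      refine mul_le_mul ?_ (le_min (inv_le_one_of_one_le₀ s1) ?_) (by positivity) (gau_pos a0 _ _).le
      · unfold gau
        refine mul_le_mul (inv_le a0 a1) (Real.exp_le_exp.2 ?_) (by positivity) (by positivity)
        rw [zero_sub, norm_neg, neg_div, neg_div, neg_le_neg_iff]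
        have := norm_nonneg z
        gcongr
        linarith
      · rw [one_mul]
        have s0 : 0 < √(σ - t) := Real.sqrt_pos.2 a0
        calc (√(D ^ 2 + 1))⁻¹ ≤ (√(σ - t))⁻¹ := inv_anti₀ s0 (Real.sqrt_le_sqrt a1)
          _ = √(σ - t) / (σ - t) := by
            rw [eq_div_iff a0.ne']; field_simp; rw [Real.sq_sqrt a0.le]
          _ ≤ isc σ (z, t) := by
            unfold isc; simp only; gcongr; exact le_add_of_nonneg_right (norm_nonneg _)
    · rintro ⟨z, t⟩ ⟨-, -, h3⟩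
      show t < 0
      simp only at h3
      linarith
  rw [ENNReal.ofReal_mul (by positivity), ENNReal.ofReal_inv_of_pos g0]
  have h1 : ENNReal.ofReal g ≠ 0 := by simpa using g0
  calc ν _ = (ENNReal.ofReal g)⁻¹ * (ENNReal.ofReal g * ν (ball 0 D ×ˢ Icc (-D ^ 2) (-a₀))) := by
        rw [← mul_assoc, ENNReal.inv_mul_cancel h1 ENNReal.ofReal_ne_top, one_mul]
    _ ≤ _ := by gcongr

namespace KAt

/-- the kernel bound at lags `≥ r²` -/
def h1 (r τ ℓ : ℝ) : ℝ≥0∞ :=
  (Icc (r ^ 2) (3 * τ)).indicator (fun ℓ => ENNReal.ofReal (4 * Real.pi * ℓ)⁻¹) ℓ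

theorem meas_h1 (r τ : ℝ) : Measurable (h1 r τ) :=
  Measurable.indicator (by fun_prop) measurableSet_Icc

theorem int_h1 {r τ : ℝ} (hr : 0 < r) (h : r ^ 2 ≤ 3 * τ) :
    ∫⁻ ℓ, h1 r τ ℓ = ENNReal.ofReal ((4 * Real.pi)⁻¹ * Real.log (3 * τ / r ^ 2)) := by
  have hp := Real.pi_pos
  have r2 : 0 < r ^ 2 := by positivity
  unfold h1
  rw [lintegral_indicator measurableSet_Icc, ← ofReal_integral_eq_lintegral_ofReal]
  · rw [integral_Icc_eq_integral_Ioc, ← intervalIntegral.integral_of_le h,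
      ← integral_inv_of_pos r2 (by linarith), ← intervalIntegral.integral_const_mul]
    simp only [mul_inv]
  · refine ContinuousOn.integrableOn_Icc (ContinuousOn.inv₀ (by fun_prop) fun x hx => ?_)
    have : 0 < x := r2.trans_le hx.1
    positivity
  · refine ae_restrict_of_forall_mem measurableSet_Icc fun x hx => ?_
    have : 0 < x := r2.trans_le hx.1
    positivity

/-- choice of the time by averaging -/
theorem good_time (ν : Measure ST) [IsFiniteMeasure ν] {r τ : ℝ} (hr : 0 < r) (hτ : 0 < τ)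
    (h : r ^ 2 < 3 * τ) (hν : ν univ ≤ ENNReal.ofReal τ) : ∃ s ∈ Icc (-(2 * τ)) (-τ),
    ∫⁻ q, h1 r τ (s - q.2) ∂ν ≤ ENNReal.ofReal (3 * ((4 * Real.pi)⁻¹ * Real.log (3 * τ / r ^ 2))) ∧
      ν {q | s - q.2 ∈ Ioo 0 (r ^ 2)} ≤ ENNReal.ofReal (3 * r ^ 2) := by
  have hp := Real.pi_pos
  have r2 : 0 < r ^ 2 := by positivity
  set A := (4 * Real.pi)⁻¹ * Real.log (3 * τ / r ^ 2) with hA
  have A0 : 0 < A := mul_pos (by positivity) (Real.log_pos ((one_lt_div r2).2 h))
  set H : ℝ → ℝ≥0∞ := fun ℓ => h1 r τ ℓ +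
    (Ioo 0 (r ^ 2)).indicator (fun _ => ENNReal.ofReal (A / r ^ 2)) ℓ with hH
  have mH : Measurable H := (meas_h1 r τ).add (measurable_const.indicator measurableSet_Ioo)
  have iH : ∫⁻ ℓ, H ℓ = ENNReal.ofReal (2 * A) := by
    rw [hH, lintegral_add_left (meas_h1 r τ), int_h1 hr h.le, lintegral_indicator measurableSet_Ioo,
      setLIntegral_const, Real.volume_Ioo, ← ENNReal.ofReal_mul (by positivity),
      ← ENNReal.ofReal_add A0.le (by rw [sub_zero]; positivity)]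
    congr 1; rw [sub_zero]; field_simp; ring
  have tot : ∫⁻ s, ∫⁻ q, H (s - q.2) ∂ν ≤ ENNReal.ofReal (2 * A * τ) := by
    have mm : Measurable (Function.uncurry fun (s : ℝ) (q : ST) => H (s - q.2)) :=
      mH.comp (f := fun w : ℝ × ST => w.1 - w.2.2) (by fun_prop)
    rw [lintegral_lintegral_swap mm.aemeasurable]
    simp only [lintegral_sub_right_eq_self, iH, lintegral_const]
    rw [ENNReal.ofReal_mul (p := 2 * A) (q := τ) (by positivity)]
    gcongr
  have ex : ∃ s ∈ Icc (-(2 * τ)) (-τ), ∫⁻ q, H (s - q.2) ∂ν ≤ ENNReal.ofReal (3 * A) := by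
    by_contra hc
    push Not at hc
    have h2 : ENNReal.ofReal (3 * A) * volume (Icc (-(2 * τ)) (-τ)) ≤
        ENNReal.ofReal (2 * A * τ) := by
      rw [← setLIntegral_const]
      exact (setLIntegral_mono' measurableSet_Icc fun s hs => (hc s hs).le).trans
        ((setLIntegral_le_lintegral _ _).trans tot)
    rw [Real.volume_Icc, ← ENNReal.ofReal_mul (by positivity),
      ENNReal.ofReal_le_ofReal_iff (by positivity)] at h2
    nlinarith [mul_pos A0 hτ]
  obtain ⟨s, hs, h2⟩ := ex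
  refine ⟨s, hs, le_trans (lintegral_mono fun q => le_self_add) h2, ?_⟩
  have mW : MeasurableSet {q : ST | s - q.2 ∈ Ioo 0 (r ^ 2)} :=
    measurableSet_Ioo.preimage (by fun_prop)
  have h3 : ENNReal.ofReal (A / r ^ 2) * ν {q | s - q.2 ∈ Ioo 0 (r ^ 2)} ≤ ENNReal.ofReal (3 * A) := by
    rw [← setLIntegral_const, ← lintegral_indicator mW]
    refine le_trans (lintegral_mono fun q => ?_) h2
    by_cases hq : s - q.2 ∈ Ioo 0 (r ^ 2)
    · rw [indicator_of_mem (show q ∈ {q : ST | s - q.2 ∈ Ioo 0 (r ^ 2)} from hq), hH]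
      simp only [indicator_of_mem hq]; exact le_add_self
    · rw [indicator_of_notMem (show q ∉ {q : ST | s - q.2 ∈ Ioo 0 (r ^ 2)} from hq)]
      exact bot_le
  have h4 : ENNReal.ofReal (3 * A) = ENNReal.ofReal (A / r ^ 2) * ENNReal.ofReal (3 * r ^ 2) := by
    rw [← ENNReal.ofReal_mul (by positivity)]; congr 1; field_simp
  rw [h4] at h3
  exact (ENNReal.mul_le_mul_iff_right (by simpa using div_pos A0 r2) ENNReal.ofReal_ne_top).1 h3

end KAt

theorem kAtS_holds : KAtS := by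
  intro Λ L e Λ' Λ₀ τ ρ D hΛ hL he hΛ' hτ hρ
  have hp := Real.pi_gt_three
  obtain ⟨C, C0, hC⟩ := ratio (D := |D| + 1) hτ hρ (by positivity)
  obtain ⟨C₁, C1, hG⟩ := gau_ar
  set M := 3 * (C₁ * Λ) / e + 1 with hM
  have M0 : 0 < M := by positivity
  set K := C * Λ₀ + M + 2 + Real.log (3 * τ) / 4 with hK
  have L0 : 0 < L := by linarith
  refine ⟨min (min L⁻¹ (ρ / (2 * L))) (Real.exp (-2 * (K + Real.log Λ'))), by positivity, ?_⟩
  intro r hr hr0 ν _ σ y₀ hσ hσ1 hy₀ hT hν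
  have r1 : L * r ≤ 1 := by
    have := hr0.trans ((min_le_left _ _).trans (min_le_left _ _))
    rwa [inv_eq_one_div, le_div_iff₀' L0] at this
  have r2 : L * r ≤ ρ / 2 := by
    have := hr0.trans ((min_le_left _ _).trans (min_le_right _ _))
    rw [le_div_iff₀ (by positivity)] at this; linarith
  have r3 : Real.log r ≤ -2 * (K + Real.log Λ') :=
    (Real.log_le_iff_le_exp hr).2 (hr0.trans (min_le_right _ _))
  have r4 : r ≤ 1 := by nlinarith
  have r5 : r ^ 2 < 3 * τ := by nlinarith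
  set N : Set ST := ball y₀ ρ ×ˢ Icc (-(4 * τ)) (-τ) with hN
  have mN : MeasurableSet N := measurableSet_ball.prod measurableSet_Icc
  obtain ⟨s, hs, g1, g2⟩ := good_time (ν.restrict N) hr (by linarith) r5
    (by rwa [Measure.restrict_apply_univ])
  refine ⟨s, hs, fun μ hμ => ?_⟩
  set W : Set ST := {q | s - q.2 ∈ Ioo 0 (r ^ 2)} with hW
  have mW : MeasurableSet W := measurableSet_Ioo.preimage (by fun_prop)
  set V : E → ℝ≥0∞ := fun y => ∫⁻ q in W, ENNReal.ofReal (gau q.1 (s - q.2 + σ) y) ∂ν.restrict N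
    with hV
  have mg := (meas_g σ s).ennreal_ofReal
  have mV : Measurable V := mg.lintegral_prod_right'
  set μ' := μ.restrict (ball y₀ (L * r)) with hμ'
  have : IsFiniteMeasure μ' := ⟨by
    rw [Measure.restrict_apply_univ]
    exact (hμ y₀ _ (by positivity)).trans_lt ENNReal.ofReal_lt_top⟩
  have iV : ∫⁻ y, V y ∂μ' ≤ ENNReal.ofReal M * ENNReal.ofReal (e * r ^ 2) := by
    rw [hV, lintegral_lintegral_swap mg.aemeasurable]
    refine (setLIntegral_mono' (g := fun _ => ENNReal.ofReal (C₁ * Λ)) mW fun q hq => ?_).trans ?_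
    · have : 0 < s - q.2 := hq.1
      exact hG μ' Λ q.1 _ (by linarith) hΛ fun x hx =>
        (Measure.restrict_le_self _).trans (hμ q.1 x hx)
    · rw [setLIntegral_const]
      refine (mul_le_mul_right g2 _).trans ?_
      rw [← ENNReal.ofReal_mul (by positivity), ← ENNReal.ofReal_mul M0.le]
      refine ENNReal.ofReal_le_ofReal ?_
      have : M * (e * r ^ 2) = C₁ * Λ * (3 * r ^ 2) + e * r ^ 2 := by rw [hM]; field_simp
      have : 0 ≤ e * r ^ 2 := by positivity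
      linarith
  have ch : μ' {y | ENNReal.ofReal M ≤ V y} ≤ ENNReal.ofReal (e * r ^ 2) :=
    (ENNReal.mul_le_mul_iff_right (by simpa using M0) ENNReal.ofReal_ne_top).1
      ((mul_meas_ge_le_lintegral mV _).trans iV)
  rw [hμ', Measure.restrict_apply (measurableSet_le measurable_const mV)] at ch
  refine le_trans (measure_mono ?_) ch
  rintro y ⟨h1', h2⟩
  refine ⟨?_, h2⟩
  by_contra hc
  have hc : V y ≤ ENNReal.ofReal M := (not_le.1 hc).le
  have d1 : dist y y₀ < L * r := h2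
  have ny : ‖y‖ ≤ |D| + 1 := by
    have := norm_sub_norm_le y y₀
    rw [← dist_eq_norm] at this
    linarith [le_abs_self D]
  obtain ⟨p0, e0⟩ := pot_eq ν hσ (0 : ST)
  obtain ⟨t0, eT⟩ := TT_eq ν hσ zero_le_one
  obtain ⟨-, e1⟩ := pot_eq ν hσ (y, s)
  simp only [Prod.snd_zero, Prod.fst_zero] at e0 e1
  set A := 3 * ((4 * Real.pi)⁻¹ * Real.log (3 * τ / r ^ 2)) with hA
  have l0 : 0 ≤ Real.log (3 * τ / r ^ 2) :=
    Real.log_nonneg ((one_le_div (by positivity)).2 r5.le)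
  have A0 : 0 ≤ A := by positivity
  have main : ENNReal.ofReal (pot ν σ (y, s)) ≤ ENNReal.ofReal (pot ν σ 0) +
      ENNReal.ofReal C * ENNReal.ofReal (TT ν σ 1) + ∫⁻ q, h1 r τ (s - q.2) ∂ν.restrict N + V y := by
    have m1 := (meas_g1 σ 0 0).ennreal_ofReal
    have m2 := (meas_T σ 1).ennreal_ofReal
    have m3 : Measurable fun q : ST => h1 r τ (s - q.2) := (meas_h1 r τ).comp (by fun_prop)
    have m4 : Measurable fun q : ST => ENNReal.ofReal (gau q.1 (0 - q.2 + σ) 0) +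
        ENNReal.ofReal C * ENNReal.ofReal (gau q.1 (σ - q.2) 0 * min 1 (1 * isc σ q)) :=
      m1.add (m2.const_mul _)
    have m5 := m4.indicator (meas_lt 0)
    have m6 : Measurable fun q : ST => {q : ST | q.2 < 0}.indicator (fun q : ST =>
        ENNReal.ofReal (gau q.1 (0 - q.2 + σ) 0) +
        ENNReal.ofReal C * ENNReal.ofReal (gau q.1 (σ - q.2) 0 * min 1 (1 * isc σ q))) q +
        N.indicator (fun q : ST => h1 r τ (s - q.2)) q := m5.add (m3.indicator mN)
    rw [e0, e1, eT, hV]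
    simp only []
    rw [Measure.restrict_restrict mW, ← lintegral_const_mul _ m2, ← lintegral_add_left m1,
      ← lintegral_indicator (meas_lt _), ← lintegral_indicator (meas_lt _),
      ← lintegral_indicator mN, ← lintegral_indicator (mW.inter mN),
      ← lintegral_add_left m5, ← lintegral_add_left m6]
    refine lintegral_mono fun q => ?_
    by_cases hq : q.2 < s
    swap
    · rw [indicator_of_notMem (show q ∉ {q : ST | q.2 < s} from hq)]; exact bot_le
    rw [indicator_of_mem (show q ∈ {q : ST | q.2 < s} from hq)]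
    by_cases hn : q ∈ N
    · by_cases hw : s - q.2 < r ^ 2
      · rw [indicator_of_mem (show q ∈ W ∩ N from ⟨⟨by linarith, hw⟩, hn⟩)]; exact le_add_self
      · refine le_trans ?_ (le_add_self.trans le_self_add)
        have hw := not_lt.1 hw
        have h3 : -(4 * τ) ≤ q.2 := hn.2.1
        rw [indicator_of_mem hn, h1, indicator_of_mem (show s - q.2 ∈ Icc (r ^ 2) (3 * τ) from
          ⟨hw, by linarith [hs.2]⟩)]
        exact ENNReal.ofReal_le_ofReal ((gau_le (by linarith) _ _).trans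
          (inv_le (by linarith) (by linarith)))
    · refine le_trans ?_ (le_self_add.trans le_self_add)
      have q0 : q.2 < 0 := by linarith [hs.2]
      have g0 := (gau_pos (s := σ - q.2) (by linarith) q.1 0).le
      have m0 : 0 ≤ min 1 (1 * isc σ q) :=
        le_min zero_le_one (by rw [one_mul]; exact isc_nonneg (by linarith))
      rw [indicator_of_mem (show q ∈ {q : ST | q.2 < 0} from q0), ← ENNReal.ofReal_mul C0,
        show 0 - q.2 + σ = σ - q.2 by ring, ← ENNReal.ofReal_add g0 (by positivity)]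
      refine ENNReal.ofReal_le_ofReal
        ((hC σ s y y₀ q hσ hs ny (by linarith) hq hn).trans_eq (by ring))
  have fin : pot ν σ (y, s) ≤ pot ν σ 0 + C * TT ν σ 1 + A + M := by
    rw [← ENNReal.ofReal_le_ofReal_iff (by positivity), ENNReal.ofReal_add (by positivity) M0.le,
      ENNReal.ofReal_add (by positivity) A0, ENNReal.ofReal_add p0 (by positivity),
      ENNReal.ofReal_mul C0]
    exact main.trans (by gcongr)
  have hA1 : A ≤ Real.log (3 * τ) / 4 - Real.log r / 2 := by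
    have h3 : Real.log (3 * τ / r ^ 2) = Real.log (3 * τ) - 2 * Real.log r := by
      rw [Real.log_div (by positivity) (by positivity), Real.log_pow]; norm_num
    have h4 : 3 * (4 * Real.pi)⁻¹ ≤ 1 / 4 := by
      rw [← div_eq_mul_inv, div_le_div_iff₀ (by positivity) (by positivity)]; linarith
    have h5 := mul_le_mul_of_nonneg_right h4 l0
    rw [hA]; linarith
  have hT' := mul_le_mul_of_nonneg_left hT C0
  have h6 : Λ' * r ≤ rad ν σ (y, s) := by
    rw [← Real.exp_log (mul_pos hΛ' hr), Real.log_mul hΛ'.ne' hr.ne', rad]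
    exact Real.exp_le_exp.2 (by linarith)
  exact absurd h1' (not_lt.2 h6)

end Crest.Agent.N250.A

end
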