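import Crest.Agent.N250.A.A1
import Crest.Agent.N250.T.Same

/-! # Row 250, block A (helper41): `AStmt` from the barrier -/

set_option autoImplicit false
open MeasureTheory Set Filter Topology Metric
open Crest.GeometryTopology.MCF

namespace Crest.Agent.N250.A

/-- the Gaussian density ratios increase with the scale -/
lemma fg_mono (hH : HuiskenS) {F : Mv} {a Λ : ℝ} (hF : Fl F (Ioo a 0) Λ) (y : E) {r₁ r₂ : ℝ}
    (h0 : 0 < r₁) (h1 : r₁ ≤ r₂) (h2 : a < -r₂ ^ 2) : F.Fg (y, 0) r₁ ≤ F.Fg (y, 0) r₂ := by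
  have h3 : r₁ ^ 2 ≤ r₂ ^ 2 := pow_le_pow_left₀ h0.le h1 2
  have h4 : 0 < r₁ ^ 2 := by positivity
  have := (hH F _ Λ isOpen_Ioo hF (y, 0) (0 - r₂ ^ 2) (0 - r₁ ^ 2) (by linarith) (by simpa using h4)
    fun t ht => ⟨by linarith [ht.1], by linarith [ht.2]⟩).1
  simpa [Mv.Fg] using this

theorem aStmt_of (hS : StmS) (hB : BarS) (hF : FinS) (hW : W1S) (hH : HuiskenS) : AStmt := by
  intro F a Λ G hC
  obtain ⟨μ, hμ⟩ := hS F _ Λ isOpen_Ioo hC.fl
  obtain ⟨e, c, he, hc, hW⟩ := hW Λ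
  obtain ⟨L, Λ', d, hL, hΛ', hd, h1⟩ := a1S_holds Λ e he
  obtain ⟨ε₁, hε₁, hB⟩ := hB F a Λ G μ hC hμ
  obtain ⟨ε₂, hε₂, hF⟩ := hF Λ G
  have hε : 0 < min ε₁ ε₂ := lt_min hε₁ hε₂
  obtain ⟨B, θ₀, hB0, hθ, hB⟩ := hB _ hε (min_le_left _ _)
  choose κ η L₁ hκ hκ1 hη hL₁ hF using fun R => hF _ B R L d Λ' hε (min_le_right _ _) hB0 hL hd hΛ'
  refine ⟨⟨η, fun R => max (L₁ R) √(-a / θ₀), fun R => c * κ R, hη,
    fun R => le_max_of_le_left (by linarith [hL₁ R]), fun R => mul_pos hc (hκ R)⟩, ?_⟩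
  intro R y r hr hI hdrop x hx hxy
  dsimp only at hI hdrop ⊢
  set K := max (L₁ R) √(-a / θ₀)
  have K1 : L₁ R ≤ K := le_max_left _ _
  have K2 : √(-a / θ₀) ≤ K := le_max_right _ _
  have l4 := hL₁ R
  have ha := hC.neg
  have k0 := hκ R
  have k1 := hκ1 R
  have r2 : 0 < r ^ 2 := by positivity
  have aK : (K * r) ^ 2 < -a := by linarith [hI.1]
  have aL : (L₁ R * r) ^ 2 ≤ (K * r) ^ 2 := by gcongr
  have rθ : r ^ 2 ≤ θ₀ := by
    have h := pow_le_pow_left₀ (Real.sqrt_nonneg _) K2 2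
    rw [Real.sq_sqrt (div_nonneg (by linarith) hθ.le), div_le_iff₀ hθ] at h
    have : 0 < K ^ 2 := by positivity
    rw [mul_pow] at aK
    nlinarith
  have r16 : 16 * r ^ 2 < -a := by
    have : (4 * r) ^ 2 ≤ (L₁ R * r) ^ 2 := by gcongr
    linarith
  have kr : (κ R * r) ^ 2 ≤ r ^ 2 := by
    rw [mul_pow]; exact mul_le_of_le_one_left r2.le (pow_le_one₀ k0.le k1)
  have kr0 : 0 < κ R * r := mul_pos k0 hr
  obtain ⟨σ₀, hσ₀, hB⟩ := hB y (r ^ 2) r2 rθ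
  have hσ : 0 < min σ₀ ((κ R * r) ^ 2) := lt_min hσ₀ (by positivity)
  have drop : F.Fg (y, 0) (L₁ R * r) - F.Fg (y, 0) (r / L₁ R) < η R := by
    have m1 := fg_mono hH hC.fl y (by positivity : 0 < L₁ R * r) (by gcongr : L₁ R * r ≤ K * r) hI.1
    have m2 := fg_mono hH hC.fl y (r₁ := r / K) (r₂ := r / L₁ R) (by positivity) (by gcongr) (by
      have : r / L₁ R ≤ r := div_le_self hr.le (by linarith)
      have : (r / L₁ R) ^ 2 ≤ r ^ 2 := by gcongr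
      linarith)
    linarith
  have hZ := hF R F a μ hC hμ y x r _ hr hσ (min_le_right _ _) (by linarith) drop hxy
  have hd1 := h1 F _ x _ _ hC.fl.mcf.1 hC.fl.ar kr0 (fun z hz _ hn => by
    have := hB _ hσ (min_le_left _ _) (z, _) hz (by dsimp only; linarith)
      (by dsimp only; nlinarith [sq_nonneg (κ R * r)])
    exact this.mono_reg hC.fl.mcf.1 hz (not_lt.1 hn)) hZ
  have := hW F a 0 _ x _ hC.fl kr0 (by linarith) (by linarith) hd1 (x, -r ^ 2)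
    ⟨hx, mem_ball_self (by positivity), by
      have : 0 < (c * (κ R * r)) ^ 2 := by positivity
      constructor <;> dsimp only <;> linarith⟩
  rwa [← mul_assoc] at this

end Crest.Agent.N250.A
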