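import Crest.Agent.N250.A.Stm
import Crest.Agent.N250.Re.Ring
import Crest.Agent.N250.FV.Hu0
import Crest.Agent.N250.T.Gau

/-!
# Row 250, block A (helper37): `PsiCS` and basic facts on the spacetime measure
-/

set_option autoImplicit false
open MeasureTheory Set Filter Topology
open scoped ContDiff InnerProductSpace
open Crest.GeometryTopology.MCF

noncomputable section

namespace Crest.Agent.N250.A

namespace PC

variable {F : Mv} {a Λ G : ℝ} {m : Measure ST}

theorem gau_symm (y : E) (s : ℝ) (x : E) : gau y s x = gau x s y := by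
  simp only [gau, norm_sub_rev x y]

theorem gau_le_inv (y : E) {s : ℝ} (hs : 0 < s) (x : E) : gau y s x ≤ (4 * Real.pi * s)⁻¹ := by
  refine mul_le_of_le_one_right (by positivity) (Real.exp_le_one_iff.2 ?_)
  exact div_nonpos_of_nonpos_of_nonneg (neg_nonpos.2 (sq_nonneg _)) (by positivity)

theorem A2_nonneg (F : Mv) (q : ST) : 0 ≤ F.A2 q := by
  simp only [Mv.A2, Finset.sum_apply, Pi.mul_apply]
  exact Finset.sum_nonneg fun _ _ => Finset.sum_nonneg fun _ _ => mul_self_nonneg _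

theorem damp_mem {s t : ℝ} (hst : s < t) (ht : t < 0) : 1 - ((t - s) / s) ^ 2 ∈ Icc (0 : ℝ) 1 := by
  have hs : s < 0 := hst.trans ht
  refine ⟨?_, by linarith [sq_nonneg ((t - s) / s)]⟩
  rw [sub_nonneg, div_pow, div_le_one (by nlinarith)]
  nlinarith

theorem dens_nonneg (F : Mv) (y : E) {ε B t : ℝ} (hε : 0 ≤ ε) (hB : 0 ≤ B) {q : ST} (hq : q.2 < t)
    (ht : t < 0) : 0 ≤ dens F y ε B t q :=
  add_nonneg (mul_nonneg (mul_nonneg hε (A2_nonneg F q)) (damp_mem hq ht).1) (by positivity)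

/-- the track over a compact time interval is compact -/
theorem cpt_track (hF : Cpt F a Λ G) {s t : ℝ} (hs : a < s) (ht : t < 0) :
    IsCompact (F.M ∩ univ ×ˢ Icc s t) := by
  obtain ⟨ρ, hρ⟩ := hF.bdd
  refine ((isCompact_closedBall (0 : E) ρ).prod (isCompact_Icc (a := s) (b := t))).of_isClosed_subset
    ?_ fun p hp => ⟨by simpa using hρ p hp.1, hp.2.2⟩
  refine isClosed_of_closure_subset fun p hp => ?_
  have h1 : p ∈ (univ ×ˢ Icc s t : Set ST) :=
    closure_minimal inter_subset_right (isClosed_univ.prod isClosed_Icc) hp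
  exact ⟨hF.fl.proper p (closure_mono inter_subset_left hp)
    ⟨trivial, hs.trans_le h1.2.1, h1.2.2.trans_lt ht⟩, h1⟩

theorem stm_null (hm : IsStm F m) {S : Set ST} (hS : MeasurableSet S)
    (h : ∀ᵐ t : ℝ, F.mu t {x | (x, t) ∈ S} = 0) : m S = 0 := by
  rw [← lintegral_indicator_one hS, (hm _ (measurable_one.indicator hS)).2]
  refine (lintegral_congr_ae (g := fun _ => 0) ?_).trans lintegral_zero
  filter_upwards [h] with t ht
  have : (fun x => S.indicator (1 : ST → ENNReal) (x, t)) = {x | (x, t) ∈ S}.indicator 1 := by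
    ext x
    by_cases hx : (x, t) ∈ S <;> simp [hx]
  have hS' : MeasurableSet {x | (x, t) ∈ S} := measurable_prodMk_right hS
  rw [this]
  exact (lintegral_indicator_one hS').trans ht

theorem stm_ae (hF : F.Reg) (hm : IsStm F m) : ∀ᵐ q ∂m, q ∈ F.M :=
  stm_null hm (Hu.meas_M hF).compl (Eventually.of_forall fun t => Hu.ae_sl hF t)

theorem stm_ne (hm : IsStm F m) (t : ℝ) : ∀ᵐ q ∂m, q.2 ≠ t := by
  have : m {q | q.2 = t} = 0 := by
    refine stm_null hm (measurable_snd (measurableSet_singleton t)) ?_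
    filter_upwards [compl_mem_ae_iff.2 (measure_singleton t)] with s hs
    have : s ≠ t := hs
    simp [this]
  simpa [ae_iff] using this

theorem aesm_stm (hF : F.Reg) (hm : IsStm F m) {S : Set ST} (hS : MeasurableSet S) {f : ST → ℝ}
    (hf : ContinuousOn f (F.M ∩ S)) : AEStronglyMeasurable f (m.restrict S) := by
  have h1 : m.restrict S = m.restrict (F.M ∩ S) := by
    refine Measure.restrict_congr_set ?_
    filter_upwards [stm_ae hF hm] with q hq
    exact propext ⟨fun h => ⟨hq, h⟩, fun h => h.2⟩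
  rw [h1]
  exact hf.aestronglyMeasurable ((Hu.meas_M hF).inter hS)

/-- a slice-wise bound gives a bound on a time slab -/
theorem stm_slab (hm : IsStm F m) {g : ST → ENNReal} (hg : Measurable g) {s t : ℝ} {C : ENNReal}
    (h : ∀ u ∈ Ioo s t, ∫⁻ x, g (x, u) ∂F.mu u ≤ C) :
    ∫⁻ q in {q : ST | s < q.2 ∧ q.2 < t}, g q ∂m ≤ C * ENNReal.ofReal (t - s) := by
  have hS : MeasurableSet {q : ST | s < q.2 ∧ q.2 < t} := measurable_snd measurableSet_Ioo
  rw [← lintegral_indicator hS, (hm _ (hg.indicator hS)).2, ← Real.volume_Ioo,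
    ← setLIntegral_const, ← lintegral_indicator measurableSet_Ioo]
  refine lintegral_mono fun u => ?_
  by_cases hu : u ∈ Ioo s t
  · rw [indicator_of_mem hu]
    refine le_trans (lintegral_mono fun x => indicator_le_self _ _ _) (h u hu)
  · have : ∀ x : E, {q : ST | s < q.2 ∧ q.2 < t}.indicator g (x, u) = 0 := fun x =>
      indicator_of_notMem (s := {q : ST | s < q.2 ∧ q.2 < t}) (a := (x, u)) hu _
    simp [this]

theorem stm_fin (hF : Cpt F a Λ G) (hm : IsStm F m) (s t : ℝ) :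
    m {q : ST | s < q.2 ∧ q.2 < t} < ⊤ := by
  obtain ⟨ρ, hρ⟩ := hF.bdd
  rw [← setLIntegral_one]
  refine lt_of_le_of_lt (stm_slab hm measurable_const (C := ENNReal.ofReal (Λ * (|ρ| + 1) ^ 2))
    fun u _ => ?_) (ENNReal.mul_lt_top ENNReal.ofReal_lt_top ENNReal.ofReal_lt_top)
  rw [lintegral_one]
  refine le_trans ?_ (hF.fl.ar u 0 _ (by positivity))
  refine measure_mono_ae ?_
  filter_upwards [Hu.ae_sl hF.fl.mcf.1 u] with x hx _
  have := hρ _ hx
  exact mem_ball_zero_iff.2 (by linarith [le_abs_self ρ])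

theorem dev_cont (hF : F.Reg) (y : E) : ContinuousOn (F.dev (y, 0)) (F.M ∩ {q | q.2 < 0}) := by
  refine (hF.sm_H.continuousOn.mono inter_subset_left).sub
    (((hF.sm_xn y).continuousOn.mono inter_subset_left).div (by fun_prop) fun q hq => ?_)
  have : q.2 < 0 := hq.2
  simp only
  linarith

theorem dens_cont (hF : F.Reg) (y : E) (ε B t : ℝ) :
    ContinuousOn (dens F y ε B t) (F.M ∩ {q | q.2 < 0}) := by
  refine ((continuousOn_const.mul (hF.sm_A2.continuousOn.mono inter_subset_left)).mul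
    (continuousOn_const.sub (ContinuousOn.pow (ContinuousOn.div (by fun_prop) (by fun_prop)
      fun q hq => ?_) 2))).add (continuousOn_const.mul ((dev_cont hF y).pow 2))
  exact ne_of_lt hq.2

/-- the density is bounded on compact time intervals -/
theorem dens_le (hF : Cpt F a Λ G) (y : E) {ε : ℝ} (B : ℝ) (hε : 0 ≤ ε) {s t : ℝ} (hs : a < s)
    (ht : t < 0) : ∃ K : ℝ, 0 ≤ K ∧ ∀ u, u ≤ t → ∀ q ∈ F.M, s < q.2 → q.2 < u →
      dens F y ε B u q ≤ K := by
  have hsub : F.M ∩ univ ×ˢ Icc s t ⊆ F.M ∩ {q | q.2 < 0} := fun q hq =>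
    ⟨hq.1, hq.2.2.2.trans_lt ht⟩
  have hc : ContinuousOn (fun q => ε * F.A2 q + ε * B * F.dev (y, 0) q ^ 2)
      (F.M ∩ univ ×ˢ Icc s t) :=
    (continuousOn_const.mul (hF.fl.mcf.1.sm_A2.continuousOn.mono inter_subset_left)).add
      (continuousOn_const.mul (((dev_cont hF.fl.mcf.1 y).mono hsub).pow 2))
  obtain ⟨K, hK⟩ := (cpt_track hF hs ht).exists_bound_of_continuousOn hc
  refine ⟨max K 0, le_max_right _ _, fun u hu q hq h1 h2 => ?_⟩
  have h3 := (le_abs_self _).trans (hK q ⟨hq, trivial, h1.le, h2.le.trans hu⟩)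
  have h4 := mul_le_of_le_one_right (mul_nonneg hε (A2_nonneg F q)) (damp_mem h2 (hu.trans_lt ht)).2
  unfold dens
  linarith [le_max_left K 0]

theorem UU_nonneg (F : Mv) (m : Measure ST) (y : E) {ε B σ : ℝ} (a₀ : ℝ) (hε : 0 ≤ ε) (hB : 0 ≤ B)
    (hσ : 0 < σ) {p : ST} (hp : p.2 < 0) : 0 ≤ UU F m y ε B σ a₀ p :=
  setIntegral_nonneg (measurable_snd measurableSet_Ioo) fun q hq =>
    mul_nonneg (Gau.gau_pos _ (by linarith [hq.2]) _).le (dens_nonneg F y hε hB hq.2 hp)

theorem meas_gau (σ : ℝ) (p : ST) : Measurable fun q : ST => gau q.1 (p.2 - q.2 + σ) p.1 := by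
  unfold gau
  fun_prop

/-- the potential of the area measure itself -/
theorem gau_slab (hF : F.AR Λ) (hm : IsStm F m) {σ : ℝ} (hσ : 0 < σ) (a₀ : ℝ) (p : ST) :
    IntegrableOn (fun q : ST => gau q.1 (p.2 - q.2 + σ) p.1) {q : ST | a₀ < q.2 ∧ q.2 < p.2} m ∧
    ∫ q in {q : ST | a₀ < q.2 ∧ q.2 < p.2}, gau q.1 (p.2 - q.2 + σ) p.1 ∂m ≤
      Gau.C0 * max Λ 0 * max (p.2 - a₀) 0 := by
  have hS : MeasurableSet {q : ST | a₀ < q.2 ∧ q.2 < p.2} := measurable_snd measurableSet_Ioo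
  have h0 : 0 ≤ᵐ[m.restrict {q : ST | a₀ < q.2 ∧ q.2 < p.2}]
      fun q : ST => gau q.1 (p.2 - q.2 + σ) p.1 := by
    filter_upwards [ae_restrict_mem hS] with q hq
    exact (Gau.gau_pos _ (by linarith [hq.2]) _).le
  have hΛ : 0 ≤ max Λ 0 := le_max_right _ _
  have hC := Gau.C0_nonneg
  have h1 := stm_slab hm (meas_gau σ p).ennreal_ofReal (s := a₀) (t := p.2)
    (C := ENNReal.ofReal (Gau.C0 * max Λ 0)) fun u hu => by
      have hr : Gau.Rat (F.mu u) (max Λ 0) := fun y r hr => (hF u y r hr).trans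
        (ENNReal.ofReal_le_ofReal (mul_le_mul_of_nonneg_right (le_max_left _ _) (sq_nonneg _)))
      have hs : 0 < p.2 - u + σ := by linarith [hu.2]
      simp only [gau_symm _ _ p.1]
      rw [← ofReal_integral_eq_lintegral_ofReal (Gau.int_gau hΛ hr _ hs)
        (Eventually.of_forall fun x => (Gau.gau_pos _ hs x).le)]
      exact ENNReal.ofReal_le_ofReal (Gau.integral_gau_le hΛ hr _ hs)
  refine ⟨⟨(meas_gau σ p).aestronglyMeasurable, (hasFiniteIntegral_iff_ofReal h0).2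
    (h1.trans_lt (ENNReal.mul_lt_top ENNReal.ofReal_lt_top ENNReal.ofReal_lt_top))⟩, ?_⟩
  rw [integral_eq_lintegral_of_nonneg_ae h0 (meas_gau σ p).aestronglyMeasurable]
  refine ENNReal.toReal_le_of_le_ofReal (by positivity) (h1.trans ?_)
  rw [ENNReal.ofReal_mul (p := Gau.C0 * max Λ 0) (by positivity)]
  gcongr
  exact le_max_left _ _

/-- the potential is bounded independently of `σ` -/
theorem UU_le (hF : Cpt F a Λ G) (hm : IsStm F m) (y : E) {ε B : ℝ} (hε : 0 ≤ ε) (hB : 0 ≤ B)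
    {a₀ t : ℝ} (hs : a < a₀) (ht : t < 0) : ∃ C : ℝ, ∀ σ, 0 < σ → ∀ p : ST, p.2 ≤ t →
      UU F m y ε B σ a₀ p ≤ C := by
  obtain ⟨K, hK0, hK⟩ := dens_le hF y B hε hs ht
  refine ⟨K * (Gau.C0 * max Λ 0 * max (t - a₀) 0), fun σ hσ p hp => ?_⟩
  have hS : MeasurableSet {q : ST | a₀ < q.2 ∧ q.2 < p.2} := measurable_snd measurableSet_Ioo
  obtain ⟨h1, h2⟩ := gau_slab hF.fl.ar hm hσ a₀ p
  have hC := Gau.C0_nonneg
  calc UU F m y ε B σ a₀ p
      ≤ ∫ q in {q : ST | a₀ < q.2 ∧ q.2 < p.2}, K * gau q.1 (p.2 - q.2 + σ) p.1 ∂m := by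
        refine integral_mono_of_nonneg ?_ (h1.const_mul K) ?_
        · filter_upwards [ae_restrict_mem hS] with q hq
          exact mul_nonneg (Gau.gau_pos _ (by linarith [hq.2]) _).le
            (dens_nonneg F y hε hB hq.2 (hp.trans_lt ht))
        · filter_upwards [ae_restrict_mem hS, ae_restrict_of_ae (stm_ae hF.fl.mcf.1 hm)]
            with q hq hqM
          rw [mul_comm]
          exact mul_le_mul_of_nonneg_right (hK _ hp q hqM hq.1 hq.2)
            (Gau.gau_pos _ (by linarith [hq.2]) _).le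
    _ ≤ _ := by
        rw [integral_const_mul]
        refine mul_le_mul_of_nonneg_left (h2.trans ?_) hK0
        gcongr

theorem aesm_UU (hF : F.Reg) (hm : IsStm F m) (y : E) (ε B σ a₀ : ℝ) {p : ST} (hp : p.2 ≤ 0) :
    AEStronglyMeasurable (fun q : ST => gau q.1 (p.2 - q.2 + σ) p.1 * dens F y ε B p.2 q)
      (m.restrict {q : ST | a₀ < q.2 ∧ q.2 < p.2}) :=
  (meas_gau σ p).aestronglyMeasurable.mul (aesm_stm hF hm (measurable_snd measurableSet_Ioo)
    ((dens_cont hF y ε B p.2).mono fun _ hq => ⟨hq.1, hq.2.2.trans_le hp⟩))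

theorem UU_cont (hF : Cpt F a Λ G) (hm : IsStm F m) (y : E) {ε B σ : ℝ} (hε : 0 ≤ ε) (hB : 0 ≤ B)
    (hσ : 0 < σ) {a₀ : ℝ} (hs : a < a₀) {p : ST} (hp : p.2 < 0) :
    ContinuousAt (UU F m y ε B σ a₀) p := by
  have ht : p.2 / 2 < 0 := by linarith
  obtain ⟨K, hK0, hK⟩ := dens_le hF y B hε hs ht
  have hS : ∀ t, MeasurableSet {q : ST | a₀ < q.2 ∧ q.2 < t} := fun t =>
    measurable_snd measurableSet_Ioo
  have hn : ∀ᶠ p' : ST in 𝓝 p, p'.2 < p.2 / 2 :=
    continuous_snd.continuousAt.eventually (gt_mem_nhds (by linarith))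
  have e : UU F m y ε B σ a₀ = fun p' : ST => ∫ q, {q : ST | a₀ < q.2 ∧ q.2 < p'.2}.indicator
      (fun q : ST => gau q.1 (p'.2 - q.2 + σ) p'.1 * dens F y ε B p'.2 q) q ∂m := by
    ext p'
    rw [integral_indicator (hS _)]
    rfl
  rw [e]
  refine continuousAt_of_dominated (bound := {q : ST | a₀ < q.2 ∧ q.2 < p.2 / 2}.indicator
    fun _ => (4 * Real.pi * σ)⁻¹ * K) ?_ ?_ ?_ ?_
  · filter_upwards [hn] with p' hp'
    exact (aestronglyMeasurable_indicator_iff (hS _)).2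
      (aesm_UU hF.fl.mcf.1 hm y ε B σ a₀ (by linarith))
  · filter_upwards [hn] with p' hp'
    filter_upwards [stm_ae hF.fl.mcf.1 hm] with q hq
    by_cases h : q ∈ {q : ST | a₀ < q.2 ∧ q.2 < p'.2}
    · have h' : q ∈ {q : ST | a₀ < q.2 ∧ q.2 < p.2 / 2} := ⟨h.1, h.2.trans hp'⟩
      have hl : 0 < p'.2 - q.2 + σ := by linarith [h.2]
      have h0 := dens_nonneg F y hε hB h.2 (hp'.trans ht)
      rw [indicator_of_mem h, indicator_of_mem h',
        Real.norm_of_nonneg (mul_nonneg (Gau.gau_pos _ hl _).le h0)]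
      refine mul_le_mul ((gau_le_inv _ hl _).trans ?_) (hK _ hp'.le q hq h.1 h.2) h0 (by positivity)
      exact inv_anti₀ (by positivity) (mul_le_mul_of_nonneg_left (by linarith [h.2]) (by positivity))
    · rw [indicator_of_notMem h, norm_zero]
      exact indicator_nonneg (fun _ _ => by positivity) _
  · exact (integrable_indicator_iff (hS _)).2 (integrableOn_const (stm_fin hF hm _ _).ne)
  · filter_upwards [stm_ne hm p.2] with q hq
    by_cases h1 : a₀ < q.2 ∧ q.2 < p.2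
    · have hn' : ∀ᶠ p' : ST in 𝓝 p, q.2 < p'.2 :=
        continuous_snd.continuousAt.eventually (lt_mem_nhds h1.2)
      refine ContinuousAt.congr (f := fun p' : ST =>
        gau q.1 (p'.2 - q.2 + σ) p'.1 * dens F y ε B p'.2 q) ?_ ?_
      · have hl : p.2 - q.2 + σ ≠ 0 := by linarith [h1.2]
        have := Real.pi_pos.ne'
        unfold gau dens
        fun_prop (disch := simp [*])
      · filter_upwards [hn'] with p' hp'
        rw [indicator_of_mem (show q ∈ {q : ST | a₀ < q.2 ∧ q.2 < p'.2} from ⟨h1.1, hp'⟩)]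
    · refine ContinuousAt.congr (f := fun _ => (0 : ℝ)) continuousAt_const ?_
      by_cases h2 : a₀ < q.2
      · have h3 : p.2 < q.2 := lt_of_le_of_ne (not_lt.1 fun h => h1 ⟨h2, h⟩) hq.symm
        filter_upwards [continuous_snd.continuousAt.eventually (gt_mem_nhds h3)] with p' hp'
        rw [indicator_of_notMem fun h => lt_asymm hp' h.2]
      · exact Eventually.of_forall fun p' => (indicator_of_notMem (fun h => h2 h.1) _).symm

end PC

theorem psiCS_holds : PsiCS := by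
  intro F a Λ G m hF hm y ε B θ₁ hε hB hθ
  have ha : a < 3 * a / 4 := by linarith [hF.neg]
  refine ⟨?_, fun σ hσ => ⟨fun p hp => ?_, fun p hp => PC.UU_nonneg F m y _ hε hB.le hσ hp⟩⟩
  · obtain ⟨C, hC⟩ := PC.UU_le hF hm y hε hB.le ha (t := -θ₁) (by linarith)
    obtain ⟨ρ, hρ⟩ := hF.bdd
    refine ⟨B⁻¹ * √√(θ₁ * θ₁) * Real.exp (-(ρ + ‖y‖) ^ 2 / (32 * θ₁) - C), by positivity,
      fun σ hσ p hp ht => ?_⟩
    have h1 : θ₁ ≤ -p.2 := by linarith [ht.2]
    have h2 : ‖p.1 - y‖ ≤ ρ + ‖y‖ := (norm_sub_le _ _).trans (by linarith [hρ p hp])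
    have h3 := hC σ hσ p ht.2
    have h4 : ‖p.1 - y‖ ^ 2 / (32 * -p.2) ≤ (ρ + ‖y‖) ^ 2 / (32 * θ₁) := by gcongr
    unfold psi
    gcongr ?_ * √√?_ * Real.exp ?_
    · gcongr
    · rw [neg_div, neg_div]
      linarith
  · have hp' : p.2 < 0 := hp.2
    have h1 := PC.UU_cont hF hm y hε hB.le hσ ha hp'
    have h2 : 32 * -p.2 ≠ 0 := by linarith
    refine ContinuousAt.continuousWithinAt ?_
    unfold psi
    fun_prop (disch := assumption)

end Crest.Agent.N250.A

end
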