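import Crest.Agent.N250.A.Cost
import Crest.Agent.N250.FV.Closed

/-!
# Row 250, block A (helper77): `PsiSubS`
-/

set_option autoImplicit false
open MeasureTheory Set Filter Topology Metric
open scoped ContDiff InnerProductSpace
open Crest.GeometryTopology.MCF

noncomputable section

namespace Crest.Agent.N250.A

namespace PS

section par

variable {μ : Measure ST} {K : Set ST} {w : ST → ℝ} {p : ST} {δ : ℝ}

/-- jointly smooth near `closedBall p δ × K` -/
def Ok {G : Type} [NormedAddCommGroup G] [NormedSpace ℝ G] (p : ST) (δ : ℝ) (K : Set ST)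
    (f : ST → ST → G) : Prop :=
  ∀ x ∈ closedBall p δ, ∀ q ∈ K, ContDiffAt ℝ ∞ (fun z : ST × ST => f z.1 z.2) (x, q)

variable {G : Type} [NormedAddCommGroup G] [NormedSpace ℝ G] {f : ST → ST → G}

theorem Ok.D (h : Ok p δ K f) : Ok p δ K fun x q => fderiv ℝ (fun x' => f x' q) x := by
  intro x hx q hq
  refine ContDiffAt.fderiv (f := fun (z : ST × ST) (x' : ST) => f x' z.2) (g := fun z => z.1)
    (n := ∞) ?_ contDiffAt_fst (by simp)
  exact ContDiffAt.comp (g := fun z : ST × ST => f z.1 z.2)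
    (f := fun u : (ST × ST) × ST => (u.2, u.1.2)) _ (h x hx q hq) (by fun_prop)

theorem Ok.Dv (h : Ok p δ K f) (v : ST) : Ok p δ K fun x q => fderiv ℝ (fun x' => f x' q) x v :=
  fun x hx q hq => (h.D x hx q hq).clm_apply contDiffAt_const

theorem Ok.bd (hK : IsCompact K) (h : Ok p δ K f) :
    ∃ C, ∀ x ∈ closedBall p δ, ∀ q ∈ K, ‖f x q‖ ≤ C := by
  obtain ⟨C, hC⟩ := ((isCompact_closedBall p δ).prod hK).exists_bound_of_continuousOn
    (f := fun z : ST × ST => f z.1 z.2)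
    fun z hz => (h z.1 hz.1 z.2 hz.2).continuousAt.continuousWithinAt
  exact ⟨C, fun x hx q hq => hC (x, q) ⟨hx, hq⟩⟩

theorem Ok.aesm (hK : IsCompact K) (hμ : ∀ᵐ q ∂μ, q ∈ K) (h : Ok p δ K f) {x : ST}
    (hx : x ∈ closedBall p δ) : AEStronglyMeasurable (f x) μ := by
  rw [← Measure.restrict_eq_self_of_ae_mem hμ]
  refine ContinuousOn.aestronglyMeasurable_of_isCompact (fun q hq => ?_) hK hK.measurableSet
  exact (ContinuousAt.comp (g := fun z : ST × ST => f z.1 z.2) (f := fun q : ST => (x, q))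
    (h x hx q hq).continuousAt (by fun_prop)).continuousWithinAt

theorem Ok.int (hK : IsCompact K) (hμ : ∀ᵐ q ∂μ, q ∈ K) (hw : Integrable w μ) (h : Ok p δ K f)
    {x : ST} (hx : x ∈ closedBall p δ) : Integrable (fun q => w q • f x q) μ := by
  obtain ⟨C, hC⟩ := h.bd hK
  refine (hw.norm.mul_const C).mono' (hw.1.smul (h.aesm hK hμ hx)) ?_
  filter_upwards [hμ] with q hq
  rw [norm_smul]
  exact mul_le_mul_of_nonneg_left (hC x hx q hq) (norm_nonneg _)

theorem Ok.diff (h : Ok p δ K f) {x : ST} (hx : x ∈ closedBall p δ) {q : ST} (hq : q ∈ K) :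
    DifferentiableAt ℝ (fun x' => f x' q) x :=
  (ContDiffAt.comp (g := fun z : ST × ST => f z.1 z.2) (f := fun x' : ST => (x', q)) _
    (h x hx q hq) (by fun_prop)).differentiableAt (by simp)

theorem Ok.hasF (hK : IsCompact K) (hμ : ∀ᵐ q ∂μ, q ∈ K) (hw : Integrable w μ) (h : Ok p δ K f)
    {x : ST} (hx : x ∈ ball p δ) : HasFDerivAt (fun x => ∫ q, w q • f x q ∂μ)
      (∫ q, w q • fderiv ℝ (fun x' => f x' q) x ∂μ) x := by
  obtain ⟨C, hC⟩ := h.D.bd hK
  have hn : ball p δ ∈ 𝓝 x := isOpen_ball.mem_nhds hx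
  refine hasFDerivAt_integral_of_dominated_of_fderiv_le (F := fun x q => w q • f x q)
    (F' := fun x q => w q • fderiv ℝ (fun x' => f x' q) x) (bound := fun q => ‖w q‖ * C) hn ?_
    (h.int hK hμ hw (ball_subset_closedBall hx))
    (h.D.int hK hμ hw (ball_subset_closedBall hx)).1 ?_ (hw.norm.mul_const C) ?_
  · filter_upwards [hn] with x' hx' using (h.int hK hμ hw (ball_subset_closedBall hx')).1
  · filter_upwards [hμ] with q hq x' hx'
    rw [norm_smul]
    exact mul_le_mul_of_nonneg_left (hC x' (ball_subset_closedBall hx') q hq) (norm_nonneg _)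
  · filter_upwards [hμ] with q hq x' hx'
    exact (h.diff (ball_subset_closedBall hx') hq).hasFDerivAt.const_smul (w q)

theorem Ok.contDiffOn (hK : IsCompact K) (hμ : ∀ᵐ q ∂μ, q ∈ K) (hw : Integrable w μ) (n : ℕ) :
    ∀ {G : Type} [NormedAddCommGroup G] [NormedSpace ℝ G] {f : ST → ST → G}, Ok p δ K f →
      ContDiffOn ℝ n (fun x => ∫ q, w q • f x q ∂μ) (ball p δ) := by
  induction n with
  | zero =>
    intro G _ _ f h
    exact contDiffOn_zero.2 fun x hx => (h.hasF hK hμ hw hx).continuousAt.continuousWithinAt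
  | succ n ih =>
    intro G _ _ f h
    rw [Nat.cast_succ, contDiffOn_succ_iff_fderiv_of_isOpen isOpen_ball]
    exact ⟨fun x hx => (h.hasF hK hμ hw hx).differentiableAt.differentiableWithinAt, by simp,
      (ih h.D).congr fun x hx => (h.hasF hK hμ hw hx).fderiv⟩

theorem Ok.dir [CompleteSpace G] (hK : IsCompact K) (hμ : ∀ᵐ q ∂μ, q ∈ K) (hw : Integrable w μ)
    (h : Ok p δ K f) {x : ST} (hx : x ∈ ball p δ) (v : ST) :
    fderiv ℝ (fun x => ∫ q, w q • f x q ∂μ) x v =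
      ∫ q, w q • fderiv ℝ (fun x' => f x' q) x v ∂μ := by
  rw [(h.hasF hK hμ hw hx).fderiv,
    ContinuousLinearMap.integral_apply (h.D.int hK hμ hw (ball_subset_closedBall hx))]
  rfl

theorem Ok.d2_eq {f : ST → ST → ℝ} (hK : IsCompact K) (hμ : ∀ᵐ q ∂μ, q ∈ K) (hw : Integrable w μ)
    (h : Ok p δ K f) (hδ : 0 < δ) (v : E) :
    d2 (fun x => ∫ q, w q • f x q ∂μ) p v = ∫ q, w q • d2 (fun x => f x q) p v ∂μ := by
  have e : (fun x => fderiv ℝ (fun x => ∫ q, w q • f x q ∂μ) x (v, 0)) =ᶠ[𝓝 p]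
      fun x => ∫ q, w q • fderiv ℝ (fun x' => f x' q) x (v, 0) ∂μ := by
    filter_upwards [ball_mem_nhds p hδ] with x hx using h.dir hK hμ hw hx _
  unfold d2
  rw [e.fderiv_eq, (h.Dv (v, 0)).dir hK hμ hw (mem_ball_self hδ)]

theorem Ok.hb_eq {f : ST → ST → ℝ} (hK : IsCompact K) (hμ : ∀ᵐ q ∂μ, q ∈ K) (hw : Integrable w μ)
    (h : Ok p δ K f) (hδ : 0 < δ) (n : E) :
    Integrable (fun q => w q * hb n (fun x => f x q) p) μ ∧
    hb n (fun x => ∫ q, w q • f x q ∂μ) p = ∫ q, w q * hb n (fun x => f x q) p ∂μ := by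
  have hp : p ∈ closedBall p δ := mem_closedBall_self hδ.le
  have i1 := (h.Dv (0, 1)).int hK hμ hw hp
  have i2 : ∀ v : E, Integrable (fun q => w q • d2 (fun x => f x q) p v) μ := fun v =>
    ((h.Dv (v, 0)).Dv (v, 0)).int hK hμ hw hp
  have i3 := integrable_finsetSum Finset.univ fun a _ => i2 (ee a)
  have e : ∀ q, w q * hb n (fun x => f x q) p = w q • fderiv ℝ (fun x' => f x' q) p (0, 1) -
      (∑ a, w q • d2 (fun x => f x q) p (ee a) - w q • d2 (fun x => f x q) p n) := fun q => by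
    simp only [hb, smul_eq_mul, ← Finset.mul_sum]; ring
  have i4 : Integrable (fun q => ∑ a, w q • d2 (fun x => f x q) p (ee a) -
      w q • d2 (fun x => f x q) p n) μ := i3.sub (i2 n)
  simp only [e]
  refine ⟨i1.sub i4, ?_⟩
  rw [integral_sub i1 i4, integral_sub i3 (i2 n),
    integral_finsetSum _ fun a _ => i2 (ee a), hb, h.dir hK hμ hw (mem_ball_self hδ)]
  simp only [h.d2_eq hK hμ hw hδ]

end par

/-! ### linearity -/

theorem d2_sub {f g : ST → ℝ} {p : ST} (hf : ContDiffAt ℝ 2 f p) (hg : ContDiffAt ℝ 2 g p) (v : E) :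
    d2 (fun x => f x - g x) p v = d2 f p v - d2 g p v := by
  have e : (fun x => fderiv ℝ (fun x => f x - g x) x (v, 0)) =ᶠ[𝓝 p]
      fun x => fderiv ℝ f x (v, 0) - fderiv ℝ g x (v, 0) := by
    filter_upwards [hf.eventually (by simp), hg.eventually (by simp)] with x h1 h2
    rw [fderiv_fun_sub (h1.differentiableAt (by simp)) (h2.differentiableAt (by simp))]
    rfl
  have d : ∀ {f : ST → ℝ}, ContDiffAt ℝ 2 f p →
      DifferentiableAt ℝ (fun x => fderiv ℝ f x (v, 0)) p := fun hf =>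
    ((hf.fderiv_right (m := 1) (by norm_num)).clm_apply contDiffAt_const).differentiableAt (by simp)
  unfold d2
  rw [e.fderiv_eq, fderiv_fun_sub (d hf) (d hg)]
  rfl

theorem hb_sub {f g : ST → ℝ} {p : ST} (hf : ContDiffAt ℝ 2 f p) (hg : ContDiffAt ℝ 2 g p) (n : E) :
    hb n (fun x => f x - g x) p = hb n f p - hb n g p := by
  simp only [hb, d2_sub hf hg, Finset.sum_sub_distrib]
  rw [fderiv_fun_sub (hf.differentiableAt (by simp)) (hg.differentiableAt (by simp))]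
  simp only [sub_apply]
  ring

/-! ### explicit functions -/

theorem hN (z : E) (x : ST) : HasFDerivAt (fun x : ST => ‖x.1 - z‖ ^ 2)
    (2 • (innerSL ℝ (x.1 - z)).comp (ContinuousLinearMap.fst ℝ E ℝ)) x :=
  (hasFDerivAt_fst.sub_const z).norm_sq

theorem hI (z v : E) (x : ST) : HasFDerivAt (fun x : ST => ⟪v, x.1 - z⟫_ℝ)
    ((innerSL ℝ v).comp (ContinuousLinearMap.fst ℝ E ℝ)) x :=
  (innerSL ℝ v).hasFDerivAt.comp x (hasFDerivAt_fst.sub_const z)

theorem hT {α : ℝ → ℝ} {a : ℝ} {x : ST} (h : HasDerivAt α a x.2) :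
    HasFDerivAt (fun x : ST => α x.2) (a • ContinuousLinearMap.snd ℝ E ℝ) x :=
  h.comp_hasFDerivAt x hasFDerivAt_snd

theorem sum_ee (u : E) : ∑ a, ⟪ee a, u⟫_ℝ ^ 2 = ‖u‖ ^ 2 := by
  rw [EuclideanSpace.real_norm_sq_eq]
  refine Finset.sum_congr rfl fun a _ => ?_
  rw [real_inner_comm, Hu.inner_ee]

/-- `α(t) - β(t) |x - z|²` -/
theorem hb_quad {α β : ℝ → ℝ} {a b : ℝ} {p : ST} (z : E) {n : E} (hn : ‖n‖ = 1)
    (hα : HasDerivAt α a p.2) (hβ : HasDerivAt β b p.2)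
    (hα' : ∀ᶠ t in 𝓝 p.2, DifferentiableAt ℝ α t) (hβ' : ∀ᶠ t in 𝓝 p.2, DifferentiableAt ℝ β t) :
    hb n (fun x => α x.2 - β x.2 * ‖x.1 - z‖ ^ 2) p = a - b * ‖p.1 - z‖ ^ 2 + 4 * β p.2 := by
  have h2 : ∀ v : E, d2 (fun x => α x.2 - β x.2 * ‖x.1 - z‖ ^ 2) p v = -2 * β p.2 * ‖v‖ ^ 2 := by
    intro v
    have e : (fun x : ST => fderiv ℝ (fun x : ST => α x.2 - β x.2 * ‖x.1 - z‖ ^ 2) x (v, 0)) =ᶠ[𝓝 p]
        fun x => -2 * (β x.2 * ⟪v, x.1 - z⟫_ℝ) := by
      filter_upwards [continuous_snd.continuousAt.eventually hα',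
        continuous_snd.continuousAt.eventually hβ'] with x h1 h2
      rw [((hT h1.hasDerivAt).fun_sub ((hT h2.hasDerivAt).fun_mul (hN z x))).fderiv]
      simp [inner_sub_right, real_inner_comm]; ring
    unfold d2
    rw [e.fderiv_eq, (((hT hβ).fun_mul (hI z v p)).const_mul (-2)).fderiv]
    simp; ring
  simp only [hb, h2, hn]
  rw [((hT hα).fun_sub ((hT hβ).fun_mul (hN z p))).fderiv]
  simp; ring

/-- `α(t) exp (-β(t) |x - z|²)` -/
theorem hb_exp {α β : ℝ → ℝ} {a b : ℝ} {p : ST} (z : E) {n : E} (hn : ‖n‖ = 1)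
    (hα : HasDerivAt α a p.2) (hβ : HasDerivAt β b p.2)
    (hα' : ∀ᶠ t in 𝓝 p.2, DifferentiableAt ℝ α t) (hβ' : ∀ᶠ t in 𝓝 p.2, DifferentiableAt ℝ β t) :
    hb n (fun x => α x.2 * Real.exp (-(β x.2 * ‖x.1 - z‖ ^ 2))) p =
      (a - α p.2 * (b * ‖p.1 - z‖ ^ 2 - 4 * β p.2 +
        4 * β p.2 ^ 2 * (‖p.1 - z‖ ^ 2 - ⟪n, p.1 - z⟫_ℝ ^ 2))) *
        Real.exp (-(β p.2 * ‖p.1 - z‖ ^ 2)) := by
  have h2 : ∀ v : E, d2 (fun x => α x.2 * Real.exp (-(β x.2 * ‖x.1 - z‖ ^ 2))) p v =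
      α p.2 * Real.exp (-(β p.2 * ‖p.1 - z‖ ^ 2)) *
        (4 * β p.2 ^ 2 * ⟪v, p.1 - z⟫_ℝ ^ 2 - 2 * β p.2 * ‖v‖ ^ 2) := by
    intro v
    have e : (fun x : ST => fderiv ℝ (fun x : ST => α x.2 * Real.exp (-(β x.2 * ‖x.1 - z‖ ^ 2))) x
        (v, 0)) =ᶠ[𝓝 p] fun x => -2 * (β x.2 * ⟪v, x.1 - z⟫_ℝ *
          (α x.2 * Real.exp (-(β x.2 * ‖x.1 - z‖ ^ 2)))) := by
      filter_upwards [continuous_snd.continuousAt.eventually hα',
        continuous_snd.continuousAt.eventually hβ'] with x h1 h2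
      rw [((hT h1.hasDerivAt).fun_mul ((hT h2.hasDerivAt).fun_mul (hN z x)).fun_neg.exp).fderiv]
      simp [inner_sub_right, real_inner_comm]; ring
    unfold d2
    rw [e.fderiv_eq, ((((hT hβ).fun_mul (hI z v p)).fun_mul ((hT hα).fun_mul
      ((hT hβ).fun_mul (hN z p)).fun_neg.exp)).const_mul (-2)).fderiv]
    simp [inner_sub_right, real_inner_comm]; ring
  simp only [hb, h2, hn, ← Finset.mul_sum, Finset.sum_sub_distrib, sum_ee]
  rw [((hT hα).fun_mul ((hT hβ).fun_mul (hN z p)).fun_neg.exp).fderiv]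
  simp; ring

/-- the Gaussian is a supersolution -/
theorem hb_gau {c : ℝ → ℝ} {c' s : ℝ} {p : ST} (z : E) {n : E} (hn : ‖n‖ = 1) (hs : 0 < p.2 + s)
    (hc : HasDerivAt c c' p.2) (hc' : ∀ t, DifferentiableAt ℝ c t) (h0 : 0 ≤ c p.2) :
    gau z (p.2 + s) p.1 * c' ≤ hb n (fun x => gau z (x.2 + s) x.1 * c x.2) p := by
  have hpi := Real.pi_pos
  have e : (fun x : ST => gau z (x.2 + s) x.1 * c x.2) = fun x => ((4 * Real.pi * (x.2 + s))⁻¹ *
      c x.2) * Real.exp (-((4 * (x.2 + s))⁻¹ * ‖x.1 - z‖ ^ 2)) := by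
    funext x
    unfold gau
    rw [mul_right_comm]; congr 2; ring
  have hne : ∀ᶠ t in 𝓝 p.2, 0 < t + s :=
    (continuous_id.add continuous_const).continuousAt.eventually (lt_mem_nhds hs)
  have h1 := ((((hasDerivAt_id' p.2).add_const s).const_mul (4 * Real.pi)).fun_inv
    (by positivity)).fun_mul hc
  have h2 := (((hasDerivAt_id' p.2).add_const s).const_mul 4).fun_inv (by positivity)
  rw [e, hb_exp (α := fun t => (4 * Real.pi * (t + s))⁻¹ * c t) (β := fun t => (4 * (t + s))⁻¹) z hn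
    h1 h2 ?_ ?_]
  · have e2 : gau z (p.2 + s) p.1 = (4 * Real.pi * (p.2 + s))⁻¹ *
        Real.exp (-((4 * (p.2 + s))⁻¹ * ‖p.1 - z‖ ^ 2)) := by
      unfold gau; congr 2; ring
    rw [e2, mul_right_comm]
    refine mul_le_mul_of_nonneg_right ?_ (Real.exp_pos _).le
    rw [← sub_nonneg]
    have : 0 ≤ (4 * Real.pi * (p.2 + s))⁻¹ * c p.2 * (⟪n, p.1 - z⟫_ℝ ^ 2 / (4 * (p.2 + s) ^ 2)) := by
      positivity
    refine this.trans (le_of_eq ?_)
    field_simp; ring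
  · filter_upwards [hne] with t ht
    have := hc' t
    have : 4 * Real.pi * (t + s) ≠ 0 := by positivity
    fun_prop (disch := assumption)
  · filter_upwards [hne] with t ht
    have : 4 * (t + s) ≠ 0 := by positivity
    fun_prop (disch := assumption)

theorem log_psi (F : Mv) (m : Measure ST) (y : E) (ε σ a₀ : ℝ) {B θ₁ : ℝ} (hB : 0 < B)
    (hθ : 0 < θ₁) {q : ST} (hq : q.2 < 0) : Real.log (psi F m y ε B σ a₀ θ₁ q) =
      (-Real.log B + Real.log (θ₁ * -q.2) / 4) - (32 * -q.2)⁻¹ * ‖q.1 - y‖ ^ 2 -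
        UU F m y ε B σ a₀ q := by
  have h : 0 < θ₁ * -q.2 := mul_pos hθ (by linarith)
  unfold psi
  rw [Real.log_mul (by positivity) (Real.exp_pos _).ne', Real.log_mul (by positivity) (by positivity),
    Real.log_exp, Real.log_inv, Real.log_sqrt (Real.sqrt_nonneg _), Real.log_sqrt h.le]
  ring

end PS

theorem psiSubS_of (hA : A2S) : PsiSubS := by
  intro Λ G
  obtain ⟨C, hC, hb'⟩ := Cost.blk hA Λ G
  refine ⟨1 / (64 * C), by positivity, fun F a m hF hm y ε B σ θ₁ p hε hε' hB hσ hθ hp => ?_⟩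
  have ha : a < 3 * a / 4 := by linarith [hF.neg]
  set a₀ := 3 * a / 4
  have hp0 : p.2 < 0 := by linarith
  have hR := hF.fl.mcf.1
  have hS : ∀ t, MeasurableSet {q : ST | a₀ < q.2 ∧ q.2 < t} := fun t =>
    measurable_snd measurableSet_Ioo
  set μ := m.restrict {q : ST | a₀ < q.2 ∧ q.2 < p.2} with hμd
  set K : Set ST := F.M ∩ univ ×ˢ Icc a₀ p.2
  have hK : IsCompact K := PC.cpt_track hF ha hp0
  have hμ' : ∀ᵐ q ∂μ, q ∈ F.M ∧ a₀ < q.2 ∧ q.2 < p.2 := by
    filter_upwards [ae_restrict_mem (hS p.2), ae_restrict_of_ae (PC.stm_ae hR hm)] with q h1 h2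
    exact ⟨h2, h1⟩
  have hμ : ∀ᵐ q ∂μ, q ∈ K := by
    filter_upwards [hμ'] with q h using ⟨h.1, trivial, h.2.1.le, h.2.2.le⟩
  have : IsFiniteMeasure μ := ⟨by simpa [hμd] using PC.stm_fin hF hm a₀ p.2⟩
  have hint : ∀ w : ST → ℝ, ContinuousOn w K → Integrable w μ := fun w hw => by
    rw [← Measure.restrict_eq_self_of_ae_mem hμ]
    exact hw.integrableOn_compact hK
  have hw1 : Integrable (fun q => ε * F.A2 q) μ :=
    hint _ (continuousOn_const.mul (hR.sm_A2.continuousOn.mono inter_subset_left))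
  have hw2 : Integrable (fun q => ε * B * F.dev (y, 0) q ^ 2) μ :=
    hint _ (continuousOn_const.mul (((PC.dev_cont hR y).mono fun q hq =>
      ⟨hq.1, hq.2.2.2.trans_lt hp0⟩).pow 2))
  have hδ : 0 < σ / 2 := by positivity
  have hcl : ∀ x ∈ closedBall p (σ / 2), p.2 - σ / 2 ≤ x.2 := fun x hx => by
    have := (le_max_right _ _).trans (Prod.dist_eq.symm.trans_le (mem_closedBall.1 hx))
    rw [Real.dist_eq, abs_le] at this
    linarith [this.1]
  have hpi := Real.pi_pos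
  have o2 : PS.Ok p (σ / 2) K fun x q => gau q.1 (x.2 + (σ - q.2)) x.1 * 1 := by
    intro x hx q hq
    have h1 : 0 < x.2 + (σ - q.2) := by linarith [hcl x hx, hq.2.2.2]
    have h2 : 4 * Real.pi * (x.2 + (σ - q.2)) ≠ 0 := by positivity
    have h3 : 4 * (x.2 + (σ - q.2)) ≠ 0 := by positivity
    have h4 : ContDiffAt ℝ ∞ (fun z : ST × ST => ‖z.1.1 - z.2.1‖ ^ 2) (x, q) :=
      ContDiffAt.norm_sq ℝ (by fun_prop)
    unfold gau
    fun_prop (disch := assumption)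
  have o1 : PS.Ok p (σ / 2) K fun x q =>
      gau q.1 (x.2 + (σ - q.2)) x.1 * (1 - ((x.2 - q.2) / q.2) ^ 2) := by
    intro x hx q hq
    have h1 := o2 x hx q hq
    simp only [mul_one] at h1
    have h2 : q.2 ≠ 0 := (hq.2.2.2.trans_lt hp0).ne
    exact h1.mul (by fun_prop (disch := assumption))
  have c1 : ContDiffAt ℝ 2 _ p := (PS.Ok.contDiffOn hK hμ hw1 2 o1).contDiffAt (ball_mem_nhds p hδ)
  have c2 : ContDiffAt ℝ 2 _ p := (PS.Ok.contDiffOn hK hμ hw2 2 o2).contDiffAt (ball_mem_nhds p hδ)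
  have hl : θ₁ * -p.2 ≠ 0 := (mul_pos hθ (by linarith)).ne'
  have hl2 : 32 * -p.2 ≠ 0 := by linarith
  have c0 : ContDiffAt ℝ 2 (fun x : ST => (-Real.log B + Real.log (θ₁ * -x.2) / 4) -
      (32 * -x.2)⁻¹ * ‖x.1 - y‖ ^ 2) p := by
    have h4 : ContDiffAt ℝ 2 (fun x : ST => ‖x.1 - y‖ ^ 2) p := ContDiffAt.norm_sq ℝ (by fun_prop)
    fun_prop (disch := assumption)
  have hsum : ∀ x ∈ closedBall p (σ / 2),
      Integrable (fun q : ST => gau q.1 (x.2 - q.2 + σ) x.1 * dens F y ε B x.2 q) μ ∧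
      ∫ q, gau q.1 (x.2 - q.2 + σ) x.1 * dens F y ε B x.2 q ∂μ =
      ∫ q, (ε * F.A2 q) • (gau q.1 (x.2 + (σ - q.2)) x.1 * (1 - ((x.2 - q.2) / q.2) ^ 2)) ∂μ +
      ∫ q, (ε * B * F.dev (y, 0) q ^ 2) • (gau q.1 (x.2 + (σ - q.2)) x.1 * 1) ∂μ := by
    intro x hx
    have e : (fun q : ST => gau q.1 (x.2 - q.2 + σ) x.1 * dens F y ε B x.2 q) = fun q =>
        (ε * F.A2 q) • (gau q.1 (x.2 + (σ - q.2)) x.1 * (1 - ((x.2 - q.2) / q.2) ^ 2)) +
        (ε * B * F.dev (y, 0) q ^ 2) • (gau q.1 (x.2 + (σ - q.2)) x.1 * 1) := by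
      funext q
      rw [show x.2 - q.2 + σ = x.2 + (σ - q.2) by ring]
      simp only [dens, smul_eq_mul]; ring
    rw [e]
    exact ⟨(o1.int hK hμ hw1 hx).add (o2.int hK hμ hw2 hx),
      integral_add (o1.int hK hμ hw1 hx) (o2.int hK hμ hw2 hx)⟩
  refine ⟨_, (c0.sub c1).sub c2, ?_, ?_, fun n hn => ?_⟩
  · rw [PS.log_psi F m y ε σ a₀ hB hθ hp0, sub_sub _ _ (∫ q, _ ∂μ),
      ← (hsum p (mem_closedBall_self hδ.le)).2]
    rfl
  · filter_upwards [closedBall_mem_nhds p hδ] with x hx hlt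
    rw [PS.log_psi F m y ε σ a₀ hB hθ (hlt.trans hp0), sub_sub _ _ (∫ q, _ ∂μ), ← (hsum x hx).2]
    refine sub_le_sub_left (setIntegral_mono_set (hsum x hx).1 ?_
      (LE.le.eventuallyLE fun q hq => ⟨hq.1, hq.2.trans hlt⟩)) _
    filter_upwards [hμ'] with q hq
    have h1 := hcl x hx
    have h2 : q.2 < 0 := hq.2.2.trans hp0
    refine mul_nonneg (Gau.gau_pos _ (by linarith [hq.2.2]) _).le
      (add_nonneg (mul_nonneg (mul_nonneg hε (PC.A2_nonneg F q)) ?_) (by positivity))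
    rw [sub_nonneg, div_pow, div_le_one (by nlinarith)]
    nlinarith [hq.2.2]
  · have hne : ∀ᶠ t in 𝓝 p.2, t < 0 := gt_mem_nhds hp0
    have d1 : HasDerivAt (fun t : ℝ => -Real.log B + Real.log (θ₁ * -t) / 4) (1 / (4 * p.2)) p.2 := by
      have := (((((hasDerivAt_id' p.2).fun_neg.const_mul θ₁).log hl).div_const 4).const_add
        (-Real.log B))
      refine this.congr_deriv ?_
      have := hp0.ne
      field_simp
    have d2 : HasDerivAt (fun t : ℝ => (32 * -t)⁻¹) (1 / (32 * p.2 ^ 2)) p.2 := by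
      have := ((hasDerivAt_id' p.2).fun_neg.const_mul 32).fun_inv hl2
      refine this.congr_deriv ?_
      have := hp0.ne
      field_simp
    obtain ⟨i1, e1⟩ := o1.hb_eq hK hμ hw1 hδ n
    obtain ⟨i2, e2⟩ := o2.hb_eq hK hμ hw2 hδ n
    obtain ⟨i3, e3⟩ := hb'.cost hC.le hF hm ha hσ hp
    rw [PS.hb_sub (c0.sub c1) c2, PS.hb_sub c0 c1, e1, e2, PS.hb_quad y hn d1 d2 ?_ ?_]
    · have g2 : 0 ≤ ∫ q, ε * B * F.dev (y, 0) q ^ 2 *
          hb n (fun x => gau q.1 (x.2 + (σ - q.2)) x.1 * 1) p ∂μ := by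
        refine integral_nonneg_of_ae ?_
        filter_upwards [hμ'] with q hq
        refine mul_nonneg (by positivity) (le_trans (by simp) (PS.hb_gau (c := fun _ => 1) q.1 hn
          (by linarith [hq.2.2]) (hasDerivAt_const _ _) (fun _ => differentiableAt_const _)
          zero_le_one))
      have g1 : ∫ q, -(2 * ε) * (gau q.1 (p.2 - q.2 + σ) p.1 * (F.A2 q * ((p.2 - q.2) / q.2 ^ 2))) ∂μ
          ≤ ∫ q, ε * F.A2 q * hb n
            (fun x => gau q.1 (x.2 + (σ - q.2)) x.1 * (1 - ((x.2 - q.2) / q.2) ^ 2)) p ∂μ := by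
        refine integral_mono_ae (i3.const_mul _) i1 ?_
        filter_upwards [hμ'] with q hq
        have h1 := PS.hb_gau (c := fun t => 1 - ((t - q.2) / q.2) ^ 2) (s := σ - q.2) q.1 hn
          (by linarith [hq.2.2])
          (((((hasDerivAt_id' p.2).sub_const q.2).div_const q.2).fun_pow 2).const_sub 1)
          (fun _ => by fun_prop) (PC.damp_mem hq.2.2 hp0).1
        refine le_trans (le_of_eq ?_)
          (mul_le_mul_of_nonneg_left h1 (mul_nonneg hε (PC.A2_nonneg F q)))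
        rw [show p.2 - q.2 + σ = p.2 + (σ - q.2) by ring]
        simp; ring
      rw [integral_const_mul] at g1
      have g3 : 2 * ε * (2 * C / -p.2) ≤ 1 / (16 * -p.2) := by
        have : 0 < -p.2 := by linarith
        rw [le_div_iff₀ (by positivity)] at hε' ⊢
        refine le_trans (le_of_eq ?_) hε'
        have := hp0.ne
        field_simp; ring
      have g4 := mul_le_mul_of_nonneg_left e3 (show 0 ≤ 2 * ε by positivity)
      have g5 : 0 ≤ 1 / (32 * p.2 ^ 2) * ‖p.1 - y‖ ^ 2 := by positivity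
      have g6 : 1 / (4 * p.2) + 4 * (32 * -p.2)⁻¹ + 1 / (16 * -p.2) < 0 := by
        have : 1 / (4 * p.2) + 4 * (32 * -p.2)⁻¹ + 1 / (16 * -p.2) = 1 / (16 * p.2) := by
          have := hp0.ne
          field_simp; ring
        rw [this]
        exact div_neg_of_pos_of_neg one_pos (by linarith)
      linarith
    · filter_upwards [hne] with t ht
      have : θ₁ * -t ≠ 0 := (mul_pos hθ (by linarith)).ne'
      fun_prop (disch := assumption)
    · filter_upwards [hne] with t ht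
      have : 32 * -t ≠ 0 := by linarith
      fun_prop (disch := assumption)

theorem psiSubS_holds : PsiSubS := psiSubS_of a2S_holds

end Crest.Agent.N250.A

end
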