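import Crest.Agent.N250.A.Stm
import Crest.Agent.N250.T.FsC
import Crest.Agent.N250.T.CFl

/-! Row 250, block A (helper46): the spacetime measure `μ_t dt`. -/

set_option autoImplicit false
open MeasureTheory ProbabilityTheory Set Filter Topology
open scoped ContDiff InnerProductSpace
open Crest.GeometryTopology.MCF

noncomputable section

namespace Crest.Agent.N250.A

namespace StmH

/-- the Gaussian weight -/
def ww (x : E) : ENNReal := ENNReal.ofReal (Real.exp (-‖x - 0‖ ^ 2 / 1))

lemma ww_meas : Measurable ww := (Gau.cont_exp 0 1).measurable.ennreal_ofReal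

variable {F : Mv} {I : Set ℝ} {Λ : ℝ}

lemma univ_le (hF : Fl F I Λ) (t : ℝ) :
    (F.mu t).withDensity ww univ ≤ ENNReal.ofReal (Gau.C0 * max Λ 0 * (1 / 8)) := by
  rw [withDensity_apply _ MeasurableSet.univ, Measure.restrict_univ]
  have h := Gau.rat_of_AR hF.ar t
  simp only [ww]
  rw [← ofReal_integral_eq_lintegral_ofReal (Gau.int_exp (le_max_right _ _) h 0 one_pos)
    (.of_forall fun x => (Real.exp_pos _).le)]
  exact ENNReal.ofReal_le_ofReal (Gau.integral_exp_le (le_max_right _ _) h 0 one_pos)

lemma fin (hF : Fl F I Λ) (t : ℝ) : IsFiniteMeasure ((F.mu t).withDensity ww) :=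
  ⟨(univ_le hF t).trans_lt ENNReal.ofReal_lt_top⟩

/-- Gaussian dominated slice integrals are measurable in time -/
lemma meas_int (hM : MuContS) (hI : IsOpen I) (hF : Fl F I Λ) {f : E → ℝ} (hf : Continuous f)
    {y : E} {c B : ℝ} (hc : 0 < c) (hb : ∀ x, |f x| ≤ B * Real.exp (-‖x - y‖ ^ 2 / c)) :
    Measurable fun t => ∫ x, f x ∂F.mu t := by
  refine measurable_of_restrict_of_restrict_compl hI.measurableSet ?_ ?_
  · exact (continuousOn_iff_continuous_domRestrict.1 fun t ht =>
      (Gau.cont_time hM hI hF hf hc hb ht).continuousWithinAt).measurable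
  · have : Iᶜ.domRestrict (fun t => ∫ x, f x ∂F.mu t) = fun _ => 0 := by
      ext t
      simp only [domRestrict_apply, CFl.mu_zero hF.time t.2, integral_zero_measure]
    rw [this]; exact measurable_const

lemma meas_closed (hM : MuContS) (hI : IsOpen I) (hF : Fl F I Λ) {C : Set E} (hC : IsClosed C) :
    Measurable fun t => (F.mu t).withDensity ww C := by
  refine ENNReal.measurable_of_tendsto (f := fun n t => ENNReal.ofReal
    (∫ x, (hC.apprSeq n x : ℝ) * Real.exp (-‖x - 0‖ ^ 2 / 1) ∂F.mu t)) (fun n => ?_)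
    (tendsto_pi_nhds.2 fun t => ?_)
  · refine (meas_int hM hI hF (B := 1) (y := 0) (by fun_prop) one_pos fun x => ?_).ennreal_ofReal
    rw [abs_of_nonneg (by positivity)]
    gcongr
    exact HasOuterApproxClosed.apprSeq_apply_le_one hC n x
  · have := fin hF t
    refine (HasOuterApproxClosed.tendsto_lintegral_apprSeq hC ((F.mu t).withDensity ww)).congr
      fun n => ?_
    rw [lintegral_withDensity_eq_lintegral_mul _ ww_meas (by fun_prop),
      ofReal_integral_eq_lintegral_ofReal (Gau.int_dom (le_max_right _ _) (Gau.rat_of_AR hF.ar t)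
        (B := 1) (y := 0) one_pos (Continuous.aestronglyMeasurable (by fun_prop)) fun x => ?_)
        (.of_forall fun x => by positivity)]
    · refine lintegral_congr fun x => ?_
      rw [Pi.mul_apply, ENNReal.ofReal_mul (by positivity), ENNReal.ofReal_coe_nnreal, mul_comm, ww]
    · rw [abs_of_nonneg (by positivity)]
      gcongr
      exact HasOuterApproxClosed.apprSeq_apply_le_one hC n x

lemma meas_ker (hM : MuContS) (hI : IsOpen I) (hF : Fl F I Λ) :
    Measurable fun t => (F.mu t).withDensity ww := by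
  have hc : ∀ s, MeasurableSet s → Measurable (fun t => (F.mu t).withDensity ww s) →
      Measurable fun t => (F.mu t).withDensity ww sᶜ := fun s hs h => by
    have e : ∀ t, (F.mu t).withDensity ww sᶜ =
        (F.mu t).withDensity ww univ - (F.mu t).withDensity ww s := fun t => by
      have := fin hF t
      exact measure_compl hs (measure_ne_top _ _)
    simp only [e]
    exact (meas_closed hM hI hF isClosed_univ).sub h
  refine Measure.measurable_of_measurable_coe _ (MeasurableSet.induction_on_open
    (C := fun s _ => Measurable fun t => (F.mu t).withDensity ww s) (fun U hU => ?_) hc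
    fun f h1 h2 h3 => ?_)
  · simpa only [compl_compl] using hc _ hU.measurableSet.compl
      (meas_closed hM hI hF hU.isClosed_compl)
  · simp only [measure_iUnion h1 h2]
    exact Measurable.tsum h3

end StmH

open StmH in
theorem stmS_of (hM : MuContS) : StmS := by
  intro F I Λ hI hF
  obtain ⟨κ, hκ⟩ : ∃ κ : Kernel ℝ E, ∀ t, κ t = (F.mu t).withDensity ww :=
    ⟨⟨fun t => (F.mu t).withDensity ww, meas_ker hM hI hF⟩, fun _ => rfl⟩
  have : IsFiniteKernel κ := ⟨_, ENNReal.ofReal_lt_top, fun t => by rw [hκ]; exact univ_le hF t⟩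
  have hw : Measurable fun q : ST => (ww q.1)⁻¹ := (ww_meas.comp measurable_fst).inv
  refine ⟨((volume ⊗ₘ κ).map Prod.swap).withDensity fun q => (ww q.1)⁻¹, fun g hg => ?_⟩
  have hm : Measurable fun q : ℝ × E => (ww q.2)⁻¹ * g (q.2, q.1) :=
    (ww_meas.comp measurable_snd).inv.mul (hg.comp (measurable_snd.prodMk measurable_fst))
  have e : ∀ t, ∫⁻ x, (ww x)⁻¹ * g (x, t) ∂κ t = ∫⁻ x, g (x, t) ∂F.mu t := fun t => by
    have h0 : Measurable fun x => (ww x)⁻¹ * g (x, t) :=
      ww_meas.inv.mul (hg.comp (measurable_id.prodMk measurable_const))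
    rw [hκ, lintegral_withDensity_eq_lintegral_mul _ ww_meas h0]
    refine lintegral_congr fun x => ?_
    have h1 : ww x * (ww x)⁻¹ = 1 := ENNReal.mul_inv_cancel
      (ENNReal.ofReal_pos.2 (Real.exp_pos _)).ne' ENNReal.ofReal_ne_top
    rw [Pi.mul_apply, ← mul_assoc, h1, one_mul]
  have h1 : Measurable fun t => ∫⁻ x, (ww x)⁻¹ * g (x, t) ∂κ t :=
    hm.lintegral_kernel_prod_right' (κ := κ)
  refine ⟨by simpa only [e] using h1, ?_⟩
  rw [lintegral_withDensity_eq_lintegral_mul _ hw hg, lintegral_map (hw.mul hg) measurable_swap,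
    ← lintegral_congr e]
  exact Measure.lintegral_compProd (μ := volume) (κ := κ) hm

end Crest.Agent.N250.A

end
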