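import Crest.Agent.N250.A.Stm
import Crest.Agent.N250.A1.Good

/-!
# Row 250, block A (helper44): White's theorem from one slice, alternative I
-/

set_option autoImplicit false
open MeasureTheory Set Filter Topology
open scoped ContDiff InnerProductSpace ENNReal
open Crest.GeometryTopology.MCF

noncomputable section

namespace Crest.Agent.N250.A

theorem w1_ptw {y y' x : E} {r s κ L : ℝ} (hr : 0 < r) (hκ : 0 ≤ κ) (hκ1 : κ ≤ 1 / 2)
    (hy : dist y' y ≤ κ * r) (hs : (1 - κ) * r ^ 2 ≤ s) (hs' : s ≤ r ^ 2) (hx : dist x y ≤ L * r) :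
    gau y' s x ≤ (1 - κ)⁻¹ * Real.exp (κ * L / 2) * gau y (r ^ 2) x := by
  have h0 : 0 < (1 - κ) * r ^ 2 := mul_pos (by linarith) (by positivity)
  have hs0 : 0 < s := h0.trans_le hs
  unfold gau
  have h1 : (4 * Real.pi * s)⁻¹ ≤ (1 - κ)⁻¹ * (4 * Real.pi * r ^ 2)⁻¹ := by
    rw [← mul_inv]
    refine inv_anti₀ (by have : 0 < 1 - κ := by linarith
                         positivity) ?_
    calc (1 - κ) * (4 * Real.pi * r ^ 2) = 4 * Real.pi * ((1 - κ) * r ^ 2) := by ring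
      _ ≤ _ := by gcongr
  have h2 : ‖x - y‖ ^ 2 - 2 * (κ * L) * r ^ 2 ≤ ‖x - y'‖ ^ 2 := by
    have e : x - y' = (x - y) - (y' - y) := by abel
    rw [e, norm_sub_sq_real (x - y)]
    have h3 := real_inner_le_norm (x - y) (y' - y)
    rw [dist_eq_norm] at hy hx
    have h4 : ‖x - y‖ * ‖y' - y‖ ≤ L * r * (κ * r) :=
      mul_le_mul hx hy (norm_nonneg _) ((norm_nonneg _).trans hx)
    nlinarith [sq_nonneg ‖y' - y‖]
  have h3 : Real.exp (-‖x - y'‖ ^ 2 / (4 * s)) ≤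
      Real.exp (κ * L / 2) * Real.exp (-‖x - y‖ ^ 2 / (4 * r ^ 2)) := by
    rw [← Real.exp_add, Real.exp_le_exp]
    have h4 : -‖x - y'‖ ^ 2 / (4 * s) ≤ -‖x - y'‖ ^ 2 / (4 * r ^ 2) := by
      rw [neg_div, neg_div, neg_le_neg_iff]
      gcongr
    refine h4.trans ?_
    rw [div_le_iff₀ (by positivity)]
    have : (κ * L / 2 + -‖x - y‖ ^ 2 / (4 * r ^ 2)) * (4 * r ^ 2) =
        2 * (κ * L) * r ^ 2 - ‖x - y‖ ^ 2 := by field_simp; ring
    rw [this]; linarith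
  calc _ ≤ ((1 - κ)⁻¹ * (4 * Real.pi * r ^ 2)⁻¹) *
        (Real.exp (κ * L / 2) * Real.exp (-‖x - y‖ ^ 2 / (4 * r ^ 2))) :=
        mul_le_mul h1 h3 (Real.exp_pos _).le ((by positivity : (0 : ℝ) ≤ _).trans h1)
    _ = _ := by ring

/-- the Gaussian area is almost unchanged when centre and scale move a little -/
theorem Fs_shift (Λ e : ℝ) (he : 0 < e) : ∃ κ : ℝ, 0 < κ ∧ κ ≤ 1 / 2 ∧
    ∀ (F : Mv) (t : ℝ) (y y' : E) (r s : ℝ), F.AR Λ → 0 < r → dist y' y ≤ κ * r →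
      (1 - κ) * r ^ 2 ≤ s → s ≤ r ^ 2 → F.Fs t y (r ^ 2) ≤ 1 + e → F.Fs t y' s ≤ 1 + 3 * e := by
  set Λ' := max Λ 1 with hΛ'
  have hΛ1 : 1 ≤ Λ' := le_max_right _ _
  obtain ⟨L, hL1, hL⟩ : ∃ L : ℝ, 1 ≤ L ∧ 120 * Λ' * Real.exp (-L ^ 2 / 8) ≤ e := by
    refine ⟨max 1 (960 * Λ' / e), le_max_left _ _, ?_⟩
    set L := max 1 (960 * Λ' / e)
    have h1 : 1 ≤ L := le_max_left _ _
    have h2 : 960 * Λ' / e ≤ L := le_max_right _ _
    rw [div_le_iff₀ he] at h2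
    have h3 := Real.add_one_le_exp (L ^ 2 / 8)
    rw [neg_div, Real.exp_neg, ← div_eq_mul_inv, div_le_iff₀ (Real.exp_pos _)]
    nlinarith [mul_le_mul_of_nonneg_left h3 he.le, mul_nonneg he.le (mul_nonneg (sub_nonneg.2 h1)
      (zero_le_one.trans h1))]
  have hc : ContinuousAt (fun κ : ℝ => (1 - κ)⁻¹ * Real.exp (κ * (L + 1) / 2) * (1 + e)) 0 := by
    refine ContinuousAt.mul (ContinuousAt.mul (ContinuousAt.inv₀ (by fun_prop) (by norm_num))
      (by fun_prop)) continuousAt_const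
  have hev : ∀ᶠ κ : ℝ in 𝓝 0, (1 - κ)⁻¹ * Real.exp (κ * (L + 1) / 2) * (1 + e) < 1 + 2 * e :=
    hc.eventually_lt continuousAt_const (by simp; linarith)
  obtain ⟨κ, ⟨hκ, hκ1⟩, hκ0⟩ := (((hev.and (eventually_lt_nhds (show (0 : ℝ) < 1 / 2 by
    norm_num))).filter_mono nhdsWithin_le_nhds).and (self_mem_nhdsWithin (s := Ioi 0))).exists
  have hκ0' : 0 < κ := hκ0
  refine ⟨κ, hκ0', hκ1.le, fun F t y y' r s hA hr hy hs hs' hF => ?_⟩
  have hs0 : 0 < s := (mul_pos (by linarith) (by positivity)).trans_le hs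
  have hA' : ∀ z ρ, 0 < ρ → F.mu t (Metric.ball z ρ) ≤ ENNReal.ofReal (Λ' * ρ ^ 2) :=
    fun z ρ hρ => (hA t z ρ hρ).trans (ENNReal.ofReal_le_ofReal (by gcongr; exact le_max_left _ _))
  refine A1.Fs_le hs0.le (by positivity) ?_
  have hb : MeasurableSet (Metric.ball y' (L * r)) := Metric.isOpen_ball.measurableSet
  have hq : 0 ≤ (1 - κ)⁻¹ * Real.exp (κ * (L + 1) / 2) :=
    mul_nonneg (inv_nonneg.2 (by linarith)) (Real.exp_pos _).le
  have h1 : ∫⁻ x in Metric.ball y' (L * r), ENNReal.ofReal (gau y' s x) ∂F.mu t ≤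
      ENNReal.ofReal (1 + 2 * e) := by
    calc ∫⁻ x in Metric.ball y' (L * r), ENNReal.ofReal (gau y' s x) ∂F.mu t
        ≤ ∫⁻ x in Metric.ball y' (L * r), ENNReal.ofReal ((1 - κ)⁻¹ * Real.exp (κ * (L + 1) / 2)) *
            ENNReal.ofReal (gau y (r ^ 2) x) ∂F.mu t := by
          refine setLIntegral_mono' hb fun x hx => ?_
          rw [← ENNReal.ofReal_mul hq]
          refine ENNReal.ofReal_le_ofReal (w1_ptw hr hκ0'.le hκ1.le hy hs hs' ?_)
          have := dist_triangle x y' y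
          have h2 := Metric.mem_ball.1 hx
          nlinarith
      _ ≤ ENNReal.ofReal ((1 - κ)⁻¹ * Real.exp (κ * (L + 1) / 2)) *
            ∫⁻ x, ENNReal.ofReal (gau y (r ^ 2) x) ∂F.mu t := by
          rw [lintegral_const_mul _ (A1.gau_meas _ _)]
          gcongr
          exact Measure.restrict_le_self
      _ ≤ ENNReal.ofReal ((1 - κ)⁻¹ * Real.exp (κ * (L + 1) / 2)) * ENNReal.ofReal (1 + e) := by
          rw [← A1.ofReal_Fs hA t y (by positivity)]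
          gcongr
      _ ≤ _ := by
          rw [← ENNReal.ofReal_mul hq]
          exact ENNReal.ofReal_le_ofReal hκ.le
  have h2 := A1.gau_tail hA' y' hs0 (d := L * r) (by positivity)
  have h3 : 120 * Λ' * Real.exp (-(L * r) ^ 2 / (8 * s)) ≤ e := by
    refine le_trans ?_ hL
    gcongr 120 * Λ' * Real.exp ?_
    rw [neg_div, neg_div, neg_le_neg_iff, div_le_div_iff₀ (by norm_num) (by positivity)]
    nlinarith [mul_le_mul_of_nonneg_left hs' (sq_nonneg L)]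
  rw [← lintegral_add_compl _ hb]
  refine (add_le_add h1 (h2.trans (ENNReal.ofReal_le_ofReal h3))).trans ?_
  rw [← ENNReal.ofReal_add (by positivity) he.le]
  exact ENNReal.ofReal_le_ofReal (by linarith)

theorem w1S_of (hW : WhiteS) (hH : HuiskenS) : W1S := by
  intro Λ
  obtain ⟨ε, c, hε, hc, hW⟩ := hW Λ
  obtain ⟨κ, hκ, hκ1, hs⟩ := Fs_shift Λ (ε / 3) (by positivity)
  refine ⟨ε / 3, min c (1 / 2) * κ, by positivity, by positivity, ?_⟩
  intro F a b t y r hF hr hat hb hFs p hp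
  have hr2 : 0 < r ^ 2 := by positivity
  have hk : (κ * r) ^ 2 ≤ κ * r ^ 2 / 2 := by
    rw [mul_pow]; nlinarith [mul_le_mul_of_nonneg_right hκ1 (mul_pos hκ hr2).le]
  have hk' : κ * r ^ 2 ≤ r ^ 2 / 2 := by nlinarith
  have hm : 0 < min c (1 / 2) * κ * r := by positivity
  have hm1 : min c (1 / 2) * κ * r ≤ c * (κ * r) := by
    rw [mul_assoc]; gcongr; exact min_le_left _ _
  have hm2 : min c (1 / 2) * κ * r ≤ κ * r / 2 := by
    rw [mul_assoc, div_eq_inv_mul (κ * r), ← one_div]; gcongr; exact min_le_right _ _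
  have h1 := hW F a b (y, t + r ^ 2) (κ * r) hF (by positivity) (by dsimp only; linarith) hb
    (fun Y hY => by
      obtain ⟨hY1, hY2, hY3⟩ := hY
      dsimp only at hY1 hY2 hY3
      have h2 := (hH F _ Λ isOpen_Ioo hF Y t (Y.2 - (κ * r) ^ 2) (by linarith)
        (by linarith [sq_pos_of_pos (mul_pos hκ hr)]) (fun u hu =>
          ⟨hat.trans_le hu.1, by linarith [hu.2, sq_pos_of_pos (mul_pos hκ hr)]⟩)).1
      rw [sub_sub_cancel] at h2
      have h3 := hs F t y Y.1 r (Y.2 - t) hF.ar hr (Metric.mem_ball.1 hY1).le (by nlinarith)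
        (by linarith) hFs
      unfold Mv.Fg
      linarith) p ⟨hp.1, Metric.ball_subset_ball hm2 hp.2.1, by
        have := pow_le_pow_left₀ hm.le hm2 2
        have h4 := hp.2.2.1
        dsimp only at h4 ⊢
        linarith, hp.2.2.2⟩
  exact A1.reach_mono hm hm1 (A1.norm_n hF.mcf.1 hp.1) h1

theorem altIS_of (hK : KIS) (hA : A1S) (hW : W1S) (hR : ReachAS) : AltIS := by
  intro Λ K η hη
  obtain ⟨e, c, he, hc, hW⟩ := hW Λ
  obtain ⟨L, Λ', d, hL, hΛ', hd, hA⟩ := hA Λ e he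
  obtain ⟨Λ₀, R₀, hΛ₀, hK⟩ := hK (max Λ 0) L d Λ' ((|K| + 1 + 2 / η) / c) (le_max_right _ _) hL hd
    hΛ'
  refine ⟨Λ₀, R₀, hΛ₀, fun F ν σ G ε B R hR₀ hC hk x hx hxK => ?_⟩
  haveI := hC.fin
  obtain ⟨r, hr1, hr2, hr3, hm⟩ := hK ν σ R hC.σ_pos hC.σ_le hR₀ hC.pot_le hk
  obtain ⟨a, b, ha, hb, hF⟩ := hC.fl
  have hr : 0 < r := by linarith
  have hrR : r ≤ R := le_trans (by nlinarith) hr3
  have hr4 : r ^ 2 ≤ R ^ 2 := pow_le_pow_left₀ hr.le hrR 2
  have h1 := hA F (-r ^ 2) 0 r {y | rad ν σ (y, -r ^ 2) < Λ' * r} hF.mcf.1 hF.ar hr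
    (fun z hz hzL hzZ => by
      have h2 := (hC.good (z, -r ^ 2) hz (by rw [dist_zero_right] at hzL; exact hzL.le.trans hr3)
        ⟨by dsimp only; linarith, by dsimp only; nlinarith⟩).1
      exact A1.reach_mono (by positivity) (not_lt.1 hzZ) (A1.norm_n hF.mcf.1 hz) h2)
    (hm _ fun y ρ hρ => (hF.ar _ y ρ hρ).trans
      (ENNReal.ofReal_le_ofReal (by gcongr; exact le_max_left _ _)))
  rw [div_le_iff₀ hc, mul_comm r c] at hr2
  have hη2 : 0 < 2 / η := by positivity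
  have hcr : 1 ≤ c * r := by linarith [abs_nonneg K]
  have h2 := hW F a b (-r ^ 2) 0 r hF hr (by nlinarith [sq_nonneg R]) (by linarith) h1 (x, 0)
    ⟨hx, by
      rw [Metric.mem_ball, dist_zero_right]
      linarith [le_abs_self K], by
      dsimp only
      linarith [sq_pos_of_pos (mul_pos hc hr)], by dsimp only; linarith⟩
  refine (hR F hF.mcf.1 _ hx _ (mul_pos hc hr) h2).2.trans ?_
  rw [div_le_iff₀ (by positivity)]
  have h3 : 2 / η ≤ c * r := by linarith [abs_nonneg K]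
  rw [div_le_iff₀ hη] at h3
  nlinarith [mul_le_mul_of_nonneg_left hcr (mul_pos (mul_pos hc hr) hη).le]

end Crest.Agent.N250.A

end
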