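import Crest.Agent.N250.Min.All
import Crest.Agent.N250.A.Main
import Crest.Agent.N250.A.A1
import Crest.Agent.N250.A.AltII
import Crest.Agent.N250.A.KAt
import Crest.Agent.N250.A.CostF
import Crest.Agent.N250.A.CR
import Crest.Agent.N250.A.Bar
import Crest.Agent.N250.A.W1
import Crest.Agent.N250.A.PsiSub
import Crest.Agent.N250.A.PsiC
import Crest.Agent.N250.A.Cfg
import Crest.Agent.N250.A.StmH
import Crest.Agent.N250.A.Fin
import Crest.Agent.N250.K.Sph
import Crest.Agent.N250.K.KI
import Crest.Agent.N250.SL.Main
import Crest.Agent.N250.SL.Flat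
import Crest.Agent.N250.MP.Two

/-!
# Row 250 (helper10): block A assembled
-/

set_option autoImplicit false

namespace Crest.Agent.N250.A

theorem w1S : W1S := w1S_of (TA.white_of Min.sheetS) huiskenS_holds

theorem altIIS : AltIIS :=
  altIIS_of kMassS_holds kAtS_holds K.kSphS_holds a1S_holds
    (slimS_of Min.cptS convMuS_holds w1S Min.atomS) (SL.flatS_of w1S reachAS_holds) Min.infS
    Min.sphS_holds Cv.convJetS_holds convMuS_holds convReachS_holds

theorem keyS : KeyS := keyS_of (altIS_of K.kIS_holds a1S_holds w1S reachAS_holds) altIIS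

theorem barS : BarS :=
  barS_of keyS (cfgS_of costS_holds) crS_holds MP.twoS_holds psiCS_holds psiSubS_holds
    reachPosS_holds

theorem aStmt : AStmt :=
  aStmt_of (stmS_of muContS_holds) barS (finS_of a2S_holds huiskenS_holds) w1S huiskenS_holds

end Crest.Agent.N250.A
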