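import Crest.Agent.N250.A.CR

/-!
# Row 250, block A (helper60): local compactness, critical points of the distance
-/

set_option autoImplicit false
open MeasureTheory Set Filter Topology Metric
open scoped ContDiff InnerProductSpace
open Crest.GeometryTopology.MCF

noncomputable section

namespace Crest.Agent.N250.A.CR

open MP

variable {F : Mv}

/-- the track is locally compact -/
theorem loc_cpt (hF : F.Reg) {p : ST} (hp : p ∈ F.M) :
    ∃ δ, 0 < δ ∧ IsCompact (F.M ∩ closedBall p δ) := by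
  obtain ⟨W, φ, hW, hL⟩ := hF p hp
  obtain ⟨δ, hδ, hB⟩ := nhds_basis_closedBall.mem_iff.1 (hL.isOpen.mem_nhds hW)
  refine ⟨δ, hδ, (isCompact_closedBall p δ).of_isClosed_subset ?_ inter_subset_right⟩
  have e : F.M ∩ closedBall p δ = closedBall p δ ∩ φ ⁻¹' {0} := by
    ext q
    exact ⟨fun h => ⟨h.2, (hL.mem q (hB h.2)).1 h.1⟩, fun h => ⟨(hL.mem q (hB h.1)).2 h.2, h.1⟩⟩
  rw [e]
  exact (hL.sm.continuousOn.mono hB).preimage_isClosed_of_isClosed isClosed_closedBall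
    isClosed_singleton

theorem cpt_slice {p : ST} {δ s : ℝ} (h : IsCompact (F.M ∩ closedBall p δ)) (hs : dist s p.2 ≤ δ)
    {K : Set E} (hK : IsClosed K) (hKs : K ⊆ closedBall p.1 δ) : IsCompact (F.sl s ∩ K) := by
  refine (isCompact_closedBall p.1 δ).of_isClosed_subset ?_ (inter_subset_right.trans hKs)
  have e : F.sl s ∩ K = (fun z : E => (z, s)) ⁻¹' (F.M ∩ closedBall p δ) ∩ K := by
    ext z
    refine ⟨fun h => ⟨⟨h.1, ?_⟩, h.2⟩, fun h => ⟨h.1.1, h.2⟩⟩
    rw [mem_closedBall, Prod.dist_eq]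
    exact max_le (hKs h.2) hs
  rw [e]
  exact (h.isClosed.preimage (by fun_prop)).inter hK

/-- no critical pairs near the diagonal -/
theorem loc_nocrit (hF : F.Reg) {y : E} {t : ℝ} (hp : (y, t) ∈ F.M) :
    ∃ δ, 0 < δ ∧ ∀ z ∈ F.sl t, ∀ w ∈ F.sl t, dist z y ≤ δ → dist w y ≤ δ → w ≠ z →
      F.PL (w, t) (z - w) ≠ 0 := by
  obtain ⟨W, φ, hW, hL⟩ := hF _ hp
  have hg : ContinuousAt (fun z : E => gradX φ z t) y :=
    ContinuousAt.comp (f := fun z : E => (z, t)) (x := y)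
      (gradX_sm (hL.sm.contDiffAt (hL.isOpen.mem_nhds hW))).continuousAt (by fun_prop)
  have h1 : ContinuousAt (fun q : E × E => ⟪gradX φ q.1 t, gradX φ q.2 t⟫_ℝ) (y, y) :=
    (ContinuousAt.comp (f := Prod.fst) (x := (y, y)) hg continuousAt_fst).inner
      (ContinuousAt.comp (f := Prod.snd) (x := (y, y)) hg continuousAt_snd)
  have h2 : ∀ᶠ q : E × E in 𝓝 (y, y), 0 < ⟪gradX φ q.1 t, gradX φ q.2 t⟫_ℝ ∧ (q.1, t) ∈ W :=
    (h1.eventually (lt_mem_nhds (real_inner_self_pos.2 (hL.ne _ hW)))).and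
      (ContinuousAt.preimage_mem_nhds (f := fun q : E × E => (q.1, t)) (by fun_prop)
        (hL.isOpen.mem_nhds hW))
  obtain ⟨δ, hδ, hB⟩ := nhds_basis_closedBall.mem_iff.1 h2
  have hB' : ∀ u v : E, dist u y ≤ δ → dist v y ≤ δ →
      0 < ⟪gradX φ u t, gradX φ v t⟫_ℝ ∧ (u, t) ∈ W := fun u v hu hv =>
    hB (a := (u, v)) (by rw [mem_closedBall, Prod.dist_eq]; exact max_le hu hv)
  refine ⟨δ, hδ, fun z hz w hw hzd hwd hne hP => ?_⟩
  have hwW := (hB' w w hwd hwd).2
  have hin : ∀ s ∈ Icc (0 : ℝ) 1, dist (w + s • (z - w)) y ≤ δ := fun s hs =>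
    (convex_closedBall y δ).add_smul_sub_mem hwd hzd hs
  have hd : ∀ s ∈ Icc (0 : ℝ) 1, HasDerivAt (fun s : ℝ => φ ((w, t) + s • ((z - w, 0) : ST)))
      ⟪gradX φ (w + s • (z - w)) t, z - w⟫_ℝ s := fun s hs => by
    have hq : (w, t) + s • ((z - w, 0) : ST) = (w + s • (z - w), t) := by simp
    have hdφ : DifferentiableAt ℝ φ (w + s • (z - w), t) :=
      (hL.sm.contDiffAt (hL.isOpen.mem_nhds (hB' _ _ (hin s hs) hwd).2)).differentiableAt (by simp)
    have := HasFDerivAt.comp_hasDerivAt s (f := fun s : ℝ => (w, t) + s • ((z - w, 0) : ST)) (l := φ)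
      (by rw [hq]; exact hdφ.hasFDerivAt) (line_deriv _ _ s)
    rw [fd_apply hdφ] at this
    exact this.congr_deriv (by simp)
  obtain ⟨c, hc, h0⟩ := exists_hasDerivAt_eq_zero zero_lt_one
    (fun s hs => (hd s hs).continuousAt.continuousWithinAt)
    (by
      have e1 := (hL.mem _ hwW).1 hw
      have e2 := (hL.mem _ (hB' z z hzd hzd).2).1 hz
      simp [e1, e2])
    (fun s hs => hd s (Ioo_subset_Icc_self hs))
  have e : z - w = ⟪F.n (w, t), z - w⟫_ℝ • F.n (w, t) := sub_eq_zero.1 hP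
  have hl : ⟪F.n (w, t), z - w⟫_ℝ ≠ 0 := fun h => by
    rw [h, zero_smul] at e; exact hne (sub_eq_zero.1 e).symm
  generalize ⟪F.n (w, t), z - w⟫_ℝ = l at e hl
  have hpos := (hB' _ w (hin c (Ioo_subset_Icc_self hc)) hwd).1
  generalize gradX φ (w + c • (z - w)) t = u at h0 hpos
  rw [e, hL.n_eq _ hwW hw, inner_smul_right, inner_smul_right] at h0
  exact (mul_ne_zero hl (mul_ne_zero (inv_ne_zero (norm_ne_zero_iff.2 (hL.ne _ hwW))) hpos.ne')) h0

/-- a local minimum of the distance on a slice is a critical point -/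
theorem crit_of_min (hF : F.Reg) {x z : E} {t : ℝ} (hz : (z, t) ∈ F.M)
    (hm : ∀ᶠ w in 𝓝 z, w ∈ F.sl t → dist x z ≤ dist x w) : F.PL (z, t) (x - z) = 0 := by
  have h0 := ((hasFDerivAt_fst (𝕜 := ℝ) (p := ((z, t) : ST))).sub_const x).norm_sq.fun_neg
  have hs : ContDiff ℝ 2 (fun q : ST => -‖q.1 - x‖ ^ 2) :=
    ((contDiff_fst.sub contDiff_const).norm_sq ℝ).neg
  have h1 := (max_slice hF hz hs.contDiffAt.contDiffWithinAt (by
    filter_upwards [nhdsWithin_le_nhds ((continuous_fst.tendsto ((z, t) : ST)).eventually hm),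
      self_mem_nhdsWithin] with q q1 q2
    have q3 : q = (q.1, t) := Prod.ext rfl q2.2
    have := q1 (by show (q.1, t) ∈ F.M; rw [← q3]; exact q2.1)
    rw [dist_comm x, dist_comm x, dist_eq_norm, dist_eq_norm] at this
    exact neg_le_neg (pow_le_pow_left₀ (norm_nonneg _) this 2))).1
  have h2 : ∀ a, ⟪x - z, F.PL (z, t) (ee a)⟫_ℝ = 0 := fun a => by
    have := h1 a
    rw [D_eq hF hz h0.differentiableAt EventuallyEq.rfl, h0.fderiv] at this
    rw [← neg_sub z x, inner_neg_left, neg_eq_zero, inner_sub_left]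
    simpa using this
  have h3 := inner_PL_self hF hz (x - z)
  conv_lhs at h3 => rw [← sum_ee (x - z), PL_sum, sum_ee, inner_sum]
  simp only [inner_smul_right, h2, mul_zero, Finset.sum_const_zero] at h3
  exact norm_eq_zero.1 (pow_eq_zero_iff two_ne_zero |>.1 h3.symm)

end CR

end Crest.Agent.N250.A

end
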