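import Crest.Agent.N250.A.CS0
import Crest.Agent.N250.Min.Stm
import Crest.Agent.N250.T.Same

/-!
# Row 250 (helper72): the small energy curvature estimate for static minimal surfaces
-/

set_option autoImplicit false
open MeasureTheory Set Filter Topology Metric
open scoped ContDiff InnerProductSpace
open Crest.GeometryTopology.MCF

noncomputable section

namespace Crest.Agent.N250.CS

variable {F : Mv} {p : ST}

/-- the cut-off profile -/
def chi (u : ℝ) : ℝ := Real.smoothTransition (1 - 16 * u)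

theorem chi_sm : ContDiff ℝ ∞ chi :=
  Real.smoothTransition.contDiff.comp (contDiff_const.sub (contDiff_const.mul contDiff_id))

theorem chi_zero : chi 0 = 1 := by simp [chi]

theorem chi_nonneg (u : ℝ) : 0 ≤ chi u := Real.smoothTransition.nonneg _

theorem chi_le (u : ℝ) : chi u ≤ 1 := Real.smoothTransition.le_one _

theorem chi_eq {u : ℝ} (h : 1 / 16 ≤ u) : chi u = 0 :=
  Real.smoothTransition.zero_of_nonpos (by linarith)

theorem chi_bd : ∃ K : ℝ, 0 ≤ K ∧ ∀ u ∈ Icc (0 : ℝ) 1,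
    |chi u| ≤ K ∧ |deriv chi u| ≤ K ∧ |deriv (deriv chi) u| ≤ K := by
  have h1 : ContDiff ℝ ∞ (deriv chi) := chi_sm.deriv'
  have h2 : ContDiff ℝ ∞ (deriv (deriv chi)) := h1.deriv'
  obtain ⟨a, ha⟩ := isCompact_Icc.exists_bound_of_continuousOn (s := Icc (0 : ℝ) 1)
    h1.continuous.continuousOn
  obtain ⟨b, hb⟩ := isCompact_Icc.exists_bound_of_continuousOn (s := Icc (0 : ℝ) 1)
    h2.continuous.continuousOn
  refine ⟨1 + |a| + |b|, by positivity, fun u hu => ⟨?_, ?_, ?_⟩⟩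
  · rw [abs_of_nonneg (chi_nonneg u)]
    linarith [chi_le u, abs_nonneg a, abs_nonneg b]
  · linarith [ha u hu, Real.norm_eq_abs (deriv chi u), le_abs_self a, abs_nonneg b]
  · linarith [hb u hu, Real.norm_eq_abs (deriv (deriv chi) u), le_abs_self b, abs_nonneg a]

theorem integral_le_of_ae {α : Type} [MeasurableSpace α] {μ : Measure α} {f g : α → ℝ}
    (hg : Integrable g μ) (h0 : ∀ x, 0 ≤ g x) (h : ∀ᵐ x ∂μ, f x ≤ g x) :
    ∫ x, f x ∂μ ≤ ∫ x, g x ∂μ := by
  by_cases hf : Integrable f μ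
  · exact integral_mono_ae hf hg h
  · rw [integral_undef hf]
    exact integral_nonneg h0

theorem cpt_of_proper {Ω K : Set ST} (h : F.Proper Ω) (hK : IsCompact K) (hs : K ⊆ Ω) :
    IsCompact (F.M ∩ K) := by
  have : F.M ∩ K = closure F.M ∩ K :=
    Set.ext fun q => ⟨fun hq => ⟨subset_closure hq.1, hq.2⟩, fun hq => ⟨h q hq.1 (hs hq.2), hq.2⟩⟩
  rw [this]
  exact hK.inter_left isClosed_closure

theorem gau_le (y : E) {s : ℝ} (hs : 0 < s) (x : E) : gau y s x ≤ (4 * Real.pi * s)⁻¹ := by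
  have : Real.exp (-‖x - y‖ ^ 2 / (4 * s)) ≤ 1 :=
    Real.exp_le_one_iff.2 (div_nonpos_of_nonpos_of_nonneg (by simp) (by positivity))
  exact mul_le_of_le_one_right (by positivity) this

/-- weighted lower density -/
theorem low_int (hF : F.Reg) {Λ : ℝ} (hA : F.AR Λ) (hp : p ∈ F.M) {u : E → ℝ} {B : ℝ}
    (hu : ContinuousOn u (F.sl p.2)) (h0 : ∀ x ∈ F.sl p.2, 0 ≤ u x) (hB : ∀ x ∈ F.sl p.2, u x ≤ B) :
    ∀ᶠ σ in 𝓝[>] (0 : ℝ), u p.1 / 100 ≤ ∫ z, u z * gau p.1 (σ ^ 2) z ∂F.mu p.2 := by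
  have hx : p.1 ∈ F.sl p.2 := hp
  rcases (h0 _ hx).eq_or_lt with h1 | h1
  · filter_upwards [self_mem_nhdsWithin] with σ hσ
    rw [← h1, zero_div]
    refine integral_nonneg_of_ae ?_
    filter_upwards [Hu.ae_sl hF p.2] with z hz
    exact mul_nonneg (h0 z hz) (Gau.gau_pos _ (pow_pos hσ 2) _).le
  have h2 : ∀ᶠ z in 𝓝[F.sl p.2] p.1, u p.1 / 2 < u z :=
    (hu _ hx).eventually (lt_mem_nhds (by linarith))
  obtain ⟨δ, hδ, h3⟩ := Metric.eventually_nhds_iff.1 (eventually_nhdsWithin_iff.1 h2)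
  filter_upwards [low_dens hF hp, Ioo_mem_nhdsGT hδ] with σ h4 hσ
  have hσ2 : 0 < σ ^ 2 := pow_pos hσ.1 2
  have hg := Gau.int_gau (le_max_right Λ 0) (Gau.rat_of_AR hA p.2) p.1 hσ2
  have hi : Integrable (fun z => u z * gau p.1 (σ ^ 2) z) (F.mu p.2) := by
    refine (hg.const_mul B).mono'
      (Hu.aesm_sl hF (hu.mul (Gau.gau_cont _ _).continuousOn)) ?_
    filter_upwards [Hu.ae_sl hF p.2] with z hz
    have := (Gau.gau_pos p.1 hσ2 z).le
    rw [Real.norm_of_nonneg (mul_nonneg (h0 z hz) this)]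
    exact mul_le_mul_of_nonneg_right (hB z hz) this
  have hfin : F.mu p.2 (ball p.1 σ) ≠ ⊤ := ne_top_of_le_ne_top ENNReal.ofReal_ne_top (hA _ _ _ hσ.1)
  set c := u p.1 / 2 * ((4 * Real.pi * σ ^ 2)⁻¹ * (3 / 4)) with hc
  have h5 : ∫ z, (ball p.1 σ).indicator (fun _ => c) z ∂F.mu p.2 ≤
      ∫ z, u z * gau p.1 (σ ^ 2) z ∂F.mu p.2 := by
    refine integral_mono_ae ((integrableOn_const hfin).integrable_indicator measurableSet_ball)
      hi ?_
    filter_upwards [Hu.ae_sl hF p.2] with z hz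
    by_cases hb : z ∈ ball p.1 σ
    · rw [indicator_of_mem hb]
      have h6 : dist z p.1 < σ := hb
      have h7 := h3 (h6.trans hσ.2) hz
      refine mul_le_mul h7.le (mul_le_mul_of_nonneg_left ?_ (by positivity)) (by positivity)
        (h0 z hz)
      refine le_trans ?_ (Real.add_one_le_exp _)
      rw [dist_eq_norm] at h6
      have h8 : ‖z - p.1‖ ^ 2 / (4 * σ ^ 2) ≤ 1 / 4 := by
        rw [div_le_iff₀ (by positivity)]
        nlinarith [norm_nonneg (z - p.1)]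
      rw [neg_div]
      linarith
    · rw [indicator_of_notMem hb]
      exact mul_nonneg (h0 z hz) (Gau.gau_pos _ hσ2 _).le
  refine le_trans ?_ h5
  rw [integral_indicator_const _ measurableSet_ball, smul_eq_mul]
  have h9 : σ ^ 2 / 2 ≤ (F.mu p.2).real (ball p.1 σ) :=
    (ENNReal.ofReal_le_iff_le_toReal hfin).1 h4
  refine le_trans ?_ (mul_le_mul_of_nonneg_right h9 (by positivity))
  have h10 : σ ^ 2 / 2 * c = u p.1 * (3 / (64 * Real.pi)) := by
    have := hσ.1.ne'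
    rw [hc]; field_simp; ring
  rw [h10, div_eq_mul_inv]
  refine mul_le_mul_of_nonneg_left ?_ h1.le
  rw [le_div_iff₀ (by positivity)]
  linarith [Real.pi_lt_four]

/-- the localised curvature -/
def gg (F : Mv) (c : E) (l : ℝ) : ST → ℝ := F.A2 * fun q => chi (sq c l q)

theorem gg_sm (hF : F.Reg) (c : E) (l : ℝ) : F.Sm (gg F c l) :=
  hF.sm_A2.mul (cs_sm_comp chi_sm (sq_sm F c l))

theorem gg_nonneg (F : Mv) (c : E) (l : ℝ) (q : ST) : 0 ≤ gg F c l q :=
  mul_nonneg (A2_nonneg F q) (chi_nonneg _)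

theorem gg_le (F : Mv) (c : E) (l : ℝ) (q : ST) : gg F c l q ≤ F.A2 q :=
  mul_le_of_le_one_right (A2_nonneg F q) (chi_le _)

theorem gg_zero {c : E} {s : ℝ} (hs : 0 < s) {q : ST} (h : s / 4 ≤ dist q.1 c) :
    gg F c s⁻¹ q = 0 := by
  have h1 : 1 / 4 ≤ s⁻¹ * ‖q.1 - c‖ := by
    rw [← dist_eq_norm, le_inv_mul_iff₀ hs]
    linarith
  have : 1 / 16 ≤ sq c s⁻¹ q := by
    rw [sq_eq]
    nlinarith
  simp [gg, chi_eq this]

theorem gg_inv (hS : F.Static) (c : E) (l : ℝ) : Inv (gg F c l) := fun x s t => by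
  simp only [gg, Pi.mul_apply, inv_A2 hS x s t, sq_eq]

/-- the heat operator of the localised curvature is bounded -/
theorem box_gg (hB : BernS) : ∃ C : ℝ, 0 < C ∧ ∀ (F : Mv) (x : E) (t s : ℝ), F.IsMCF → F.Static →
    0 < s → F.Proper (ball x s ×ˢ univ) →
    (∀ z ∈ F.sl t, dist z x < s → F.A2 (z, t) ≤ 1 / s ^ 2) →
    ∀ q ∈ F.M, F.box (gg F x s⁻¹) q ≤ C / s ^ 4 := by
  obtain ⟨C1, h1⟩ := hB 1
  obtain ⟨C2, h2⟩ := hB 2
  obtain ⟨C3, h3⟩ := hB 3
  obtain ⟨K', hK', hχ⟩ := chi_bd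
  set K := 1 + |C1| + |C2| + |C3| with hK
  have hK1 : 1 ≤ K := by linarith [abs_nonneg C1, abs_nonneg C2, abs_nonneg C3]
  refine ⟨1 + 3 * (4 * (36 * K ^ 2 * (K' * (1 + 48 * K ^ 2 + (48 * K ^ 2) ^ 2)))), by positivity,
    fun F x t s hF hS hs hP hA q hq => ?_⟩
  have hl : 0 ≤ s⁻¹ := inv_nonneg.2 hs.le
  have hb : F.box (gg F x s⁻¹) q = -F.lap (gg F x s⁻¹) q := by
    rw [Mv.box, Pi.sub_apply, Dt_inv hS hq (gg_sm hF.1 _ _) (gg_inv hS _ _), zero_sub]
  rw [hb]
  by_cases hd : dist q.1 x < s / 2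
  · have hP' : F.Proper (PC (x, q.2) s) := hP.mono_set fun y hy => ⟨hy.1, trivial⟩
    have hA' : ∀ y ∈ F.M ∩ PC (x, q.2) s, F.A2 y ≤ 1 / s ^ 2 := fun y hy => by
      have := hA y.1 ((st_mem hS y.1 y.2 t).1 hy.1) hy.2.1
      rwa [inv_A2 hS y.1 t y.2] at this
    have hq' : q ∈ F.M ∩ PC (x, q.2) (s / 2) :=
      ⟨hq, hd, by simp only [sub_lt_self_iff]; positivity, le_rfl⟩
    have key : ∀ (k : ℕ) (C : ℝ), C ≤ K → F.NJet k (C / s ^ k) q → F.NJet k (K * s⁻¹ ^ k) q :=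
      fun k C hC h a w hw => (h a w hw).trans (by
        rw [div_eq_mul_inv, inv_pow]
        exact mul_le_mul_of_nonneg_right hC (by positivity))
    have j1 := key 1 C1 (by linarith [le_abs_self C1, abs_nonneg C2, abs_nonneg C3])
      (h1 F _ s hF hs hP' hA' q hq')
    have j2 := key 2 C2 (by linarith [le_abs_self C2, abs_nonneg C1, abs_nonneg C3])
      (h2 F _ s hF hs hP' hA' q hq')
    have j3 := key 3 C3 (by linarith [le_abs_self C3, abs_nonneg C2, abs_nonneg C1])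
      (h3 F _ s hF hs hP' hA' q hq')
    rw [pow_one] at j1
    have hc : s⁻¹ * ‖q.1 - x‖ ≤ 1 := by
      rw [← dist_eq_norm, inv_mul_le_iff₀ hs]
      linarith
    have hu : sq x s⁻¹ q ∈ Icc (0 : ℝ) 1 := by
      rw [sq_eq]
      exact ⟨sq_nonneg _, pow_le_one₀ (by positivity) hc⟩
    have j4 := ((J_A2 hF.1 hq hl j1 j2 j3).mul hF.1 hq hl
      ((J_sq hF.1 hq hl hK1 j1 hc).comp hF.1 hq hl chi_sm (hχ _ hu).1 (hχ _ hu).2.1
        (hχ _ hu).2.2)).lap
    refine (neg_le_abs _).trans (j4.trans ?_)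
    rw [div_eq_mul_inv, ← inv_pow]
    nlinarith [pow_nonneg hl 4]
  · have h0 : gg F x s⁻¹ =ᶠ[𝓝[F.M] q] fun _ => 0 := by
      have : ∀ᶠ y : ST in 𝓝 q, s / 4 < dist y.1 x :=
        (continuous_fst.dist continuous_const).continuousAt.eventually
          (lt_mem_nhds (by linarith [not_lt.1 hd]))
      filter_upwards [nhdsWithin_le_nhds this] with y hy
      exact gg_zero hs hy.le
    have : F.lap (gg F x s⁻¹) q = 0 := by
      rw [Hu.lap_eq]
      refine Finset.sum_eq_zero fun a _ => ?_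
      have h4 : F.D a (gg F x s⁻¹) =ᶠ[𝓝[F.M] q] fun _ => 0 :=
        Hu.ev_td (v := fun y => (F.PL y (ee a), 0)) h0
      rw [Mv.D_apply, Hu.td_zero hq h4]
      rfl
    rw [this, neg_zero]
    positivity

/-- the mean value inequality -/
theorem mean_value (hW : WMonoS) (hB : BernS) : ∃ C : ℝ, 0 < C ∧
    ∀ (F : Mv) (Λ κ : ℝ) (x : E) (t s τ : ℝ), F.IsMCF → F.Static → F.AR Λ → 0 < s → 0 < τ → 0 ≤ κ →
    x ∈ F.sl t → F.Proper (ball x s ×ˢ univ) →
    (∀ z ∈ F.sl t, dist z x < s → F.A2 (z, t) ≤ 1 / s ^ 2) →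
    ∫⁻ z in ball x s, ENNReal.ofReal (F.A2 (z, t)) ∂F.mu t ≤ ENNReal.ofReal κ →
    F.A2 (x, t) ≤ C * (κ / τ + max Λ 0 * τ / s ^ 4) := by
  obtain ⟨C, hC, hb⟩ := box_gg hB
  refine ⟨100 * (1 + C * Gau.C0), by have := Gau.C0_nonneg; positivity,
    fun F Λ κ x t s τ hF hS hA hs hτ hκ hx hP h2 hI => ?_⟩
  have hb := hb F x t s hF hS hs hP h2
  set g := gg F x s⁻¹ with hg
  have hΛ : 0 ≤ max Λ 0 := le_max_right _ _
  have hCS : F.CS g (Ioo (t - 2 * τ) t) := by
    refine ⟨F.M ∩ closedBall x (s / 4) ×ˢ Icc (t - 2 * τ) t, cpt_of_proper hP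
      ((isCompact_closedBall _ _).prod isCompact_Icc)
      (prod_mono (closedBall_subset_ball (by linarith)) (subset_univ _)), inter_subset_left,
      fun q hq hJ hK => gg_zero hs (not_lt.1 fun h => hK ⟨hq, h.le, hJ.1.le, hJ.2.le⟩)⟩
  have hd := hW F hF (x, t) g _ isOpen_Ioo (fun _ h => h.2) (gg_sm hF.1 _ _) hCS
  set G : ℝ → ℝ := fun a => ∫ z, g (z, a) * Phi (x, t) (z, a) ∂F.mu a with hG
  have hG' : ∀ a, G a = ∫ z, g (z, t) * gau x (t - a) z ∂F.mu t := fun a => by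
    simp only [hG, Phi, st_mu hS a t, hg, gg_inv hS x s⁻¹ _ a t]
  have hM : ∀ a ∈ Ioo (t - 2 * τ) t, deriv G a ≤ C / s ^ 4 * (Gau.C0 * max Λ 0) := by
    intro a ha
    rw [(hd a ha).deriv]
    have ha' : 0 < t - a := sub_pos.2 ha.2
    have hi := Gau.int_gau hΛ (Gau.rat_of_AR hA a) x ha'
    refine le_trans (integral_le_of_ae (hi.const_mul (C / s ^ 4))
      (fun z => mul_nonneg (by positivity) (Gau.gau_pos _ ha' _).le) ?_) ?_
    · filter_upwards [Hu.ae_sl hF.1 a] with z hz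
      refine mul_le_mul_of_nonneg_right ?_ (Gau.gau_pos _ ha' _).le
      have := mul_nonneg (gg_nonneg F x s⁻¹ (z, a)) (sq_nonneg (F.dev (x, t) (z, a)))
      linarith [hb _ hz]
    · rw [integral_const_mul]
      exact mul_le_mul_of_nonneg_left (Gau.integral_gau_le hΛ (Gau.rat_of_AR hA a) x ha')
        (by positivity)
  have hmv := (convex_Ioo (t - 2 * τ) t).image_sub_le_mul_sub_of_deriv_le
    (fun a ha => (hd a ha).continuousAt.continuousWithinAt)
    (fun a ha => (hd a (interior_subset ha)).differentiableAt.differentiableWithinAt)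
    (fun a ha => hM a (interior_subset ha))
  have hcont : ContinuousOn (fun z => g (z, t)) (F.sl t) :=
    (gg_sm hF.1 x s⁻¹).continuousOn.comp (by fun_prop) fun z hz => hz
  have hlow := low_int (p := (x, t)) (B := 1 / s ^ 2) hF.1 hA hx hcont
    (fun z _ => gg_nonneg _ _ _ _) fun z hz => by
      by_cases h : dist z x < s
      · exact (gg_le _ _ _ _).trans (h2 z hz h)
      · rw [hg, gg_zero hs (by linarith [not_lt.1 h])]
        positivity
  obtain ⟨σ, h3, h4⟩ := (hlow.and (Ioo_mem_nhdsGT (Real.sqrt_pos.2 hτ))).exists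
  have h5 : σ ^ 2 < τ := by
    have := Real.sq_sqrt hτ.le
    nlinarith [h4.1, h4.2]
  have h6 : 0 < σ ^ 2 := pow_pos h4.1 2
  have h7 := hmv (t - τ) ⟨by linarith, by linarith⟩ (t - σ ^ 2) ⟨by linarith, by linarith⟩
    (by linarith)
  rw [hG', hG', sub_sub_cancel, sub_sub_cancel] at h7
  have h8 : g (x, t) = F.A2 (x, t) := by simp [hg, gg, sq_eq, chi_zero]
  have h9 : ∫ z, g (z, t) * gau x τ z ∂F.mu t ≤ κ / τ := by
    rw [integral_eq_lintegral_of_nonneg_ae
      (Eventually.of_forall fun z => mul_nonneg (gg_nonneg _ _ _ _) (Gau.gau_pos _ hτ _).le)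
      (Hu.aesm_sl hF.1 (hcont.mul (Gau.gau_cont _ _).continuousOn))]
    refine ENNReal.toReal_le_of_le_ofReal (by positivity) ?_
    calc _ ≤ ∫⁻ z, (ball x s).indicator
          (fun z => ENNReal.ofReal τ⁻¹ * ENNReal.ofReal (F.A2 (z, t))) z ∂F.mu t := by
          refine lintegral_mono fun z => ?_
          by_cases h : z ∈ ball x s
          · rw [indicator_of_mem h, ← ENNReal.ofReal_mul (by positivity), mul_comm τ⁻¹]
            refine ENNReal.ofReal_le_ofReal (mul_le_mul (gg_le _ _ _ _)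
              ((gau_le x hτ z).trans ?_) (Gau.gau_pos _ hτ _).le (A2_nonneg _ _))
            exact inv_anti₀ hτ (by nlinarith [Real.pi_gt_three])
          · have h' : s ≤ dist z x := not_lt.1 h
            simp [hg, gg_zero (F := F) (q := (z, t)) hs (by linarith : s / 4 ≤ dist z x)]
      _ = ENNReal.ofReal τ⁻¹ * ∫⁻ z in ball x s, ENNReal.ofReal (F.A2 (z, t)) ∂F.mu t := by
          rw [lintegral_indicator measurableSet_ball,
            lintegral_const_mul' _ _ ENNReal.ofReal_ne_top]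
      _ ≤ ENNReal.ofReal τ⁻¹ * ENNReal.ofReal κ := mul_le_mul_right hI _
      _ = _ := by rw [← ENNReal.ofReal_mul (by positivity), div_eq_inv_mul]
  dsimp only at h3
  rw [h8] at h3
  have h10 : C / s ^ 4 * (Gau.C0 * max Λ 0) * (t - σ ^ 2 - (t - τ)) ≤
      C * Gau.C0 * (max Λ 0 * τ / s ^ 4) := by
    have h11 : 0 ≤ C / s ^ 4 * (Gau.C0 * max Λ 0) := by have := Gau.C0_nonneg; positivity
    refine (mul_le_mul_of_nonneg_left (by linarith : t - σ ^ 2 - (t - τ) ≤ τ) h11).trans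
      (le_of_eq (by ring))
  have h12 : 0 ≤ C * Gau.C0 * (κ / τ) := by have := Gau.C0_nonneg; positivity
  have h13 : 0 ≤ max Λ 0 * τ / s ^ 4 := by positivity
  nlinarith

/-- **Choi–Schoen** -/
theorem csS_of (hW : WMonoS) (hB : BernS) : Min.CSS := by
  obtain ⟨C, hC, hmv⟩ := mean_value hW hB
  intro Λ e he
  set m := min (e / 64) (1 / 4) with hm
  have hm0 : 0 < m := lt_min (by positivity) (by norm_num)
  have hΛ : 0 ≤ max Λ 0 := le_max_right _ _
  set θ := m / (4 * C * (max Λ 0 + 1)) with hθ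
  have hθ0 : 0 < θ := by positivity
  refine ⟨m * θ / (4 * C), by positivity, fun F t y r hr hF hS hA hP hI x hx hxy => ?_⟩
  have hK : IsCompact (F.sl t ∩ closedBall y (3 * r / 4)) := by
    have h1 := cpt_of_proper hP ((isCompact_closedBall y (3 * r / 4)).prod (isCompact_singleton (x := t)))
      (prod_mono (closedBall_subset_ball (by linarith)) (subset_univ _))
    convert h1.image continuous_fst using 1
    ext z
    constructor
    · exact fun h => ⟨(z, t), ⟨h.1, h.2, rfl⟩, rfl⟩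
    · rintro ⟨⟨z, u⟩, ⟨h2, h3, h4⟩, rfl⟩
      obtain rfl : u = t := h4
      exact ⟨h2, h3⟩
  have hcont : ContinuousOn (fun z => (3 * r / 4 - dist z y) ^ 2 * F.A2 (z, t))
      (F.sl t ∩ closedBall y (3 * r / 4)) :=
    ContinuousOn.mul (by fun_prop) (hF.1.sm_A2.continuousOn.comp (by fun_prop) fun z hz => hz.1)
  have hxK : x ∈ F.sl t ∩ closedBall y (3 * r / 4) := ⟨hx, by rw [mem_closedBall]; linarith⟩
  obtain ⟨x₀, hx₀, hmax⟩ := hK.exists_isMaxOn ⟨x, hxK⟩ hcont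
  have key : (3 * r / 4 - dist x₀ y) ^ 2 * F.A2 (x₀, t) ≤ e / 16 := by
    by_contra hc
    rw [not_le] at hc
    set ρ := (3 * r / 4 - dist x₀ y) / 2 with hρ
    set a := F.A2 (x₀, t) with ha
    have hρ0 : 0 ≤ ρ := by have : dist x₀ y ≤ 3 * r / 4 := hx₀.2; linarith
    have h1 : (3 * r / 4 - dist x₀ y) ^ 2 * a = 4 * (ρ ^ 2 * a) := by rw [hρ]; ring
    rw [h1] at hc
    have h2 : 0 < ρ ^ 2 * a := by linarith
    have ha0 : 0 < a := by
      by_contra h
      nlinarith [mul_nonneg (sq_nonneg ρ) (neg_nonneg.2 (not_lt.1 h))]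
    have hρ1 : 0 < ρ := by
      rcases hρ0.eq_or_lt with h | h
      · rw [← h] at h2; simp at h2
      · exact h
    set s := min ρ (1 / (2 * √a)) with hs
    have hsa : 0 < √a := Real.sqrt_pos.2 ha0
    have hs0 : 0 < s := lt_min hρ1 (by positivity)
    have hsρ : s ≤ ρ := min_le_left _ _
    have h3 : (1 / (2 * √a)) ^ 2 * a = 1 / 4 := by
      rw [div_pow, mul_pow, Real.sq_sqrt ha0.le]; field_simp; norm_num
    have h4 : s ^ 2 * a ≤ 1 / 4 := by
      rw [← h3]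
      exact mul_le_mul_of_nonneg_right (pow_le_pow_left₀ hs0.le (min_le_right _ _) 2) ha0.le
    have h5 : m ≤ s ^ 2 * a := by
      rcases min_choice ρ (1 / (2 * √a)) with h | h
      · rw [hs, h]; linarith [min_le_left (e / 64) (1 / 4)]
      · rw [hs, h, h3]; exact min_le_right _ _
    have hsub : ball x₀ s ⊆ ball y r := fun z hz => by
      have h6 : dist z x₀ < s := hz
      have := dist_triangle z x₀ y
      rw [mem_ball]
      linarith [dist_nonneg (x := x₀) (y := y)]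
    have h7 := hmv F Λ (m * θ / (4 * C)) x₀ t s (θ * s ^ 2) hF hS hA hs0 (by positivity)
      (by positivity) hx₀.1 (hP.mono_set (prod_mono hsub le_rfl)) (fun z hz hd => by
        have h8 := dist_triangle z x₀ y
        have h9 : ρ ≤ 3 * r / 4 - dist z y := by linarith
        have h10 : (3 * r / 4 - dist z y) ^ 2 * F.A2 (z, t) ≤ 4 * (ρ ^ 2 * a) := by
          rw [← h1]
          exact hmax ⟨hz, by rw [mem_closedBall]; linarith⟩
        have h11 : ρ ^ 2 * F.A2 (z, t) ≤ ρ ^ 2 * (4 * a) :=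
          (mul_le_mul_of_nonneg_right (pow_le_pow_left₀ hρ0 h9 2) (A2_nonneg _ _)).trans
            (by linarith)
        have h12 := le_of_mul_le_mul_left h11 (by positivity)
        rw [le_div_iff₀ (by positivity)]
        nlinarith [mul_le_mul_of_nonneg_left h12 (sq_nonneg s)])
      ((lintegral_mono_set hsub).trans hI)
    have h13 : s ^ 2 * (C * (m * θ / (4 * C) / (θ * s ^ 2) + max Λ 0 * (θ * s ^ 2) / s ^ 4)) =
        m / 4 + C * max Λ 0 * θ := by field_simp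
    have h14 : C * max Λ 0 * θ ≤ m / 4 := by
      rw [hθ, mul_div_assoc', div_le_div_iff₀ (by positivity) (by norm_num)]
      nlinarith [mul_pos hm0 hC]
    have h15 := mul_le_mul_of_nonneg_left h7 (sq_nonneg s)
    rw [h13] at h15
    linarith
  have h16 : (3 * r / 4 - dist x y) ^ 2 * F.A2 (x, t) ≤ e / 16 := (hmax hxK).trans key
  have h17 : (r / 4) ^ 2 * F.A2 (x, t) ≤ e / 16 :=
    (mul_le_mul_of_nonneg_right (pow_le_pow_left₀ (by positivity) (by linarith) 2)
      (A2_nonneg _ _)).trans h16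
  rw [le_div_iff₀ (by positivity)]
  nlinarith

end Crest.Agent.N250.CS

end
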