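import Crest.Agent.N250.A.PsiC

/-!
# Row 250, block A (helper37): heat potentials of `|A|²` on time windows, the cost of the damping
-/

set_option autoImplicit false
open MeasureTheory Set Filter Topology
open scoped ContDiff InnerProductSpace
open Crest.GeometryTopology.MCF

noncomputable section

namespace Crest.Agent.N250.A.Cost

open PC

variable {F : Mv} {a Λ G : ℝ} {m : Measure ST}

/-- the time slab -/
abbrev Sl (s t : ℝ) : Set ST := {q : ST | s < q.2 ∧ q.2 < t}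

theorem meas_Sl (s t : ℝ) : MeasurableSet (Sl s t) := measurable_snd measurableSet_Ioo

/-- a function continuous on the track agrees there with a measurable function -/
theorem exists_meas (hF : F.Reg) {f : ST → ℝ} (hf : ContinuousOn f F.M) :
    ∃ g : ST → ℝ, Measurable g ∧ ∀ q ∈ F.M, g q = f q := by
  classical
  exact ⟨F.M.piecewise f 0, hf.measurable_piecewise continuousOn_const (Hu.meas_M hF),
    fun q hq => piecewise_eq_of_mem _ _ _ hq⟩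

/-- integrals over a slab, for functions that agree with a measurable function on the track -/
theorem stm_eq (hF : F.Reg) (hm : IsStm F m) {f g : ST → ENNReal} (hg : Measurable g)
    (e : ∀ q ∈ F.M, g q = f q) (s t : ℝ) :
    ∫⁻ q in Sl s t, f q ∂m = ∫⁻ u in Ioo s t, ∫⁻ x, f (x, u) ∂F.mu u := by
  have h1 : ∫⁻ q in Sl s t, f q ∂m = ∫⁻ q in Sl s t, g q ∂m := by
    refine lintegral_congr_ae ?_
    filter_upwards [ae_restrict_of_ae (stm_ae hF hm)] with q hq using (e q hq).symm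
  rw [h1, ← lintegral_indicator (meas_Sl s t), (hm _ (hg.indicator (meas_Sl s t))).2,
    ← lintegral_indicator measurableSet_Ioo]
  refine lintegral_congr fun u => ?_
  by_cases hu : u ∈ Ioo s t
  · rw [indicator_of_mem hu]
    refine lintegral_congr_ae ?_
    filter_upwards [Hu.ae_sl hF u] with x hx
    rw [indicator_of_mem (s := Sl s t) (a := (x, u)) hu, e _ hx]
  · have : ∀ x : E, (Sl s t).indicator g (x, u) = 0 := fun x =>
      indicator_of_notMem (s := Sl s t) (a := (x, u)) hu _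
    simp [this, indicator_of_notMem hu]

theorem stI_eq (hF : F.Reg) (hm : IsStm F m) {f : ST → ℝ} (hf : ContinuousOn f F.M) {U : Set ST}
    (hU : MeasurableSet U) (s t : ℝ) :
    ∫⁻ q in Sl s t, ENNReal.ofReal (U.indicator f q) ∂m = F.stI (U.indicator f) s t := by
  obtain ⟨g, hg, e⟩ := exists_meas hF hf
  refine stm_eq hF hm (hg.indicator hU).ennreal_ofReal (fun q hq => ?_) s t
  by_cases h : q ∈ U <;> simp [h, e q hq]

theorem aem_A2 (hF : F.Reg) (hm : IsStm F m) : AEMeasurable F.A2 m := by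
  obtain ⟨g, hg, e⟩ := exists_meas hF hF.sm_A2.continuousOn
  refine ⟨g, hg, ?_⟩
  filter_upwards [stm_ae hF hm] with q hq using (e q hq).symm

/-- the bound on one block -/
def Blk (Λ G C : ℝ) : Prop := ∀ (F : Mv) (a : ℝ) (m : Measure ST), Cpt F a Λ G → IsStm F m →
  ∀ (x : E) (t₁ t₂ L : ℝ), a < t₁ → t₂ < 0 → 0 < L → t₂ - t₁ ≤ L →
    ∫⁻ q in Sl t₁ t₂, ENNReal.ofReal (Real.exp (-‖q.1 - x‖ ^ 2 / (8 * L)) * F.A2 q) ∂m ≤
      ENNReal.ofReal (C * L)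

theorem blk (hA : A2S) (Λ G : ℝ) : ∃ C : ℝ, 0 < C ∧ Blk Λ G C := by
  obtain ⟨C, hC, hA⟩ := hA Λ G
  have hC0 := Gau.C0_nonneg
  refine ⟨Gau.C0 * C + 1, by positivity, fun F a m hF hm y t₁ t₂ s h1 h2 hs h3 => ?_⟩
  have hR := hF.fl.mcf.1
  have hq : 0 < √s := Real.sqrt_pos.2 hs
  have hqq : √s ^ 2 = s := Real.sq_sqrt hs.le
  have hU : ∀ k : ℕ, MeasurableSet (Metric.ball y (((k : ℝ) + 1) * √s) ×ˢ (univ : Set ℝ)) :=
    fun k => Metric.isOpen_ball.measurableSet.prod MeasurableSet.univ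
  calc ∫⁻ q in Sl t₁ t₂, ENNReal.ofReal (Real.exp (-‖q.1 - y‖ ^ 2 / (8 * s)) * F.A2 q) ∂m
      ≤ ∫⁻ q in Sl t₁ t₂, ∑' k : ℕ, ENNReal.ofReal (Real.exp (-(k : ℝ) ^ 2 / 8)) * ENNReal.ofReal
          ((Metric.ball y (((k : ℝ) + 1) * √s) ×ˢ (univ : Set ℝ)).indicator F.A2 q) ∂m := by
        refine lintegral_mono fun q => ?_
        refine le_trans ?_ (ENNReal.le_tsum ⌊‖q.1 - y‖ / √s⌋₊)
        have h1 : ‖q.1 - y‖ / √s < (⌊‖q.1 - y‖ / √s⌋₊ : ℝ) + 1 := Nat.lt_floor_add_one _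
        have h2 : (⌊‖q.1 - y‖ / √s⌋₊ : ℝ) ≤ ‖q.1 - y‖ / √s := Nat.floor_le (by positivity)
        rw [indicator_of_mem (mk_mem_prod (by
          rw [Metric.mem_ball, dist_eq_norm]; rwa [div_lt_iff₀ hq] at h1) (mem_univ _)),
          ← ENNReal.ofReal_mul (Real.exp_pos _).le]
        apply ENNReal.ofReal_le_ofReal
        refine mul_le_mul_of_nonneg_right ?_ (A2_nonneg F q)
        apply Real.exp_le_exp.2
        have h3 : (⌊‖q.1 - y‖ / √s⌋₊ : ℝ) ^ 2 ≤ (‖q.1 - y‖ / √s) ^ 2 := by gcongr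
        rw [div_pow, hqq] at h3
        have : -‖q.1 - y‖ ^ 2 / (8 * s) = -(‖q.1 - y‖ ^ 2 / s) / 8 := by field_simp
        rw [this]; linarith
    _ = ∑' k : ℕ, ENNReal.ofReal (Real.exp (-(k : ℝ) ^ 2 / 8)) *
          F.stI ((Metric.ball y (((k : ℝ) + 1) * √s) ×ˢ (univ : Set ℝ)).indicator F.A2) t₁ t₂ := by
        rw [lintegral_tsum fun k => (((aem_A2 hR hm).restrict.indicator
          (hU k)).ennreal_ofReal.const_mul _)]
        congr 1; funext k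
        rw [lintegral_const_mul' _ _ ENNReal.ofReal_ne_top,
          stI_eq hR hm hR.sm_A2.continuousOn (hU k)]
    _ ≤ ∑' k : ℕ, ENNReal.ofReal (((k : ℝ) + 1) ^ 2 * Real.exp (-(k : ℝ) ^ 2 / 8) * (C * s)) := by
        refine ENNReal.tsum_le_tsum fun k => ?_
        have hk : s ≤ (((k : ℝ) + 1) * √s) ^ 2 := by
          rw [mul_pow, hqq]
          exact le_mul_of_one_le_left hs.le (one_le_pow₀ (by linarith [k.cast_nonneg (α := ℝ)]))
        refine le_trans (mul_le_mul_right (hA F _ y _ t₁ t₂ isOpen_Ioo hF.fl hF.lgb (by positivity)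
          (Icc_subset_Ioo h1 h2) (h3.trans hk)) _) ?_
        rw [← ENNReal.ofReal_mul (Real.exp_pos _).le]
        apply le_of_eq; congr 1; rw [mul_pow, hqq]; ring
    _ ≤ ENNReal.ofReal ((Gau.C0 * C + 1) * s) := by
        rw [← ENNReal.ofReal_tsum_of_nonneg (fun k => by positivity) (Gau.summ.mul_right _),
          tsum_mul_right]
        refine ENNReal.ofReal_le_ofReal ?_
        change Gau.C0 * (C * s) ≤ _
        nlinarith

variable {C : ℝ}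

/-- `τ gau τ ≤ exp (-|z - x|² / (8 L))` for `τ ≤ 2 L` -/
theorem gau_le_exp (z x : E) {τ L : ℝ} (hτ : 0 < τ) (h : τ ≤ 2 * L) :
    gau z τ x ≤ τ⁻¹ * Real.exp (-‖z - x‖ ^ 2 / (8 * L)) := by
  unfold gau
  have h1 : (4 * Real.pi * τ)⁻¹ ≤ τ⁻¹ :=
    inv_anti₀ hτ (le_mul_of_one_le_left hτ.le (by linarith [Real.pi_gt_three]))
  have h2 : -‖x - z‖ ^ 2 / (4 * τ) ≤ -‖z - x‖ ^ 2 / (8 * L) := by
    rw [norm_sub_rev x z, neg_div, neg_div, neg_le_neg_iff]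
    exact div_le_div_of_nonneg_left (sq_nonneg _) (by positivity) (by linarith)
  gcongr

/-- a block with a weight `w` : `gau · w ≤ K exp` -/
theorem Blk.wt (hB : Blk Λ G C) (hF : Cpt F a Λ G) (hm : IsStm F m) (x : E) {t₁ t₂ L K : ℝ}
    (h1 : a < t₁) (h2 : t₂ < 0) (hL : 0 < L) (h3 : t₂ - t₁ ≤ L) (hK : 0 ≤ K) {w : ST → ℝ}
    (hw : ∀ q ∈ Sl t₁ t₂, w q ≤ K * (Real.exp (-‖q.1 - x‖ ^ 2 / (8 * L)) * F.A2 q)) :
    ∫⁻ q in Sl t₁ t₂, ENNReal.ofReal (w q) ∂m ≤ ENNReal.ofReal (K * (C * L)) := by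
  rw [ENNReal.ofReal_mul hK]
  refine le_trans ?_ (mul_le_mul_right (hB F a m hF hm x t₁ t₂ L h1 h2 hL h3) _)
  rw [← lintegral_const_mul' _ _ ENNReal.ofReal_ne_top]
  refine setLIntegral_mono' (meas_Sl _ _) fun q hq => ?_
  rw [← ENNReal.ofReal_mul hK]
  exact ENNReal.ofReal_le_ofReal (hw q hq)

/-- one dyadic window of lags contributes a bounded amount -/
theorem Blk.win (hB : Blk Λ G C) (hF : Cpt F a Λ G) (hm : IsStm F m) (x : E) {t₁ t₂ τ₀ : ℝ}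
    (h1 : a < t₁) (h2 : t₂ < 0) (hτ : 0 < τ₀) (h3 : t₂ - t₁ ≤ τ₀) {τ : ST → ℝ}
    (h4 : ∀ q ∈ Sl t₁ t₂, τ₀ ≤ τ q ∧ τ q ≤ 2 * τ₀) :
    ∫⁻ q in Sl t₁ t₂, ENNReal.ofReal (gau q.1 (τ q) x * F.A2 q) ∂m ≤ ENNReal.ofReal C := by
  have := hB.wt hF hm x h1 h2 hτ h3 (K := τ₀⁻¹) (by positivity)
    (w := fun q => gau q.1 (τ q) x * F.A2 q) fun q hq => by
      rw [← mul_assoc]
      refine mul_le_mul_of_nonneg_right ?_ (A2_nonneg F q)
      refine (gau_le_exp _ _ (hτ.trans_le (h4 q hq).1) (h4 q hq).2).trans ?_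
      gcongr
      exact (h4 q hq).1
  rwa [show τ₀⁻¹ * (C * τ₀) = C by field_simp] at this

/-- splitting a slab below the time `-θ` into dyadic windows of `|s|` -/
theorem dyadic (hm : IsStm F m) (f : ST → ENNReal) (a₀ : ℝ) {θ : ℝ} (hθ : 0 < θ) :
    ∫⁻ q in Sl a₀ (-θ), f q ∂m ≤
      ∑' j : ℕ, ∫⁻ q in Sl (max a₀ (-(2 ^ (j + 1) * θ))) (-(2 ^ j * θ)), f q ∂m := by
  refine le_trans (lintegral_mono_set' ?_) (lintegral_iUnion_le _ _)
  filter_upwards [ae_all_iff.2 fun j : ℕ => stm_ne hm (-(2 ^ j * θ))] with q hq h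
  obtain ⟨j, h1, h2⟩ := exists_nat_pow_near (x := -q.2 / θ) (y := 2)
    (by rw [le_div_iff₀ hθ]; linarith [h.2]) one_lt_two
  rw [le_div_iff₀ hθ] at h1
  rw [div_lt_iff₀ hθ] at h2
  exact mem_iUnion.2 ⟨j, max_lt h.1 (by linarith), lt_of_le_of_ne (by linarith) (hq j)⟩

/-- the cost of the damping (lower integral) -/
theorem Blk.cost_l (hB : Blk Λ G C) (hC : 0 ≤ C) (hF : Cpt F a Λ G) (hm : IsStm F m) {a₀ σ : ℝ}
    (ha : a < a₀) (hσ : 0 < σ) {p : ST} (hp : σ ≤ -p.2) :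
    ∫⁻ q in Sl a₀ p.2, ENNReal.ofReal (gau q.1 (p.2 - q.2 + σ) p.1 *
      (F.A2 q * ((p.2 - q.2) / q.2 ^ 2))) ∂m ≤ ENNReal.ofReal (2 * C / -p.2) := by
  obtain ⟨θ, hθe⟩ : ∃ θ, θ = -p.2 := ⟨_, rfl⟩
  have hθ : 0 < θ := by linarith
  have ht : p.2 = -θ := by linarith
  rw [← hθe]
  conv_lhs => enter [1, 2, 2]; rw [ht]
  refine (dyadic hm _ a₀ hθ).trans ?_
  have hs : HasSum (fun j : ℕ => C / θ * (1 / 2 : ℝ) ^ j) (2 * C / θ) := by
    rw [show 2 * C / θ = C / θ * 2 by ring]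
    exact hasSum_geometric_two.mul_left (C / θ)
  rw [← hs.tsum_eq, ENNReal.ofReal_tsum_of_nonneg (fun j => by positivity) hs.summable]
  refine ENNReal.tsum_le_tsum fun j => ?_
  have hL : 0 < 2 ^ j * θ := by positivity
  have h1 : θ ≤ 2 ^ j * θ := le_mul_of_one_le_left hθ.le (one_le_pow₀ one_le_two)
  have := hB.wt hF hm p.1 (t₁ := max a₀ (-(2 ^ (j + 1) * θ))) (t₂ := -(2 ^ j * θ))
    (ha.trans_le (le_max_left _ _)) (by linarith) hL
    (by linarith [le_max_right a₀ (-(2 ^ (j + 1) * θ)), pow_succ (2 : ℝ) j ▸ mul_right_comm ((2 : ℝ) ^ j) 2 θ])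
    (K := ((2 ^ j * θ) ^ 2)⁻¹) (by positivity)
    (w := fun q => gau q.1 (p.2 - q.2 + σ) p.1 * (F.A2 q * ((p.2 - q.2) / q.2 ^ 2))) fun q hq => by
      have q1 : -(2 ^ (j + 1) * θ) < q.2 := (le_max_right _ _).trans_lt hq.1
      rw [pow_succ, mul_right_comm] at q1
      have q2 : q.2 < -(2 ^ j * θ) := hq.2
      have hl : 0 < p.2 - q.2 := by linarith
      have hτ : 0 < p.2 - q.2 + σ := by linarith
      have g1 := gau_le_exp q.1 p.1 hτ (L := 2 ^ j * θ) (by linarith)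
      have g2 : (p.2 - q.2) / q.2 ^ 2 ≤ (p.2 - q.2 + σ) * ((2 ^ j * θ) ^ 2)⁻¹ := by
        rw [div_eq_mul_inv]
        refine mul_le_mul (by linarith) (inv_anti₀ (by positivity) ?_) (by positivity) hτ.le
        nlinarith
      have hA := A2_nonneg F q
      calc _ ≤ (p.2 - q.2 + σ)⁻¹ * Real.exp (-‖q.1 - p.1‖ ^ 2 / (8 * (2 ^ j * θ))) *
            (F.A2 q * ((p.2 - q.2 + σ) * ((2 ^ j * θ) ^ 2)⁻¹)) := by gcongr
        _ = _ := by field_simp
  refine this.trans (le_of_eq ?_)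
  congr 1
  rw [one_div, inv_pow]
  field_simp

/-- **the cost of the damping** -/
theorem Blk.cost (hB : Blk Λ G C) (hC : 0 ≤ C) (hF : Cpt F a Λ G) (hm : IsStm F m) {a₀ σ : ℝ}
    (ha : a < a₀) (hσ : 0 < σ) {p : ST} (hp : σ ≤ -p.2) :
    IntegrableOn (fun q : ST => gau q.1 (p.2 - q.2 + σ) p.1 * (F.A2 q * ((p.2 - q.2) / q.2 ^ 2)))
      {q : ST | a₀ < q.2 ∧ q.2 < p.2} m ∧
    ∫ q in {q : ST | a₀ < q.2 ∧ q.2 < p.2}, gau q.1 (p.2 - q.2 + σ) p.1 *
      (F.A2 q * ((p.2 - q.2) / q.2 ^ 2)) ∂m ≤ 2 * C / -p.2 := by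
  have h0 : 0 ≤ᵐ[m.restrict (Sl a₀ p.2)] fun q : ST => gau q.1 (p.2 - q.2 + σ) p.1 *
      (F.A2 q * ((p.2 - q.2) / q.2 ^ 2)) := by
    filter_upwards [ae_restrict_mem (meas_Sl a₀ p.2)] with q hq
    exact mul_nonneg (Gau.gau_pos _ (by linarith [hq.2]) _).le
      (mul_nonneg (A2_nonneg F q) (div_nonneg (by linarith [hq.2]) (sq_nonneg _)))
  have hme : AEStronglyMeasurable (fun q : ST => gau q.1 (p.2 - q.2 + σ) p.1 *
      (F.A2 q * ((p.2 - q.2) / q.2 ^ 2))) (m.restrict (Sl a₀ p.2)) :=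
    ((meas_gau σ p).aemeasurable.mul ((aem_A2 hF.fl.mcf.1 hm).restrict.mul
      (Measurable.aemeasurable (by fun_prop)))).aestronglyMeasurable
  have h1 := hB.cost_l hC hF hm ha hσ hp
  refine ⟨⟨hme, (hasFiniteIntegral_iff_ofReal h0).2 (h1.trans_lt ENNReal.ofReal_lt_top)⟩, ?_⟩
  rw [integral_eq_lintegral_of_nonneg_ae h0 hme]
  exact ENNReal.toReal_le_of_le_ofReal (div_nonneg (by positivity) (by linarith)) h1

end Crest.Agent.N250.A.Cost

end
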