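import Crest.Agent.N250.A.Stm
import Crest.Agent.N250.A.Good
import Crest.Agent.N250.T.Lim

/-!
# Row 250, block A (helper83): kernel lemmas and the spacetime measure for `FinS`
-/

set_option autoImplicit false
open MeasureTheory Set Filter Topology Metric
open scoped ContDiff InnerProductSpace ENNReal
open Crest.GeometryTopology.MCF

noncomputable section

namespace Crest.Agent.N250.A.Fn

theorem gau_symm (y x : E) (s : ℝ) : gau y s x = gau x s y := by
  unfold gau; rw [norm_sub_rev]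

theorem sq_id (u v : E) {a b : ℝ} (ha : 0 < a) (hb : 0 < b) :
    ‖u‖ ^ 2 / a + ‖u - v‖ ^ 2 / b =
      ‖v‖ ^ 2 / (a + b) + ‖u - (a / (a + b)) • v‖ ^ 2 / (a * b / (a + b)) := by
  rw [norm_sub_sq_real, norm_sub_sq_real, inner_smul_right, norm_smul, mul_pow, Real.norm_eq_abs,
    sq_abs]
  field_simp
  ring

/-- product of two Gaussians -/
theorem gau_mul (x q z : E) {a b : ℝ} (ha : 0 < a) (hb : 0 < b) :
    gau x a z * gau q b z =
      gau x (a + b) q * gau (x + (a / (a + b)) • (q - x)) (a * b / (a + b)) z := by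
  have h := sq_id (z - x) (q - x) ha hb
  rw [sub_sub_sub_cancel_right, sub_sub] at h
  have hp := Real.pi_pos
  unfold gau
  rw [mul_mul_mul_comm, mul_mul_mul_comm (4 * Real.pi * (a + b))⁻¹, ← Real.exp_add, ← Real.exp_add]
  congr 1
  · field_simp
  · congr 1
    have e : ∀ u s : ℝ, -u / (4 * s) = -(1 / 4) * (u / s) := fun u s => by ring
    simp only [e]
    linarith

/-- comparison of Gaussians with different centres -/
theorem gau_cmp (y z w : E) {a b d D : ℝ} (hb : 0 < b) (hd : 0 < d) (hab : b + d ≤ a)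
    (hD : ‖z - y‖ ^ 2 ≤ D * d) : gau z b w ≤ a / b * Real.exp (D / 4) * gau y a w := by
  have hp := Real.pi_pos
  have ha : 0 < a := by linarith
  have h := sq_id (z - y) (w - y) (a := a - b) (by linarith) hb
  rw [sub_sub_sub_cancel_right, sub_add_cancel, norm_sub_rev z w] at h
  have h0 : 0 ≤ ‖z - y - ((a - b) / a) • (w - y)‖ ^ 2 / ((a - b) * b / a) := by
    have : 0 < a - b := by linarith
    positivity
  have h1 : ‖z - y‖ ^ 2 / (a - b) ≤ D := by
    have : 0 ≤ D := by
      by_contra k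
      nlinarith [sq_nonneg ‖z - y‖]
    rw [div_le_iff₀ (by linarith)]
    nlinarith
  unfold gau
  have e : a / b * Real.exp (D / 4) * ((4 * Real.pi * a)⁻¹ * Real.exp (-‖w - y‖ ^ 2 / (4 * a))) =
      (4 * Real.pi * b)⁻¹ * Real.exp (D / 4 + -‖w - y‖ ^ 2 / (4 * a)) := by
    rw [Real.exp_add]; field_simp
  rw [e]
  refine mul_le_mul_of_nonneg_left (Real.exp_le_exp.2 ?_) (by positivity)
  have e : ∀ u s : ℝ, -u / (4 * s) = -(1 / 4) * (u / s) := fun u s => by ring
  simp only [e]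
  linarith

theorem gau_scale (z w : E) {a b : ℝ} (hb : 0 < b) (hab : b ≤ a) :
    gau z b w ≤ a / b * gau z a w := by
  have hp := Real.pi_pos
  have ha : 0 < a := by linarith
  unfold gau
  have e : a / b * ((4 * Real.pi * a)⁻¹ * Real.exp (-‖w - z‖ ^ 2 / (4 * a))) =
      (4 * Real.pi * b)⁻¹ * Real.exp (-‖w - z‖ ^ 2 / (4 * a)) := by field_simp
  rw [e]
  refine mul_le_mul_of_nonneg_left (Real.exp_le_exp.2 ?_) (by positivity)
  rw [neg_div, neg_div, neg_le_neg_iff]
  exact div_le_div_of_nonneg_left (by positivity) (by positivity) (by linarith)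

theorem gau_low {x z : E} {ρ L : ℝ} (hρ : 0 < ρ) (hz : z ∈ ball x (L * ρ)) :
    1 ≤ 4 * Real.pi * ρ ^ 2 * Real.exp (L ^ 2 / 4) * gau x (ρ ^ 2) z := by
  have hp := Real.pi_pos
  unfold gau
  have e : 4 * Real.pi * ρ ^ 2 * Real.exp (L ^ 2 / 4) * ((4 * Real.pi * ρ ^ 2)⁻¹ *
      Real.exp (-‖z - x‖ ^ 2 / (4 * ρ ^ 2))) =
      Real.exp (L ^ 2 / 4 + -‖z - x‖ ^ 2 / (4 * ρ ^ 2)) := by
    rw [Real.exp_add]; field_simp
  rw [e, Real.one_le_exp_iff]
  have h1 : ‖z - x‖ ^ 2 ≤ (L * ρ) ^ 2 :=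
    pow_le_pow_left₀ (norm_nonneg _) (mem_ball_iff_norm.1 hz).le 2
  have : ‖z - x‖ ^ 2 / (4 * ρ ^ 2) ≤ L ^ 2 / 4 := by
    rw [div_le_iff₀ (by positivity)]; nlinarith
  rw [neg_div]; linarith

theorem meas_gau {α : Type} [MeasurableSpace α] {y x : α → E} {s : α → ℝ} (hy : Measurable y)
    (hs : Measurable s) (hx : Measurable x) :
    Measurable fun a => ENNReal.ofReal (gau (y a) (s a) (x a)) := by
  unfold gau
  fun_prop

/-- Gaussian integrals from ball bounds at large radii only -/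
theorem gau_big : ∃ C : ℝ, 1 ≤ C ∧ ∀ (ν : Measure ST) (Λ : ℝ) (y : E) (s : ℝ), 0 < s → 0 ≤ Λ →
    (∀ r, √s ≤ r → ν (ball y r ×ˢ univ) ≤ ENNReal.ofReal (Λ * r ^ 2)) →
    ∫⁻ q, ENNReal.ofReal (gau y s q.1) ∂ν ≤ ENNReal.ofReal (C * Λ) := by
  obtain ⟨C, hC, h⟩ := gau_ar
  refine ⟨C + 1, by linarith, fun ν Λ y s hs hΛ hν => ?_⟩
  have hq : 0 < √s := Real.sqrt_pos.2 hs
  have hm : ∀ r, (ν.map Prod.fst) (ball y r) = ν (ball y r ×ˢ univ) := fun r => by
    rw [Measure.map_apply measurable_fst measurableSet_ball, prod_univ]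
  have mg : Measurable fun x : E => ENNReal.ofReal (gau y s x) :=
    meas_gau measurable_const measurable_const measurable_id
  rw [← lintegral_map mg measurable_fst, ← lintegral_add_compl _ (measurableSet_ball (x := y) (ε := √s))]
  have h1 := h ((ν.map Prod.fst).restrict (ball y √s)ᶜ) Λ y s hs hΛ fun r hr => by
    rw [Measure.restrict_apply measurableSet_ball]
    rcases le_total r √s with k | k
    · rw [show ball y r ∩ (ball y √s)ᶜ = ∅ from
        eq_empty_of_forall_notMem fun x hx => hx.2 (ball_subset_ball k hx.1)]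
      simp
    · exact (measure_mono inter_subset_left).trans ((hm r).trans_le (hν r k))
  have h2 : ∫⁻ x in ball y √s, ENNReal.ofReal (gau y s x) ∂(ν.map Prod.fst) ≤ ENNReal.ofReal Λ := by
    refine (lintegral_mono fun x => ENNReal.ofReal_le_ofReal (gau_le hs y x)).trans ?_
    rw [setLIntegral_const, hm]
    refine (mul_le_mul_right (hν _ le_rfl) _).trans ?_
    have hp := Real.pi_gt_three
    rw [← ENNReal.ofReal_mul (by positivity), Real.sq_sqrt hs.le]
    refine ENNReal.ofReal_le_ofReal ?_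
    have : (4 * Real.pi * s)⁻¹ * (Λ * s) = Λ / (4 * Real.pi) := by field_simp
    rw [this]
    exact div_le_self hΛ (by linarith)
  refine (add_le_add h2 h1).trans ?_
  rw [← ENNReal.ofReal_add hΛ (by positivity)]
  exact ENNReal.ofReal_le_ofReal (by linarith)

theorem sfin_of {μ : Measure E} {Λ : ℝ} (h : Rt μ Λ) : SFinite μ := by
  have : IsLocallyFiniteMeasure μ :=
    ⟨fun x => ⟨_, ball_mem_nhds x one_pos, (h x 1 one_pos).trans_lt ENNReal.ofReal_lt_top⟩⟩
  infer_instance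

/-- Chebyshev with a Gaussian weight -/
theorem cheb : ∃ C : ℝ, 1 ≤ C ∧ ∀ (μ : Measure E) (Λ : ℝ) (ν : Measure ST) [SFinite ν]
    (b : ST → ℝ) (x : E) (ρ L K Q : ℝ), 0 ≤ Λ → Rt μ Λ → Measurable b → (∀ᵐ q ∂ν, 0 < b q) →
    0 < ρ → 0 < K → 0 ≤ Q →
    ∫⁻ q, ENNReal.ofReal (gau x (ρ ^ 2 + b q) q.1) ∂ν ≤ ENNReal.ofReal Q →
    μ ({z | ENNReal.ofReal K ≤ ∫⁻ q, ENNReal.ofReal (gau q.1 (b q) z) ∂ν} ∩ ball x (L * ρ)) ≤
      ENNReal.ofReal (4 * Real.pi * Real.exp (L ^ 2 / 4) * (C * Λ) * Q / K * ρ ^ 2) := by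
  obtain ⟨C, hC, h⟩ := gau_ar
  refine ⟨C, hC, fun μ Λ ν _ b x ρ L K Q hΛ hμ hb hb0 hρ hK hQ hν => ?_⟩
  have := sfin_of hμ
  have hp := Real.pi_pos
  have m1 : Measurable fun p : E × ST => ENNReal.ofReal (gau p.2.1 (b p.2) p.1) :=
    meas_gau (by fun_prop) (by fun_prop) (by fun_prop)
  have m2 : Measurable fun z : E => ENNReal.ofReal (gau x (ρ ^ 2) z) :=
    meas_gau measurable_const measurable_const measurable_id
  have m3 : Measurable fun z => ∫⁻ q, ENNReal.ofReal (gau q.1 (b q) z) ∂ν := m1.lintegral_prod_right'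
  have h1 := mul_meas_ge_le_lintegral₀ (μ := μ.restrict (ball x (L * ρ))) m3.aemeasurable
    (ENNReal.ofReal K)
  rw [Measure.restrict_apply' measurableSet_ball] at h1
  have h2 : ∫⁻ z in ball x (L * ρ), ∫⁻ q, ENNReal.ofReal (gau q.1 (b q) z) ∂ν ∂μ ≤
      ENNReal.ofReal (4 * Real.pi * ρ ^ 2 * Real.exp (L ^ 2 / 4)) *
        ∫⁻ z, ∫⁻ q, ENNReal.ofReal (gau x (ρ ^ 2) z) * ENNReal.ofReal (gau q.1 (b q) z) ∂ν ∂μ := by
    rw [← lintegral_const_mul' _ _ ENNReal.ofReal_ne_top]
    refine (setLIntegral_mono' measurableSet_ball fun z hz => ?_).trans (setLIntegral_le_lintegral _ _)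
    rw [lintegral_const_mul' _ _ ENNReal.ofReal_ne_top, ← mul_assoc, ← ENNReal.ofReal_mul (by positivity)]
    exact le_mul_of_one_le_left zero_le (ENNReal.one_le_ofReal.2 (gau_low hρ hz))
  have h3 : ∫⁻ z, ∫⁻ q, ENNReal.ofReal (gau x (ρ ^ 2) z) * ENNReal.ofReal (gau q.1 (b q) z) ∂ν ∂μ ≤
      ENNReal.ofReal Q * ENNReal.ofReal (C * Λ) := by
    rw [lintegral_lintegral_swap ((m2.comp measurable_fst).mul m1).aemeasurable]
    refine le_trans ?_ (mul_le_mul_left hν _)
    rw [← lintegral_mul_const' _ _ ENNReal.ofReal_ne_top]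
    refine lintegral_mono_ae ?_
    filter_upwards [hb0] with q hq
    have e : ∀ z, ENNReal.ofReal (gau x (ρ ^ 2) z) * ENNReal.ofReal (gau q.1 (b q) z) =
        ENNReal.ofReal (gau x (ρ ^ 2 + b q) q.1) * ENNReal.ofReal (gau (x + (ρ ^ 2 / (ρ ^ 2 + b q)) •
          (q.1 - x)) (ρ ^ 2 * b q / (ρ ^ 2 + b q)) z) := fun z => by
      rw [← ENNReal.ofReal_mul (gau_pos (by positivity) _ _).le, gau_mul _ _ _ (by positivity) hq,
        ENNReal.ofReal_mul (gau_pos (by positivity) _ _).le]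
    simp only [e]
    rw [lintegral_const_mul' _ _ ENNReal.ofReal_ne_top]
    exact mul_le_mul_right (h μ Λ _ _ (by positivity) hΛ (hμ _)) _
  have h4 := h1.trans (h2.trans (mul_le_mul_right h3 _))
  rw [← ENNReal.ofReal_mul hQ, ← ENNReal.ofReal_mul (by positivity), mul_comm,
    ← ENNReal.le_div_iff_mul_le (Or.inl (ENNReal.ofReal_pos.2 hK).ne') (Or.inl ENNReal.ofReal_ne_top),
    ← ENNReal.ofReal_div_of_pos hK] at h4
  refine h4.trans (le_of_eq ?_)
  congr 1; ring

/-! ### the spacetime measure -/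

variable {F : Mv} {m : Measure ST}

/-- measurable version of a density on the track -/
def dn (F : Mv) (f : ST → ℝ) : ST → ℝ≥0∞ := F.M.indicator fun q => ENNReal.ofReal (f q)

theorem meas_dn (hF : F.Reg) {f : ST → ℝ} (hf : ContinuousOn f F.M) : Measurable (dn F f) := by
  classical
  rw [dn, ← piecewise_eq_indicator]
  exact (ENNReal.continuous_ofReal.comp_continuousOn hf).measurable_piecewise continuousOn_const
    hF.measurableSet_M

theorem ae_M (hF : F.Reg) (hm : IsStm F m) : ∀ᵐ q ∂m, q ∈ F.M := by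
  have h := (hm ((F.Mᶜ).indicator 1) (measurable_one.indicator hF.measurableSet_M.compl)).2
  rw [lintegral_indicator_one hF.measurableSet_M.compl] at h
  refine ae_iff.2 (h.trans ?_)
  have : ∀ t, ∫⁻ x, (F.Mᶜ).indicator (1 : ST → ℝ≥0∞) (x, t) ∂F.mu t = 0 := fun t => by
    refine (lintegral_congr_ae ?_).trans lintegral_zero
    filter_upwards [ae_restrict_mem (hF.measurableSet_slice t)] with x hx
    exact indicator_of_notMem (show (x, t) ∉ F.Mᶜ from fun k => k hx) _
  simp [this]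

theorem sfin_m {Λ : ℝ} (hF : F.AR Λ) (hm : IsStm F m) : SFinite m := by
  have : IsLocallyFiniteMeasure m := ⟨fun p => by
    have ms : MeasurableSet (ball p.1 1 ×ˢ ball p.2 1) := measurableSet_ball.prod measurableSet_ball
    refine ⟨_, prod_mem_nhds (ball_mem_nhds p.1 one_pos) (ball_mem_nhds p.2 one_pos), ?_⟩
    have h := (hm ((ball p.1 1 ×ˢ ball p.2 1).indicator 1) (measurable_one.indicator ms)).2
    rw [lintegral_indicator_one ms] at h
    rw [h]
    refine lt_of_le_of_lt (lintegral_mono (g := (ball p.2 1).indicator fun _ =>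
      ENNReal.ofReal (Λ * 1 ^ 2)) fun t => ?_) ?_
    · by_cases ht : t ∈ ball p.2 1
      · rw [indicator_of_mem ht]
        refine le_trans (lintegral_mono (g := (ball p.1 1).indicator 1) fun x => ?_) ?_
        · by_cases hx : x ∈ ball p.1 1
          · rw [indicator_of_mem hx]; exact indicator_le_self _ _ _
          · rw [indicator_of_notMem fun k => hx k.1]; exact zero_le
        · rw [lintegral_indicator_one measurableSet_ball]; exact hF t _ 1 one_pos
      · have : ∀ x, (ball p.1 1 ×ˢ ball p.2 1).indicator (1 : ST → ℝ≥0∞) (x, t) = 0 :=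
          fun x => indicator_of_notMem (fun k => ht k.2) _
        simp [this]
    · rw [lintegral_indicator measurableSet_ball, setLIntegral_const]
      exact ENNReal.mul_lt_top ENNReal.ofReal_lt_top measure_ball_lt_top⟩
  infer_instance

/-- integrals against `f m` on time strips -/
theorem lint_strip (hF : F.Reg) (hm : IsStm F m) {f k : ST → ℝ} (hf : ContinuousOn f F.M)
    (f0 : ∀ q, 0 ≤ f q) (hk : Measurable fun q => ENNReal.ofReal (k q)) (t₁ t₂ : ℝ) :
    ∫⁻ q in Prod.snd ⁻¹' Ioc t₁ t₂, ENNReal.ofReal (k q) ∂m.withDensity (dn F f) =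
      F.stI (fun q => f q * k q) t₁ t₂ := by
  have ms : MeasurableSet (Prod.snd ⁻¹' Ioc t₁ t₂ : Set ST) := measurable_snd measurableSet_Ioc
  rw [setLIntegral_withDensity_eq_setLIntegral_mul _ (meas_dn hF hf) hk ms, ← lintegral_indicator ms,
    (hm _ (((meas_dn hF hf).mul hk).indicator ms)).2, Mv.stI, setLIntegral_congr Ioo_ae_eq_Ioc,
    ← lintegral_indicator measurableSet_Ioc]
  refine lintegral_congr fun t => ?_
  by_cases ht : t ∈ Ioc t₁ t₂
  · rw [indicator_of_mem ht]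
    refine lintegral_congr_ae ?_
    filter_upwards [ae_restrict_mem (hF.measurableSet_slice t)] with x hx
    rw [indicator_of_mem (show (x, t) ∈ Prod.snd ⁻¹' Ioc t₁ t₂ from ht), Pi.mul_apply, dn,
      indicator_of_mem (show (x, t) ∈ F.M from hx), ENNReal.ofReal_mul (f0 _)]
  · rw [indicator_of_notMem ht]
    refine (lintegral_congr fun x => ?_).trans lintegral_zero
    exact indicator_of_notMem (show (x, t) ∉ Prod.snd ⁻¹' Ioc t₁ t₂ from ht) _

end Crest.Agent.N250.A.Fn

end
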