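import Crest.Agent.N250.A.Stm

/-!
# Row 250, block A (helper69): persistent mass makes the barrier grow on whole spheres
-/

set_option autoImplicit false
set_option linter.unusedSectionVars false
open MeasureTheory Set Filter Topology
open scoped ContDiff InnerProductSpace
open Crest.GeometryTopology.MCF

noncomputable section

namespace Crest.Agent.N250.A

namespace KSph

open Real

theorem ratio {a b S ρ u : ℝ} (hb : 0 < b) (hS : 0 ≤ S) (hab : a = b + S) :
    b⁻¹ * exp (-(ρ - u) ^ 2 / (4 * b)) ≤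
      a⁻¹ * exp (-u ^ 2 / (4 * a)) * exp ((4 * S * a - u ^ 2 * S + 2 * ρ * u * a) / (4 * a * b)) := by
  have ha : 0 < a := by linarith
  have h1 : b⁻¹ ≤ a⁻¹ * exp (S / b) := by
    rw [← div_eq_inv_mul, le_div_iff₀ ha]
    refine le_trans (le_of_eq ?_) (add_one_le_exp _)
    rw [hab]; field_simp; ring
  have h2 : -u ^ 2 / (4 * a) + (4 * S * a - u ^ 2 * S + 2 * ρ * u * a) / (4 * a * b) =
      S / b + (-(ρ - u) ^ 2 + ρ ^ 2) / (4 * b) := by
    have : S = a - b := by linarith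
    rw [this]; field_simp; ring
  rw [mul_assoc, ← exp_add, h2, exp_add, ← mul_assoc]
  gcongr
  linarith [sq_nonneg ρ]

theorem hh_nonneg {r i : ℝ} (h : 0 ≤ r * i) : 0 ≤ min 1 (r * i) - min 1 (r / 2 * i) :=
  sub_nonneg.2 (min_le_min le_rfl (by linarith))

theorem hh_eq {r i : ℝ} (h : r * i ≤ 1) :
    min 1 (r * i) - min 1 (r / 2 * i) = r * i / 2 := by
  rw [min_eq_right h, min_eq_right (by linarith)]; ring

theorem far_real {a b S ρ u r : ℝ} (hr : 0 < r) (hb : 0 < b) (hab : a = b + S)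
    (h1 : (32 * r) ^ 2 ≤ S) (h2 : S ≤ 2 * (32 * r) ^ 2) (h4 : ρ ≤ 2 * (32 * r))
    (hu : 0 ≤ u) (h : 4 * (32 * r) ^ 2 ≤ a ∨ 20 * (32 * r) ≤ u) :
    exp ((4 * S * a - u ^ 2 * S + 2 * ρ * u * a) / (4 * a * b)) ≤
      1 + 128 * exp 64 * (min 1 (r * ((√a + u) / a)) - min 1 (r / 2 * ((√a + u) / a))) := by
  set R := 32 * r with hR
  have hR0 : 0 < R := by positivity
  have hS : 0 < S := lt_of_lt_of_le (by positivity) h1
  have ha : 0 < a := by linarith
  have hi : 0 ≤ r * ((√a + u) / a) := by positivity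
  have key : 4 * S * a + 2 * ρ * u * a ≤ u ^ 2 * S →
      exp ((4 * S * a - u ^ 2 * S + 2 * ρ * u * a) / (4 * a * b)) ≤
      1 + 128 * exp 64 * (min 1 (r * ((√a + u) / a)) - min 1 (r / 2 * ((√a + u) / a))) := fun h => by
    have := mul_nonneg (by positivity : 0 ≤ 128 * exp 64) (hh_nonneg hi)
    have := exp_le_one_iff.2 (div_nonpos_of_nonpos_of_nonneg
      (by linarith : 4 * S * a - u ^ 2 * S + 2 * ρ * u * a ≤ 0) (by positivity : 0 ≤ 4 * a * b))
    linarith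
  have e0 : u ^ 2 * R ^ 2 ≤ u ^ 2 * S := by gcongr
  have e1 : 2 * ρ * u * a ≤ 4 * R * u * a := by
    have : 0 ≤ u * a := by positivity
    nlinarith
  by_cases hA : a < 4 * R ^ 2
  · have hu' := h.resolve_left (not_le.2 hA)
    refine key ?_
    have e2 : 4 * R * u * a ≤ 4 * R * u * (4 * R ^ 2) := by gcongr
    have e3 : 20 * R * (u * R ^ 2) ≤ u * (u * R ^ 2) := by gcongr
    have e4 : (20 * R) ^ 2 * S ≤ u ^ 2 * S := by gcongr
    have e5 : 4 * S * a ≤ 4 * S * (4 * R ^ 2) := by gcongr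
    nlinarith
  push Not at hA
  have hw : 2 * R ≤ √a := le_sqrt_of_sq_le (by linarith)
  have hw2 : √a ^ 2 = a := sq_sqrt ha.le
  by_cases hx : r * ((√a + u) / a) ≤ 1
  · rw [hh_eq hx]
    set x := r * ((√a + u) / a) with hxd
    have e2 : (4 * S * a - u ^ 2 * S + 2 * ρ * u * a) / (4 * a * b) ≤ 64 * x := by
      rw [div_le_iff₀ (by positivity), hxd]
      have e3 : 64 * (r * ((√a + u) / a)) * (4 * a * b) = 8 * R * (√a + u) * b := by
        rw [hR]; field_simp; ring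
      have e4 : 8 * R * (√a + u) * (a / 2) ≤ 8 * R * (√a + u) * b := by gcongr; linarith
      have e5 : 4 * S * a ≤ 4 * (2 * R ^ 2) * a := by gcongr
      have e6 : 4 * R * a * (2 * R) ≤ 4 * R * a * √a := by gcongr
      have e7 : 0 ≤ u ^ 2 * S := by positivity
      rw [e3]
      nlinarith
    have e8 : exp (64 * x) ≤ exp 64 := exp_le_exp.2 (by linarith)
    have e9 : exp (64 * x) * (1 - 64 * x) ≤ 1 := by
      have := mul_le_mul_of_nonneg_left (add_one_le_exp (-(64 * x))) (exp_pos (64 * x)).le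
      rw [← exp_add, add_neg_cancel, exp_zero] at this
      linarith
    have e10 : exp (64 * x) * x ≤ exp 64 * x := by gcongr
    linarith [exp_le_exp.2 e2]
  · refine key ?_
    push Not at hx
    rw [← mul_div_assoc, lt_div_iff₀ ha] at hx
    have e2 : 2 * R * √a ≤ √a * √a := by gcongr
    have e3 : 31 * a ≤ R * u := by nlinarith
    have e4 : 31 * a * (R * u) ≤ R * u * (R * u) := by gcongr
    have e5 : 31 * a * (31 * (4 * R ^ 2)) ≤ R * u * (R * u) := by
      refine le_trans ?_ e4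
      exact mul_le_mul_of_nonneg_left (by linarith) (by positivity)
    have e6 : 8 * a ≤ u ^ 2 := by
      refine le_of_mul_le_mul_right ?_ (by positivity : 0 < R ^ 2)
      have : 0 ≤ a * R ^ 2 := by positivity
      nlinarith
    have e7 : 8 * a * S ≤ u ^ 2 * S := by gcongr
    have e8 : 0 ≤ a * (R * u) := by positivity
    nlinarith

/-- the kernel seen from the origin -/
def g0 (σ : ℝ) (q : ST) : ℝ := gau q.1 (σ - q.2) 0

/-- the weight of one dyadic scale -/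
def hh (σ r : ℝ) (q : ST) : ℝ := min 1 (r * isc σ q) - min 1 (r / 2 * isc σ q)

/-- the maximum of the kernel on a sphere -/
def Ps (σ ρ s : ℝ) (q : ST) : ℝ :=
  (4 * π * (s - q.2 + σ))⁻¹ * exp (-(ρ - ‖q.1‖) ^ 2 / (4 * (s - q.2 + σ)))

/-- the mass at the scale `R` -/
def Near (σ R : ℝ) : Set ST := {q | q.2 < -R ^ 2 ∧ σ - q.2 < 4 * R ^ 2 ∧ ‖q.1‖ < 20 * R}

variable {σ ρ s r R t : ℝ} {q : ST} {ν : Measure ST}

theorem meas_lt (t : ℝ) : MeasurableSet {q : ST | q.2 < t} :=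
  measurableSet_lt measurable_snd measurable_const

theorem meas_Near : MeasurableSet (Near σ R) :=
  (meas_lt _).inter ((measurableSet_lt (measurable_const.sub measurable_snd) measurable_const).inter
    (measurableSet_lt measurable_fst.norm measurable_const))

theorem g0_eq : g0 σ q = (4 * π)⁻¹ * ((σ - q.2)⁻¹ * exp (-‖q.1‖ ^ 2 / (4 * (σ - q.2)))) := by
  rw [g0, gau, zero_sub, norm_neg, mul_inv, mul_assoc]

theorem g0_nonneg (hσ : 0 < σ) (hq : q.2 < 0) : 0 ≤ g0 σ q := by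
  have : 0 < σ - q.2 := by linarith
  rw [g0_eq]; positivity

theorem isc_nonneg (hσ : 0 < σ) (hq : q.2 < 0) : 0 ≤ isc σ q := by
  have : 0 < σ - q.2 := by linarith
  unfold isc; positivity

theorem hh0 (hσ : 0 < σ) (hr : 0 < r) (hq : q.2 < 0) : 0 ≤ hh σ r q :=
  hh_nonneg (mul_nonneg hr.le (isc_nonneg hσ hq))

theorem ker_le {b x : ℝ} (hσ : 0 < σ) (hb : σ ≤ b) (hx : 0 ≤ x) :
    (4 * π * b)⁻¹ * exp (-x / (4 * b)) ≤ (4 * π * σ)⁻¹ := by
  have hb0 : 0 < b := by linarith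
  have : exp (-x / (4 * b)) ≤ 1 :=
    exp_le_one_iff.2 (div_nonpos_of_nonpos_of_nonneg (by linarith) (by positivity))
  calc _ ≤ (4 * π * σ)⁻¹ * 1 := by gcongr
    _ = _ := mul_one _

theorem Ps_nonneg (hσ : 0 < σ) (hq : q.2 < s) : 0 ≤ Ps σ ρ s q := by
  have : 0 < s - q.2 + σ := by linarith
  unfold Ps; positivity

theorem gau_le {y : E} (hσ : 0 < σ) (hq : q.2 < s) (hy : ‖y‖ = ρ) :
    gau q.1 (s - q.2 + σ) y ≤ Ps σ ρ s q := by
  have : 0 < s - q.2 + σ := by linarith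
  have h : (ρ - ‖q.1‖) ^ 2 ≤ ‖y - q.1‖ ^ 2 := by
    rw [← hy]
    exact sq_le_sq.2 ((abs_norm_sub_norm_le y q.1).trans (le_abs_self _))
  unfold gau Ps
  refine mul_le_mul_of_nonneg_left (exp_le_exp.2 ?_) (by positivity)
  exact div_le_div_of_nonneg_right (by linarith) (by positivity)

theorem far (hσ : 0 < σ) (hr : 0 < r) (hs : s ∈ Icc (-(2 * (32 * r) ^ 2)) (-(32 * r) ^ 2))
    (hρ : ρ ∈ Icc (32 * r) (2 * (32 * r))) (hq : q.2 < s) (hN : q ∉ Near σ (32 * r)) :
    Ps σ ρ s q ≤ g0 σ q * (1 + 128 * exp 64 * hh σ r q) := by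
  have hb : 0 < s - q.2 + σ := by linarith
  have hS : 0 ≤ -s := le_trans (by positivity) (le_neg.1 hs.2)
  have ha : 0 < σ - q.2 := by linarith
  have h1 := ratio (ρ := ρ) (u := ‖q.1‖) (a := σ - q.2) hb hS (by ring)
  have h2 := far_real (ρ := ρ) (u := ‖q.1‖) (a := σ - q.2) (S := -s) hr hb (by ring)
    (le_neg.1 hs.2) (neg_le.1 hs.1) hρ.2 (norm_nonneg _)
    (by
      by_contra h
      push Not at h
      exact hN ⟨hq.trans_le hs.2, h.1, h.2⟩)
  rw [g0_eq, Ps, mul_inv, mul_assoc, mul_assoc (4 * π)⁻¹]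
  exact mul_le_mul_of_nonneg_left (h1.trans (mul_le_mul_of_nonneg_left h2 (by positivity)))
    (by positivity)

theorem near (hσ : 0 < σ) (hr : 0 < r) (hq : q ∈ Near σ (32 * r)) :
    1 ≤ 2048 * π * exp 100 * (32 * r) ^ 2 * (g0 σ q * hh σ r q) := by
  obtain ⟨h1, h2, h3⟩ := hq
  set R := 32 * r with hR
  have hR0 : 0 < R := by positivity
  set a := σ - q.2 with had
  have h4 : R ^ 2 ≤ a := by linarith
  have ha : 0 < a := lt_of_lt_of_le (by positivity) h4
  have hw : R ≤ √a := le_sqrt_of_sq_le h4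
  have hw' : √a ≤ 2 * R := sqrt_le_iff.2 ⟨by positivity, by linarith⟩
  have hu := norm_nonneg q.1
  have h5 : r * isc σ q ≤ 1 := by
    rw [isc, ← had, ← mul_div_assoc, div_le_one ha]
    nlinarith
  have h6 : 1 / 64 ≤ r * isc σ q := by
    rw [isc, ← had, ← mul_div_assoc, le_div_iff₀ ha]
    nlinarith [mul_le_mul_of_nonneg_right hw' (sqrt_nonneg a), mul_self_sqrt ha.le,
      mul_nonneg hr.le hu]
  have h7 : (4 * π)⁻¹ * ((4 * R ^ 2)⁻¹ * exp (-100)) ≤ g0 σ q := by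
    rw [g0_eq, ← had]
    gcongr
    rw [le_div_iff₀ (by positivity)]
    nlinarith
  rw [hh, hh_eq h5]
  calc (1 : ℝ) = 2048 * π * exp 100 * R ^ 2 *
        ((4 * π)⁻¹ * ((4 * R ^ 2)⁻¹ * exp (-100)) * (1 / 64 / 2)) := by
        rw [exp_neg]; field_simp; norm_num
    _ ≤ _ := by
      gcongr
      exact le_trans (by positivity) h7

theorem meas_g0 : Measurable (g0 σ) := by unfold g0 gau; fun_prop

theorem meas_isc : Measurable (isc σ) := by unfold isc; fun_prop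

theorem g0_le (hσ : 0 < σ) (hq : q.2 < 0) : g0 σ q ≤ (4 * π * σ)⁻¹ :=
  ker_le hσ (by linarith) (by positivity)

variable [IsFiniteMeasure ν]

theorem int_of {f : ST → ℝ} {A : Set ST} {C : ℝ} (hA : MeasurableSet A) (hf : Measurable f)
    (h : ∀ q ∈ A, 0 ≤ f q ∧ f q ≤ C) : IntegrableOn f A ν :=
  Measure.integrableOn_of_bounded (measure_ne_top _ _) hf.aestronglyMeasurable
    ((ae_restrict_mem hA).mono fun q hq => by
      rw [Real.norm_of_nonneg (h q hq).1]; exact (h q hq).2)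

theorem int_g0 (hσ : 0 < σ) : IntegrableOn (g0 σ) {q | q.2 < 0} ν :=
  int_of (meas_lt 0) meas_g0 fun _ hq => ⟨g0_nonneg hσ hq, g0_le hσ hq⟩

theorem int_min (hσ : 0 < σ) (hr : 0 ≤ r) :
    IntegrableOn (fun q => g0 σ q * min 1 (r * isc σ q)) {q | q.2 < 0} ν :=
  int_of (meas_lt 0) (meas_g0.mul (measurable_const.min (meas_isc.const_mul r))) fun _ hq =>
    ⟨mul_nonneg (g0_nonneg hσ hq) (le_min zero_le_one (mul_nonneg hr (isc_nonneg hσ hq))),
      (mul_le_of_le_one_right (g0_nonneg hσ hq) (min_le_left _ _)).trans (g0_le hσ hq)⟩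

theorem int_hh (hσ : 0 < σ) (hr : 0 < r) :
    IntegrableOn (fun q => g0 σ q * hh σ r q) {q | q.2 < 0} ν := by
  simp only [hh, mul_sub]
  exact (int_min hσ hr.le).sub (int_min hσ (half_pos hr).le)

theorem TT_sub (hσ : 0 < σ) (hr : 0 < r) :
    TT ν σ r - TT ν σ (r / 2) = ∫ q in {q | q.2 < 0}, g0 σ q * hh σ r q ∂ν := by
  simp only [hh, mul_sub]
  exact (integral_sub (int_min hσ hr.le) (int_min hσ (half_pos hr).le)).symm

theorem TT_nonneg (hσ : 0 < σ) (hr : 0 ≤ r) : 0 ≤ TT ν σ r :=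
  setIntegral_nonneg (meas_lt 0) fun _ hq =>
    mul_nonneg (g0_nonneg hσ hq) (le_min zero_le_one (mul_nonneg hr (isc_nonneg hσ hq)))

theorem near_mass (hσ : 0 < σ) (hr : 0 < r) : ν.real (Near σ (32 * r)) ≤
    2048 * π * exp 100 * (32 * r) ^ 2 * (TT ν σ r - TT ν σ (r / 2)) := by
  have hs : Near σ (32 * r) ⊆ {q | q.2 < 0} := fun q hq =>
    lt_of_lt_of_le hq.1 (neg_nonpos.2 (by positivity))
  rw [TT_sub hσ hr, ← integral_const_mul, ← mul_one (ν.real _), ← smul_eq_mul, ← setIntegral_const]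
  refine (setIntegral_mono_on (integrableOn_const (measure_ne_top _ _))
    (((int_hh hσ hr).mono_set hs).const_mul _) meas_Near fun q hq => near hσ hr hq).trans
    (setIntegral_mono_set ((int_hh hσ hr).const_mul _) ((ae_restrict_mem (meas_lt 0)).mono
      fun q hq => ?_) hs.eventuallyLE)
  have := g0_nonneg hσ hq
  have := hh0 hσ hr hq
  positivity

/-- averaging -/
theorem avg {G : ℝ → ST → ℝ} {a b C : ℝ} (hab : a < b) (hG : Measurable (Function.uncurry G))
    (h0 : ∀ t q, 0 ≤ G t q ∧ G t q ≤ C) {H : ST → ℝ} (hH : Integrable H ν)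
    (h : ∀ q, ∫ t in Icc a b, G t q ≤ H q) :
    ∃ t ∈ Icc a b, (b - a) * ∫ q, G t q ∂ν ≤ ∫ q, H q ∂ν := by
  have hi : Integrable (Function.uncurry G) ((volume.restrict (Icc a b)).prod ν) :=
    Integrable.of_bound hG.aestronglyMeasurable C (ae_of_all _ fun z =>
      (Real.norm_of_nonneg (h0 z.1 z.2).1).trans_le (h0 z.1 z.2).2)
  obtain ⟨t, ht, h1⟩ := exists_le_setAverage (μ := volume) (s := Icc a b)
    (by simpa using hab) (by simp) hi.integral_prod_left
  refine ⟨t, ht, ?_⟩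
  rw [setAverage_eq, Real.volume_real_Icc_of_le hab.le, smul_eq_mul,
    le_inv_mul_iff₀ (by linarith)] at h1
  exact h1.trans ((integral_integral_swap hi).trans_le (integral_mono hi.integral_prod_right hH h))

theorem avg_s {c : ℝ} (hσ : 0 < σ) (hσ1 : σ ≤ 1) (hR : 1 ≤ R) (hc : -(4 * R ^ 2) < c) :
    ∫ s in Icc (-(2 * R ^ 2)) (-R ^ 2), (Ioi c).indicator (fun s => (√(s - c + σ))⁻¹) s ≤ 6 * R := by
  have hc' : ∀ s ∈ uIcc c (c + 4 * R ^ 2), 0 < s - c + σ := fun s hs => by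
    rw [uIcc_of_le (by linarith [sq_nonneg R])] at hs
    linarith [hs.1]
  have hk : ContinuousOn (fun s => (√(s - c + σ))⁻¹) (uIcc c (c + 4 * R ^ 2)) :=
    ContinuousOn.inv₀ (by fun_prop) fun s hs => (sqrt_pos.2 (hc' s hs)).ne'
  have h1 : ∫ s in c..c + 4 * R ^ 2, (√(s - c + σ))⁻¹ =
      2 * √(c + 4 * R ^ 2 - c + σ) - 2 * √(c - c + σ) := by
    refine intervalIntegral.integral_eq_sub_of_hasDerivAt (f := fun s => 2 * √(s - c + σ))
      (fun s hs => ?_) hk.intervalIntegrable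
    have := ((((hasDerivAt_id s).sub_const c).add_const σ).sqrt (hc' s hs).ne').const_mul 2
    refine this.congr_deriv ?_
    have := sqrt_pos.2 (hc' s hs)
    simp only [id]
    field_simp
  have h2 : √(c + 4 * R ^ 2 - c + σ) ≤ 3 * R := sqrt_le_iff.2 ⟨by positivity, by nlinarith⟩
  rw [setIntegral_indicator measurableSet_Ioi]
  refine le_trans (setIntegral_mono_set (t := Ioc c (c + 4 * R ^ 2))
    ((intervalIntegrable_iff_integrableOn_Ioc_of_le (by linarith [sq_nonneg R])).1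
      hk.intervalIntegrable) (ae_of_all _ fun s => by positivity)
    (LE.le.eventuallyLE fun s hs => ⟨hs.2, by linarith [hs.1.2, sq_nonneg R]⟩)) ?_
  rw [← intervalIntegral.integral_of_le (by linarith [sq_nonneg R]), h1]
  linarith [sqrt_nonneg (c - c + σ)]

theorem avg_ρ {b u c d : ℝ} (hb : 0 < b) :
    ∫ ρ in Icc c d, (4 * π * b)⁻¹ * exp (-(ρ - u) ^ 2 / (4 * b)) ≤ (√b)⁻¹ := by
  have e : ∀ ρ : ℝ, -(ρ - u) ^ 2 / (4 * b) = -(4 * b)⁻¹ * (ρ - u) ^ 2 := fun ρ => by ring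
  have hi := ((integrable_exp_neg_mul_sq (b := (4 * b)⁻¹) (by positivity)).comp_sub_right u).const_mul
    (4 * π * b)⁻¹
  simp only [e]
  refine (setIntegral_le_integral hi (ae_of_all _ fun ρ => by positivity)).trans ?_
  rw [integral_const_mul, integral_sub_right_eq_self (fun x : ℝ => exp (-(4 * b)⁻¹ * x ^ 2)),
    integral_gaussian, div_inv_eq_mul, show π * (4 * b) = 4 * π * b by ring, ← div_eq_inv_mul,
    sqrt_div_self', one_div]
  gcongr
  nlinarith [pi_gt_three]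

/-- a good sphere and a good time -/
theorem good (hσ : 0 < σ) (hσ1 : σ ≤ 1) (hR : 1 ≤ R) :
    ∃ s ∈ Icc (-(2 * R ^ 2)) (-R ^ 2), ∃ ρ ∈ Icc R (2 * R),
      R ^ 2 * ∫ q in Near σ R ∩ {q | q.2 < s}, Ps σ ρ s q ∂ν ≤ 6 * ν.real (Near σ R) := by
  have hR0 : 0 < R := by linarith
  obtain ⟨s, hs, h1⟩ := avg (ν := ν) (a := -(2 * R ^ 2)) (b := -R ^ 2) (C := (√σ)⁻¹)
    (G := fun s q => (Near σ R ∩ {q | q.2 < s}).indicator (fun q => (√(s - q.2 + σ))⁻¹) q)
    (H := (Near σ R).indicator fun _ => 6 * R) (by nlinarith)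
    (Measurable.indicator (f := fun z : ℝ × ST => (√(z.1 - z.2.2 + σ))⁻¹)
      (s := {z | z.2 ∈ Near σ R ∧ z.2.2 < z.1}) (by fun_prop)
      ((measurable_snd meas_Near).inter (measurableSet_lt measurable_snd.snd measurable_fst)))
    (fun s q => ⟨indicator_nonneg (fun _ _ => by positivity) _,
      indicator_apply_le' (fun h => by
        have : q.2 < s := h.2
        gcongr; linarith) fun _ => by positivity⟩)
    ((integrable_const _).indicator meas_Near) fun q => by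
      by_cases hq : q ∈ Near σ R
      · rw [indicator_of_mem hq]
        refine le_trans (le_of_eq ?_) (avg_s (c := q.2) hσ hσ1 hR (by linarith [hq.2.1]))
        congr 1
        funext s
        simp [indicator, hq]
      · simp [indicator, hq]
  have hm : MeasurableSet (Near σ R ∩ {q | q.2 < s}) := meas_Near.inter (meas_lt s)
  obtain ⟨ρ, hρ, h2⟩ := avg (ν := ν) (a := R) (b := 2 * R) (C := (4 * π * σ)⁻¹)
    (G := fun ρ q => (Near σ R ∩ {q | q.2 < s}).indicator (Ps σ ρ s) q)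
    (H := (Near σ R ∩ {q | q.2 < s}).indicator fun q => (√(s - q.2 + σ))⁻¹) (by linarith)
    (Measurable.indicator (f := fun z : ℝ × ST => Ps σ z.1 s z.2)
      (s := Prod.snd ⁻¹' (Near σ R ∩ {q | q.2 < s})) (by unfold Ps; fun_prop) (measurable_snd hm))
    (fun ρ q => ⟨indicator_nonneg (fun _ h => Ps_nonneg hσ h.2) _,
      indicator_apply_le' (fun h => ker_le hσ (by linarith [show q.2 < s from h.2]) (sq_nonneg _))
        fun _ => by positivity⟩)
    ((integrable_indicator_iff hm).2 (int_of (C := (√σ)⁻¹) hm (by fun_prop) fun q h =>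
      ⟨by positivity, by
        have : q.2 < s := h.2
        gcongr; linarith⟩)) fun q => by
      by_cases hq : q ∈ Near σ R ∩ {q | q.2 < s}
      · simp only [indicator_of_mem hq]
        exact avg_ρ (by linarith [show q.2 < s from hq.2])
      · simp only [indicator_of_notMem hq, integral_zero, le_refl]
  refine ⟨s, hs, ρ, hρ, ?_⟩
  rw [integral_indicator hm] at h2
  rw [integral_indicator meas_Near, setIntegral_const, smul_eq_mul] at h1
  have h3 := mul_le_mul_of_nonneg_left h2 (sq_nonneg R)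
  refine le_of_mul_le_mul_left ?_ hR0
  nlinarith

/-- the loss -/
theorem loss (hσ : 0 < σ) (hσ1 : σ ≤ 1) (hr : 1 ≤ r) :
    ∃ s ∈ Icc (-(2 * (32 * r) ^ 2)) (-(32 * r) ^ 2), ∃ ρ ∈ Icc (32 * r) (2 * (32 * r)),
      ∀ y : E, ‖y‖ = ρ → pot ν σ (y, s) ≤ (∫ q in {q | q.2 < -(32 * r) ^ 2}, g0 σ q ∂ν) +
        (128 * exp 64 + 6 * (2048 * π * exp 100)) * (TT ν σ r - TT ν σ (r / 2)) := by
  have hr0 : 0 < r := by linarith
  obtain ⟨s, hs, ρ, hρ, h⟩ := good (ν := ν) (R := 32 * r) hσ hσ1 (by linarith)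
  refine ⟨s, hs, ρ, hρ, fun y hy => ?_⟩
  have hs0 : {q : ST | q.2 < s} ⊆ {q | q.2 < -(32 * r) ^ 2} := fun q hq => lt_of_lt_of_le hq hs.2
  have hs1 : {q : ST | q.2 < -(32 * r) ^ 2} ⊆ {q | q.2 < 0} := fun q hq =>
    lt_of_lt_of_le hq (neg_nonpos.2 (sq_nonneg (32 * r)))
  have iP : IntegrableOn (Ps σ ρ s) {q | q.2 < s} ν :=
    int_of (meas_lt s) (by unfold Ps; fun_prop) fun q hq =>
      ⟨Ps_nonneg hσ hq, ker_le hσ (by linarith [show q.2 < s from hq]) (sq_nonneg _)⟩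
  have i1 := (int_g0 (ν := ν) hσ).mono_set (hs0.trans hs1)
  have i2 := ((int_hh (ν := ν) hσ hr0).mono_set (hs0.trans hs1)).const_mul (128 * exp 64)
  have i3 : Integrable ((Near σ (32 * r)).indicator (Ps σ ρ s)) (ν.restrict {q | q.2 < s}) :=
    Integrable.indicator iP meas_Near
  have h1 : pot ν σ (y, s) ≤ ∫ q in {q | q.2 < s}, (g0 σ q + 128 * exp 64 * (g0 σ q * hh σ r q) +
      (Near σ (32 * r)).indicator (Ps σ ρ s) q) ∂ν := by
    change ∫ q in {q : ST | q.2 < s}, gau q.1 (s - q.2 + σ) y ∂ν ≤ _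
    refine integral_mono_of_nonneg ?_ ((i1.add i2).add i3) ?_
    · filter_upwards [ae_restrict_mem (meas_lt s)] with q hq
      have : 0 < s - q.2 + σ := by linarith [show q.2 < s from hq]
      change 0 ≤ gau _ _ _
      unfold gau
      positivity
    · filter_upwards [ae_restrict_mem (meas_lt s)] with q hq
      refine (gau_le hσ hq hy).trans ?_
      have a1 := g0_nonneg hσ (hs1 (hs0 hq))
      have a2 := hh0 hσ hr0 (hs1 (hs0 hq))
      by_cases hN : q ∈ Near σ (32 * r)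
      · simp only [indicator_of_mem hN]
        have : 0 ≤ 128 * exp 64 * (g0 σ q * hh σ r q) := by positivity
        linarith
      · simp only [indicator_of_notMem hN]
        linarith [far hσ hr0 hs hρ hq hN]
  rw [integral_add (f := fun q => g0 σ q + 128 * exp 64 * (g0 σ q * hh σ r q)) (i1.add i2) i3,
    integral_add i1 i2, integral_const_mul,
    setIntegral_indicator meas_Near, inter_comm] at h1
  have h2 := setIntegral_mono_set ((int_g0 (ν := ν) hσ).mono_set hs1)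
    ((ae_restrict_mem (meas_lt _)).mono fun q hq => g0_nonneg hσ (hs1 hq)) hs0.eventuallyLE
  have h3 := setIntegral_mono_set (int_hh (ν := ν) hσ hr0)
    ((ae_restrict_mem (meas_lt _)).mono fun q hq => mul_nonneg (g0_nonneg hσ hq) (hh0 hσ hr0 hq))
    (hs0.trans hs1).eventuallyLE
  rw [← TT_sub hσ hr0] at h3
  have h4 := near_mass (ν := ν) hσ hr0
  have h5 : ∫ q in Near σ (32 * r) ∩ {q | q.2 < s}, Ps σ ρ s q ∂ν ≤
      6 * (2048 * π * exp 100) * (TT ν σ r - TT ν σ (r / 2)) := by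
    refine le_of_mul_le_mul_left ?_ (by positivity : 0 < (32 * r) ^ 2)
    linarith
  have h6 := mul_le_mul_of_nonneg_left h3 (by positivity : 0 ≤ 128 * exp 64)
  linarith

/-- the gain -/
theorem gain {γ D : ℝ} (hσ : 0 < σ) (hσ1 : σ ≤ 1) (m : ℕ)
    (h : ∀ t₁ t₂, -(4 : ℝ) ^ m ≤ t₁ → t₁ ≤ t₂ → t₂ ≤ -1 →
      ENNReal.ofReal (γ * (t₂ - t₁)) ≤ ν (Metric.ball 0 D ×ˢ Ioo t₁ t₂)) :
    (∫ q in {q | q.2 < -(4 : ℝ) ^ m}, g0 σ q ∂ν) + m * (3 * γ * exp (-D ^ 2 / 4) / (20 * π)) ≤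
      ∫ q in {q | q.2 < 0}, g0 σ q ∂ν := by
  induction m with
  | zero =>
    rw [Nat.cast_zero, zero_mul, add_zero]
    exact setIntegral_mono_set (int_g0 hσ)
      ((ae_restrict_mem (meas_lt _)).mono fun q hq => g0_nonneg hσ hq)
      (LE.le.eventuallyLE fun q (hq : q.2 < _) => show q.2 < 0 by
        rw [pow_zero] at hq; linarith)
  | succ m ih =>
    have h4 : (1 : ℝ) ≤ 4 ^ m := one_le_pow₀ (by norm_num)
    rw [pow_succ] at h ⊢
    refine le_trans ?_ (ih fun t₁ t₂ h1 => h t₁ t₂ (by linarith))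
    set T : ℝ := 4 ^ m
    set A : Set ST := Metric.ball 0 D ×ˢ Ioo (-(T * 4)) (-T) with hA
    have hAm : MeasurableSet A := measurableSet_ball.prod measurableSet_Ioo
    have hs : {q : ST | q.2 < -T} ⊆ {q | q.2 < 0} := fun q (hq : q.2 < _) =>
      show q.2 < 0 by linarith
    have hu : {q : ST | q.2 < -(T * 4)} ∪ A ⊆ {q | q.2 < -T} := by
      rintro q (hq | hq)
      · exact lt_trans (show q.2 < -(T * 4) from hq) (by linarith)
      · exact hq.2.2
    have iT := (int_g0 (ν := ν) hσ).mono_set hs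
    have iA := iT.mono_set (subset_union_right.trans hu)
    have h1 := setIntegral_mono_set iT
      ((ae_restrict_mem (meas_lt _)).mono fun q hq => g0_nonneg hσ (hs hq)) hu.eventuallyLE
    have hd : Disjoint {q : ST | q.2 < -(T * 4)} A :=
      disjoint_left.2 fun q hq hq' => lt_asymm (show q.2 < -(T * 4) from hq) hq'.2.1
    rw [setIntegral_union hd hAm (iT.mono_set (subset_union_left.trans hu)) iA] at h1
    have h2 : γ * (-T - -(T * 4)) ≤ ν.real A :=
      (ENNReal.ofReal_le_iff_le_toReal (measure_ne_top _ _)).1 (h _ _ le_rfl (by linarith)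
        (by linarith))
    have h3 : ∫ q in A, (4 * π)⁻¹ * ((5 * T)⁻¹ * exp (-D ^ 2 / 4)) ∂ν ≤ ∫ q in A, g0 σ q ∂ν := by
      refine setIntegral_mono_on (integrableOn_const (measure_ne_top _ _)) iA hAm fun q hq => ?_
      have a1 : ‖q.1‖ < D := mem_ball_zero_iff.1 hq.1
      have a2 : 1 ≤ σ - q.2 := by linarith [hq.2.2]
      have a3 : σ - q.2 ≤ 5 * T := by linarith [hq.2.1]
      have a4 : ‖q.1‖ ^ 2 ≤ D ^ 2 := by gcongr
      rw [g0_eq]
      gcongr (4 * π)⁻¹ * (?_ * exp ?_)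
      · gcongr
      · rw [le_div_iff₀ (by positivity)]
        nlinarith [sq_nonneg D]
    rw [setIntegral_const, smul_eq_mul] at h3
    have h5 := mul_le_mul_of_nonneg_right h2
      (by positivity : 0 ≤ (4 * π)⁻¹ * ((5 * T)⁻¹ * exp (-D ^ 2 / 4)))
    have h6 : γ * (-T - -(T * 4)) * ((4 * π)⁻¹ * ((5 * T)⁻¹ * exp (-D ^ 2 / 4))) =
        3 * γ * exp (-D ^ 2 / 4) / (20 * π) := by field_simp; ring
    push_cast
    linarith

theorem pigeon {u : ℕ → ℝ} {N : ℕ} {c : ℝ} (hN : 0 < N) (h : u (N + N) - u N ≤ N * c) :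
    ∃ k, N ≤ k ∧ k < N + N ∧ u (k + 1) - u k ≤ c := by
  by_contra h'
  push Not at h'
  have h1 := Finset.sum_lt_sum_of_nonempty (s := Finset.range N) (by simpa using hN.ne')
    (f := fun _ => c) (g := fun i => u (N + (i + 1)) - u (N + i))
    fun i hi => h' (N + i) (by omega) (by have := Finset.mem_range.1 hi; omega)
  rw [Finset.sum_range_sub (fun i => u (N + i))] at h1
  simp only [Finset.sum_const, Finset.card_range, nsmul_eq_mul, add_zero] at h1
  linarith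

end KSph

open KSph Real in
theorem kSphS_holds : KSphS := by
  intro Λ₀ γ D hγ _
  set β := 3 * γ * exp (-D ^ 2 / 4) / (20 * π) with hβ
  set C := 128 * exp 64 + 6 * (2048 * π * exp 100) with hC
  have hβ0 : 0 < β := by positivity
  have hC0 : 0 < C := by positivity
  refine ⟨exp (-β - C * (3 * |Λ₀|) - 2), β, exp_pos _, hβ0, fun ρ₁ => ?_⟩
  obtain ⟨n, hn⟩ := pow_unbounded_of_one_lt ρ₁ (one_lt_two (α := ℝ))
  set N := n + 1 with hN
  refine ⟨2 ^ (N + N + 7), N + N, one_le_pow₀ one_le_two, fun ν _ σ hσ hσ1 h1 h2 => ?_⟩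
  obtain ⟨k, hk1, hk2, hk⟩ := pigeon (u := fun k => TT ν σ (2 ^ k)) (N := N) (c := 3 * |Λ₀|)
    (by omega) (by
      have a1 := h1 (N + N) le_rfl
      have a2 := TT_nonneg (ν := ν) (r := 2 ^ N) hσ (by positivity)
      have a3 : (1 : ℝ) ≤ N := by exact_mod_cast (by omega : 1 ≤ N)
      push_cast at a1
      nlinarith [le_abs_self Λ₀, abs_nonneg Λ₀])
  obtain ⟨s, hs, ρ, hρ, h3⟩ := loss (ν := ν) (r := 2 ^ (k + 1)) hσ hσ1 (one_le_pow₀ one_le_two)
  have e1 : (32 : ℝ) * 2 ^ (k + 1) = 2 ^ (k + 6) := by ring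
  have e2 : ((2 : ℝ) ^ (k + 6)) ^ 2 = 4 ^ (k + 6) := by
    rw [← pow_mul, mul_comm, pow_mul]; norm_num
  have e3 : (2 : ℝ) ^ (k + 1) / 2 = 2 ^ k := by ring
  have e4 : (2 : ℝ) * 2 ^ (k + 6) ≤ 2 ^ (N + N + 7) := by
    rw [← pow_succ']
    exact pow_le_pow_right₀ one_le_two (by omega)
  have e5 : (1 : ℝ) ≤ 2 ^ (k + 6) := one_le_pow₀ one_le_two
  have e6 : ((2 : ℝ) * 2 ^ (k + 6)) ^ 2 ≤ (2 ^ (N + N + 7)) ^ 2 := by gcongr
  have e7 : (2 : ℝ) ^ n ≤ 2 ^ (k + 6) := pow_le_pow_right₀ one_le_two (by omega)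
  rw [e1] at hs hρ h3
  rw [e3, e2] at h3
  have h4 := gain (ν := ν) (γ := γ) (D := D) hσ hσ1 (k + 6) fun t₁ t₂ a => h2 t₁ t₂ (by
    rw [← e2] at a
    nlinarith)
  refine ⟨ρ, ⟨by linarith [hρ.1], hρ.2.trans e4⟩, s, ⟨by nlinarith [hs.1], by nlinarith [hs.2]⟩,
    fun y hy => ?_⟩
  have h5 : pot ν σ 0 = ∫ q in {q | q.2 < 0}, g0 σ q ∂ν := by
    simp only [pot, g0, Prod.snd_zero, Prod.fst_zero, zero_sub, neg_add_eq_sub]
  have hρ0 : 0 < ρ := by linarith [hρ.1]
  have h6 : log ρ ≤ (k + 7 : ℕ) := by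
    have a1 : log ρ ≤ log (2 ^ (k + 7)) := log_le_log hρ0 (hρ.2.trans_eq (by ring))
    rw [log_pow] at a1
    have a2 : log 2 ≤ 1 := by linarith [log_le_sub_one_of_pos (two_pos (α := ℝ))]
    exact a1.trans (mul_le_of_le_one_right (by positivity) a2)
  rw [rad, rpow_def_of_pos hρ0, ← exp_add, exp_le_exp, h5]
  have h7 := mul_le_mul_of_nonneg_left hk hC0.le
  have h8 := mul_le_mul_of_nonneg_right h6 hβ0.le
  have h9 := h3 y hy
  push_cast at h4 h8
  rw [← hβ] at h4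
  linarith

end Crest.Agent.N250.A

end
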