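import Crest.Agent.N250.A.Stm
import Crest.Agent.N250.MP.Avoid

/-!
# Row 250, block A: nondegenerate critical pairs persist (`PersS`, helper61)
-/

set_option autoImplicit false
set_option maxHeartbeats 400000
open MeasureTheory Set Filter Topology Metric
open scoped ContDiff InnerProductSpace
open Crest.GeometryTopology.MCF

noncomputable section

namespace Crest.Agent.N250.A

namespace Pers

theorem two_le : (2 : WithTop ℕ∞) ≤ ∞ := WithTop.coe_le_coe.2 (le_top : (2 : ℕ∞) ≤ ⊤)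

/-- second order Taylor expansion -/
theorem taylor2 {X : Type} [NormedAddCommGroup X] [NormedSpace ℝ X] {g : X → ℝ} {p : X}
    (hg : ContDiffAt ℝ 2 g p) {ε : ℝ} (hε : 0 < ε) : ∀ᶠ w in 𝓝 (0 : X),
    |g (p + w) - g p - fderiv ℝ g p w - fderiv ℝ (fderiv ℝ g) p w w / 2| ≤ ε * ‖w‖ ^ 2 := by
  have h1 : HasFDerivAt (fderiv ℝ g) (fderiv ℝ (fderiv ℝ g) p) p :=
    ((hg.fderiv_right (m := 1) (by norm_num)).differentiableAt one_ne_zero).hasFDerivAt
  have h2 : ∀ᶠ q in 𝓝 p, DifferentiableAt ℝ g q :=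
    (hg.eventually (by simp)).mono fun q hq => hq.differentiableAt (by simp)
  obtain ⟨r, hr, h3⟩ := Metric.eventually_nhds_iff.1 ((h1.isLittleO.bound hε).and h2)
  filter_upwards [ball_mem_nhds 0 hr] with w hw
  have hd : ∀ θ ∈ Icc (0 : ℝ) 1, dist (p + θ • w) p < r := fun θ hθ => by
    rw [dist_eq_norm, add_sub_cancel_left, norm_smul, Real.norm_of_nonneg hθ.1]
    exact (mul_le_of_le_one_left (norm_nonneg _) hθ.2).trans_lt (mem_ball_zero_iff.1 hw)
  have h4 := norm_image_sub_le_of_norm_deriv_le_segment_01'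
    (f := fun θ : ℝ => g (p + θ • w) - θ * fderiv ℝ g p w -
      θ ^ 2 * (fderiv ℝ (fderiv ℝ g) p w w / 2))
    (f' := fun θ => (fderiv ℝ g (p + θ • w) - fderiv ℝ g p -
      fderiv ℝ (fderiv ℝ g) p (p + θ • w - p)) w) (C := ε * ‖w‖ ^ 2) (fun θ hθ => ?_) fun θ hθ => ?_
  · simp only [one_smul, one_mul, one_pow, zero_smul, add_zero, zero_mul, sub_zero,
      Real.norm_eq_abs, ne_eq, OfNat.ofNat_ne_zero, not_false_eq_true, zero_pow] at h4
    rwa [sub_right_comm _ (_ / 2), sub_right_comm _ (fderiv ℝ g p w)] at h4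
  · have := (((h3 (hd θ hθ)).2.hasFDerivAt.comp_hasDerivAt θ (MP.line_deriv p w θ)).sub
      ((hasDerivAt_id θ).mul_const (fderiv ℝ g p w))).sub
      ((hasDerivAt_pow 2 θ).mul_const (fderiv ℝ (fderiv ℝ g) p w w / 2))
    refine (this.congr_deriv ?_).hasDerivWithinAt
    simp
    ring
  · refine (ContinuousLinearMap.le_opNorm _ _).trans ?_
    have h5 := (h3 (hd θ ⟨hθ.1, hθ.2.le⟩)).1
    have h6 : ‖p + θ • w - p‖ ≤ ‖w‖ := by
      rw [add_sub_cancel_left, norm_smul, Real.norm_of_nonneg hθ.1]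
      exact mul_le_of_le_one_left (norm_nonneg _) hθ.2.le
    rw [sq, ← mul_assoc]
    exact mul_le_mul_of_nonneg_right (h5.trans (mul_le_mul_of_nonneg_left h6 hε.le)) (norm_nonneg _)

variable {F : Mv} {W : Set ST} {φ : ST → ℝ} {p : ST}

/-- the tangential Hessian of a defining function -/
theorem hess_le (hF : F.Reg) (h : F.Loc W φ) (hW : p ∈ W) (hp : p ∈ F.M) {u : E}
    (hu : ⟪F.n p, u⟫_ℝ = 0) : |fderiv ℝ (fderiv ℝ φ) p (u, 0) (u, 0)| ≤
      ‖gradX φ p.1 p.2‖ * √(F.A2 p) * ‖u‖ ^ 2 := by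
  obtain ⟨S, -, hS⟩ := MP.DD_amb hF hp
  have h0 : ∀ b, F.D b (fun _ => 0) = fun _ => 0 := fun b => funext fun q => by
    show fderivWithin ℝ (fun _ : ST => (0 : ℝ)) F.M q _ = 0
    rw [fderivWithin_fun_const]
    rfl
  have h1 := hS (fun _ => 0) φ ((h.sm.contDiffAt (h.isOpen.mem_nhds hW)).of_le two_le) (by
    filter_upwards [self_mem_nhdsWithin, mem_nhdsWithin_of_mem_nhds (h.isOpen.mem_nhds hW)]
      with q hq hq'
    exact ((h.mem q hq').1 hq).symm)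
  simp only [h0] at h1
  have h2 : fderiv ℝ φ p (F.n p, 0) = ‖gradX φ p.1 p.2‖ := by
    rw [MP.loc_fd h hW hp, MP.inner_nn hF hp]; simp
  have h3 : ((u, 0) : ST) = ∑ a, u a • ((F.PL p (ee a), 0) : ST) := by
    have := MP.PL_sum (F := F) p fun a => u a
    rw [MP.sum_ee, Mv.PL, hu, zero_smul, sub_zero] at this
    refine Prod.ext ?_ ?_
    · simpa [Prod.fst_sum] using this
    · simp [Prod.snd_sum]
  have h4 : ∑ b, F.n p b * u b = 0 := by
    simpa [PiLp.inner_apply, mul_comm] using hu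
  have h5 : fderiv ℝ (fderiv ℝ φ) p (u, 0) (u, 0) =
      ‖gradX φ p.1 p.2‖ * ∑ ab : Fin 3 × Fin 3, F.A ab.1 ab.2 p * (u ab.1 * u ab.2) := by
    have e : ∀ a b, fderiv ℝ (fderiv ℝ φ) p (F.PL p (ee a), 0) (F.PL p (ee b), 0) =
        F.A a b p * ‖gradX φ p.1 p.2‖ + F.n p b * fderiv ℝ φ p (S (F.PL p (ee a)), 0) :=
      fun a b => by rw [← h2]; linarith [h1 a b]
    rw [h3]
    simp only [map_sum, map_smul, sum_apply, smul_apply, e, smul_eq_mul]
    simp only [Fintype.sum_prod_type, Fin.sum_univ_three] at h4 ⊢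
    linear_combination (u 0 * fderiv ℝ φ p (S (F.PL p (ee 0)), 0) +
      u 1 * fderiv ℝ φ p (S (F.PL p (ee 1)), 0) + u 2 * fderiv ℝ φ p (S (F.PL p (ee 2)), 0)) * h4
  have h6 := Finset.sum_mul_sq_le_sq_mul_sq Finset.univ
    (fun ab : Fin 3 × Fin 3 => F.A ab.1 ab.2 p) fun ab => u ab.1 * u ab.2
  have h7 : ∑ ab : Fin 3 × Fin 3, F.A ab.1 ab.2 p ^ 2 = F.A2 p := by
    simp [Mv.A2, Fintype.sum_prod_type, sq]
  have h8 : ∑ ab : Fin 3 × Fin 3, (u ab.1 * u ab.2) ^ 2 = (‖u‖ ^ 2) ^ 2 := by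
    rw [EuclideanSpace.real_norm_sq_eq]
    simp only [Fintype.sum_prod_type, Fin.sum_univ_three]
    ring
  rw [h7, h8] at h6
  rw [h5, abs_mul, abs_norm, mul_assoc]
  refine mul_le_mul_of_nonneg_left ((Real.abs_le_sqrt h6).trans (le_of_eq ?_)) (norm_nonneg _)
  rw [Real.sqrt_mul' _ (sq_nonneg _), Real.sqrt_sq (sq_nonneg _)]

/-- the sharp height estimate -/
theorem height (hF : F.Reg) (hp : p ∈ F.M) {κ : ℝ} (hκ : √(F.A2 p) < κ) :
    ∀ᶠ w in 𝓝 (0 : E), (p.1 + w, p.2) ∈ F.M → 2 * |⟪F.n p, w⟫_ℝ| ≤ κ * ‖w‖ ^ 2 := by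
  obtain ⟨W, φ, hW, h⟩ := hF p hp
  set g := ‖gradX φ p.1 p.2‖ with hg
  have g0 : 0 < g := norm_pos_iff.2 (h.ne p hW)
  set B := fderiv ℝ (fderiv ℝ φ) p with hB
  set ε := g * (κ - √(F.A2 p)) / 4 with hε
  have ε0 : 0 < ε := by have := sub_pos.2 hκ; positivity
  have hc : Tendsto (fun w : E => ((w, 0) : ST)) (𝓝 0) (𝓝 0) :=
    (by fun_prop : Continuous fun w : E => ((w, 0) : ST)).tendsto' 0 0 rfl
  have hc' : Tendsto (fun w : E => p + ((w, 0) : ST)) (𝓝 0) (𝓝 p) := by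
    simpa using hc.const_add p
  have hs : Tendsto (fun w : E => 3 * ‖B‖ * ‖w‖ * (‖B‖ / 2 + ε)) (𝓝 0) (𝓝 0) :=
    (by fun_prop : Continuous fun w : E => 3 * ‖B‖ * ‖w‖ * (‖B‖ / 2 + ε)).tendsto' 0 0 (by simp)
  filter_upwards [hc (taylor2 ((h.sm.contDiffAt (h.isOpen.mem_nhds hW)).of_le two_le) ε0),
    hc' (h.isOpen.mem_nhds hW), hs.eventually_lt_const (mul_pos ε0 g0)] with w h1 h2 h3 hw
  have e : p + ((w, 0) : ST) = (p.1 + w, p.2) := Prod.ext rfl (add_zero _)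
  have nw : ∀ v : E, ‖((v, 0) : ST)‖ = ‖v‖ := fun v => by simp
  simp only [mem_preimage, mem_ofPred_eq, e] at h1 h2
  rw [(h.mem _ h2).1 hw, (h.mem _ hW).1 hp, MP.loc_fd h hW hp, nw, ← hg, ← hB] at h1
  simp only [mul_zero, sub_zero, zero_sub] at h1
  set c := ⟪F.n p, w⟫_ℝ with hcw
  have n1 := MP.norm_n hF hp
  have bB : ∀ a b : E, |B (a, 0) (b, 0)| ≤ ‖B‖ * ‖a‖ * ‖b‖ := fun a b => by
    simpa [nw] using B.le_opNorm₂ (a, 0) (b, 0)
  have cw : |c| ≤ ‖w‖ := by simpa [n1] using abs_real_inner_le_norm (F.n p) w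
  have u0 := MP.inner_PL hF hp w
  have u1 : ‖F.PL p w‖ ^ 2 ≤ ‖w‖ ^ 2 := by
    rw [Mv.PL, norm_sub_sq_real, real_inner_smul_right, norm_smul, n1, real_inner_comm (F.n p) w,
      ← hcw]
    simp only [Real.norm_eq_abs, mul_one, sq_abs]
    nlinarith [sq_nonneg c]
  have u2 : ‖F.PL p w‖ ≤ ‖w‖ := (pow_le_pow_iff_left₀ (norm_nonneg _) (norm_nonneg _) two_ne_zero).1 u1
  have e2 : ((w, 0) : ST) = (F.PL p w, 0) + c • (F.n p, 0) := by
    simp [Mv.PL, hcw]
  have e3 : B (w, 0) (w, 0) = B (F.PL p w, 0) (F.PL p w, 0) +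
      c * (B (F.PL p w, 0) (F.n p, 0) + B (F.n p, 0) (w, 0)) := by
    conv_lhs => rw [e2, map_add B, add_apply, ← e2]
    conv_lhs => enter [1]; rw [e2]
    simp only [map_add, map_smul, smul_apply, smul_eq_mul]
    ring
  have k1 := hess_le hF h hW hp u0
  rw [← hg, ← hB] at k1
  have k2 := bB (F.PL p w) (F.n p)
  have k3 := bB (F.n p) w
  have k4 := bB w w
  rw [n1, mul_one] at k2 k3
  have B0 := norm_nonneg B
  have w0 := norm_nonneg w
  have k5 : g * |c| ≤ (‖B‖ / 2 + ε) * ‖w‖ ^ 2 := by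
    rw [← abs_of_pos g0, ← abs_mul, abs_le]
    constructor <;> nlinarith [abs_le.1 h1, abs_le.1 k4]
  have k6 : |c * (B (F.PL p w, 0) (F.n p, 0) + B (F.n p, 0) (w, 0))| ≤ |c| * (3 * ‖B‖ * ‖w‖) := by
    rw [abs_mul]
    refine mul_le_mul_of_nonneg_left ((abs_add_le _ _).trans ?_) (abs_nonneg _)
    nlinarith [mul_le_mul_of_nonneg_left u2 B0, mul_nonneg B0 w0]
  have k7 : |c| * (3 * ‖B‖ * ‖w‖) ≤ ε * ‖w‖ ^ 2 := by
    refine le_of_mul_le_mul_left ?_ g0
    nlinarith [mul_le_mul_of_nonneg_right k5 (show 0 ≤ 3 * ‖B‖ * ‖w‖ by positivity),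
      mul_le_mul_of_nonneg_right h3.le (sq_nonneg ‖w‖)]
  have k8 := mul_le_mul_of_nonneg_left u1 (mul_nonneg g0.le (Real.sqrt_nonneg (F.A2 p)))
  have k9 : g * (2 * |c|) ≤ g * (κ * ‖w‖ ^ 2) := by
    have k10 : |g * c| ≤ (g * √(F.A2 p) / 2 + 2 * ε) * ‖w‖ ^ 2 := by
      rw [e3] at h1
      have := mul_nonneg ε0.le (sq_nonneg ‖w‖)
      rw [abs_le]
      constructor <;> linarith [abs_le.1 h1, abs_le.1 k1, abs_le.1 (k6.trans k7)]
    rw [abs_mul, abs_of_pos g0, hε] at k10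
    linarith
  exact le_of_mul_le_mul_left k9 g0

/-- local minima of the distance are critical -/
theorem crit_of_min (hF : F.Reg) (hp : p ∈ F.M) (x : E)
    (h : ∀ᶠ z in 𝓝 p.1, (z, p.2) ∈ F.M → dist x p.1 ≤ dist x z) : F.PL p (x - p.1) = 0 := by
  have hs : ContDiff ℝ 2 fun q : ST => -‖q.1 - x‖ ^ 2 :=
    ((contDiff_fst.sub contDiff_const).norm_sq ℝ).neg
  have h1 := (MP.max_slice hF hp hs.contDiffAt.contDiffWithinAt (by
    filter_upwards [self_mem_nhdsWithin,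
      mem_nhdsWithin_of_mem_nhds (continuous_fst.continuousAt.eventually h)] with q hq hq'
    have h2 := hq' (by rw [← hq.2]; exact hq.1)
    rw [dist_comm, dist_eq_norm, dist_comm, dist_eq_norm] at h2
    exact neg_le_neg (pow_le_pow_left₀ (norm_nonneg _) h2 2))).1
  ext a
  have h2 := h1 a
  have h3 := ((hasFDerivAt_fst (𝕜 := ℝ) (p := p)).sub_const x).norm_sq.fun_neg
  rw [MP.D_eq hF hp h3.differentiableAt EventuallyEq.rfl, h3.fderiv] at h2
  simp [Mv.PL, inner_sub_right, EuclideanSpace.inner_single_right,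
    real_inner_smul_right, real_inner_comm] at h2 ⊢
  linarith

end Pers

open Pers in
theorem persS_holds : PersS := by
  intro F x y t hF hp hxy hc hA
  have d0 : 0 < dist x y := dist_pos.2 hxy
  have h1 : √(F.A2 (y, t)) < (dist x y)⁻¹ := by
    rw [Real.sqrt_lt' (inv_pos.2 d0), inv_pow, ← one_div, lt_div_iff₀ (by positivity)]
    exact hA
  obtain ⟨κ, h2, h3⟩ := exists_between h1
  obtain ⟨W, φ, hW, h⟩ := hF _ hp
  obtain ⟨ε, ε0, hε⟩ := Metric.isOpen_iff.1 h.isOpen _ hW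
  obtain ⟨δ, δ0, hδ⟩ := Metric.eventually_nhds_iff.1 (height hF hp h2)
  obtain ⟨r, r0, hr⟩ := exists_between (lt_min ε0 (lt_min δ0 d0))
  simp only [lt_min_iff] at hr
  have hin : ∀ z s, dist z y ≤ r → dist s t < ε → (z, s) ∈ W := fun z s hz hs =>
    hε (by rw [mem_ball, Prod.dist_eq]; exact max_lt (hz.trans_lt hr.1) hs)
  have st : ∀ z, (z, t) ∈ F.M → dist z y = r → dist x y < dist x z := fun z hz hd => by
    have h4 := hδ (y := z - y) (by rw [dist_zero_right, ← dist_eq_norm, hd]; exact hr.2.1)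
      (by simpa using hz)
    have h5 : x - y = ⟪F.n (y, t), x - y⟫_ℝ • F.n (y, t) := sub_eq_zero.1 hc
    have h6 : |⟪F.n (y, t), x - y⟫_ℝ| = dist x y := by
      rw [dist_eq_norm, h5, norm_smul, MP.norm_n hF hp, mul_one, ← h5, Real.norm_eq_abs]
    have h7 : |⟪x - y, z - y⟫_ℝ| = dist x y * |⟪F.n (y, t), z - y⟫_ℝ| := by
      rw [h5, real_inner_smul_left, abs_mul, h6]
    have h8 := norm_sub_sq_real (x - y) (z - y)
    rw [sub_sub_sub_cancel_right, ← dist_eq_norm, ← dist_eq_norm, ← dist_eq_norm, hd] at h8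
    rw [← dist_eq_norm, hd] at h4
    have h9 : dist x y * κ < 1 := by rwa [← one_div, lt_div_iff₀' d0] at h3
    refine lt_of_pow_lt_pow_left₀ 2 dist_nonneg ?_
    nlinarith [le_abs_self ⟪x - y, z - y⟫_ℝ, mul_le_mul_of_nonneg_left h4 d0.le,
      mul_lt_mul_of_pos_right h9 (show 0 < r ^ 2 by positivity)]
  have ev : ∀ᶠ q : ST × E in 𝓝 ((x, t), y), ∀ z ∈ sphere y r, (z, q.1.2) ∈ F.M →
      dist q.1.1 q.2 < dist q.1.1 z := by
    refine (isCompact_sphere y r).eventually_forall_of_forall_eventually fun z hz => ?_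
    by_cases hz' : (z, t) ∈ F.M
    · have h4 : ∀ᶠ k : (ST × E) × E in 𝓝 (((x, t), y), z),
          dist k.1.1.1 k.1.2 < dist k.1.1.1 k.2 :=
        ContinuousAt.eventually_lt (by fun_prop) (by fun_prop) (st z hz' hz)
      exact h4.mono fun k hk _ => hk
    · have h4 := hin z t (le_of_eq hz) (by simpa using ε0)
      have h5 : ContinuousAt (fun k : (ST × E) × E => (k.2, k.1.1.2)) (((x, t), y), z) := by
        fun_prop
      filter_upwards [h5.eventually (h.isOpen.mem_nhds h4), h5.eventually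
        ((h.sm.continuousOn.continuousAt (h.isOpen.mem_nhds h4)).eventually_ne
          fun h6 => hz' ((h.mem _ h4).2 h6))] with k h6 h7 h8
      exact absurd ((h.mem _ h6).1 h8) h7
  have e1 : ∀ᶠ q : ST × E in 𝓝 ((x, t), y), dist q.2 y < r :=
    ContinuousAt.eventually_lt (by fun_prop) (by fun_prop) (by simpa using r0)
  have e2 : ∀ᶠ q : ST × E in 𝓝 ((x, t), y), dist q.1.2 t < ε :=
    ContinuousAt.eventually_lt (by fun_prop) (by fun_prop) (by simpa using ε0)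
  have e3 : ∀ᶠ q : ST × E in 𝓝 ((x, t), y), r < dist q.1.1 y :=
    ContinuousAt.eventually_lt (by fun_prop) (by fun_prop) hr.2.2
  filter_upwards [ev, e1, e2, e3] with q q1 q2 q3 q4 hq
  have hK : IsCompact {z ∈ closedBall y r | φ (z, q.1.2) = 0} :=
    (isCompact_closedBall y r).of_isClosed_subset (isClosed_closedBall.isClosed_eq
      (h.sm.continuousOn.comp (f := fun z : E => (z, q.1.2)) (by fun_prop)
        fun z hz => hin z _ hz q3) continuousOn_const) fun z hz => hz.1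
  have hy : q.2 ∈ {z ∈ closedBall y r | φ (z, q.1.2) = 0} :=
    ⟨q2.le, (h.mem _ (hin _ _ q2.le q3)).1 hq⟩
  obtain ⟨z, hz, hm⟩ := hK.exists_isMinOn ⟨_, hy⟩ (f := fun z => dist q.1.1 z) (by fun_prop)
  have hzM := (h.mem _ (hin _ _ hz.1 q3)).2 hz.2
  have h4 : dist q.1.1 z ≤ dist q.1.1 q.2 := hm hy
  have h5 : dist z y < r := lt_of_le_of_ne hz.1 fun e => (q1 z e hzM).not_ge h4
  refine ⟨z, hzM, fun e => ?_, crit_of_min hF hzM _ ?_, h4⟩
  · rw [e] at h5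
    linarith
  · filter_upwards [isOpen_ball.mem_nhds (show z ∈ ball y r from h5)] with z' h6 h7
    have h8 : dist z' y ≤ r := le_of_lt h6
    exact hm (a := z') ⟨h8, (h.mem _ (hin _ _ h8 q3)).1 h7⟩

end Crest.Agent.N250.A

end
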