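import Crest.Agent.N250.A.Cost

/-!
# Row 250, block A (helper37): the `|A|²` part of the potential; averaging of the small lags
-/

set_option autoImplicit false
open MeasureTheory Set Filter Topology
open scoped ContDiff InnerProductSpace
open Crest.GeometryTopology.MCF

noncomputable section

namespace Crest.Agent.N250.A.Cost

open PC

variable {F : Mv} {a Λ G C : ℝ} {m : Measure ST}

/-- splitting the past of `t - l` into dyadic windows of the lag -/
theorem dyadic' (hm : IsStm F m) (f : ST → ENNReal) (a₀ t : ℝ) {l : ℝ} (hl : 0 < l) :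
    ∫⁻ q in Sl a₀ (t - l), f q ∂m ≤
      ∑' j : ℕ, ∫⁻ q in Sl (max a₀ (t - 2 ^ (j + 1) * l)) (t - 2 ^ j * l), f q ∂m := by
  refine le_trans (lintegral_mono_set' ?_) (lintegral_iUnion_le _ _)
  filter_upwards [ae_all_iff.2 fun j : ℕ => stm_ne hm (t - 2 ^ j * l)] with q hq h
  obtain ⟨j, h1, h2⟩ := exists_nat_pow_near (x := (t - q.2) / l) (y := 2)
    (by rw [le_div_iff₀ hl]; linarith [h.2]) one_lt_two
  rw [le_div_iff₀ hl] at h1
  rw [div_lt_iff₀ hl] at h2
  exact mem_iUnion.2 ⟨j, max_lt h.1 (by linarith), lt_of_le_of_ne (by linarith) (hq j)⟩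

theorem damp_le {s t : ℝ} (hst : s < t) (ht : t < 0) :
    1 - ((t - s) / s) ^ 2 ≤ 2 * -t / (t - s) := by
  have hs : s < 0 := hst.trans ht
  have h1 : 1 - ((t - s) / s) ^ 2 = -t * (-s + (t - s)) / s ^ 2 := by
    have := hs.ne
    field_simp
    ring
  rw [h1, div_le_div_iff₀ (by nlinarith) (by linarith)]
  have h2 : (-s + (t - s)) * (t - s) ≤ 2 * s ^ 2 := by nlinarith
  nlinarith

/-- the damped `|A|²` potential of the lags `> l` grows like `log (θ / l)` -/
theorem Blk.old (hB : Blk Λ G C) (hC : 0 ≤ C) (hF : Cpt F a Λ G) (hm : IsStm F m) {a₀ σ l : ℝ}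
    (ha : a < a₀) (hσ : 0 < σ) (hσl : σ ≤ l) {p : ST} (hp : p.2 < 0) {N : ℕ}
    (hN : -p.2 ≤ 2 ^ N * l) :
    ∫⁻ q in Sl a₀ (p.2 - l), ENNReal.ofReal (gau q.1 (p.2 - q.2 + σ) p.1 *
      (F.A2 q * (1 - ((p.2 - q.2) / q.2) ^ 2))) ∂m ≤ ENNReal.ofReal (2 * C * (N + 3)) := by
  have hl : 0 < l := hσ.trans_le hσl
  refine (dyadic' hm _ a₀ p.2 hl).trans ?_
  have key : ∀ (j : ℕ) (d : ℝ), 0 ≤ d → (1 ≤ d ∨ 2 * 2 ^ N / 2 ^ j ≤ d) →
      ∫⁻ q in Sl (max a₀ (p.2 - 2 ^ (j + 1) * l)) (p.2 - 2 ^ j * l), ENNReal.ofReal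
        (gau q.1 (p.2 - q.2 + σ) p.1 * (F.A2 q * (1 - ((p.2 - q.2) / q.2) ^ 2))) ∂m ≤
        ENNReal.ofReal (2 * C * d) := by
    intro j d hd0 hd
    have hL : 0 < 2 ^ j * l := by positivity
    have h1 : l ≤ 2 ^ j * l := le_mul_of_one_le_left hl.le (one_le_pow₀ one_le_two)
    have e : (2 : ℝ) ^ (j + 1) * l = 2 * (2 ^ j * l) := by ring
    rw [e]
    have := hB.wt hF hm p.1 (t₁ := max a₀ (p.2 - 2 * (2 ^ j * l))) (t₂ := p.2 - 2 ^ j * l)
      (L := 2 * (2 ^ j * l)) (ha.trans_le (le_max_left _ _)) (by linarith) (by positivity)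
      (by linarith [le_max_right a₀ (p.2 - 2 * (2 ^ j * l))]) (K := (2 ^ j * l)⁻¹ * d)
      (by positivity) (w := fun q => gau q.1 (p.2 - q.2 + σ) p.1 *
        (F.A2 q * (1 - ((p.2 - q.2) / q.2) ^ 2))) fun q hq => by
        have q1 : p.2 - 2 * (2 ^ j * l) < q.2 := (le_max_right _ _).trans_lt hq.1
        have q2 : q.2 < p.2 - 2 ^ j * l := hq.2
        have hτ : 0 < p.2 - q.2 + σ := by linarith
        have g1 := gau_le_exp q.1 p.1 hτ (L := 2 * (2 ^ j * l)) (by linarith)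
        have g0 : (p.2 - q.2 + σ)⁻¹ ≤ (2 ^ j * l)⁻¹ := inv_anti₀ hL (by linarith)
        have hq' : q.2 < p.2 := by linarith
        have g2 : 1 - ((p.2 - q.2) / q.2) ^ 2 ≤ d := by
          rcases hd with hd | hd
          · exact (damp_mem hq' hp).2.trans hd
          · refine (damp_le hq' hp).trans (le_trans ?_ hd)
            rw [div_le_div_iff₀ (by linarith) (by positivity)]
            have h2 : -p.2 * 2 ^ j ≤ 2 ^ N * l * 2 ^ j := by gcongr
            have h3 : (2 : ℝ) ^ N * (2 ^ j * l) ≤ 2 ^ N * (p.2 - q.2) := by gcongr; linarith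
            nlinarith
        have hA := A2_nonneg F q
        have g3 := (damp_mem hq' hp).1
        calc _ ≤ (2 ^ j * l)⁻¹ * Real.exp (-‖q.1 - p.1‖ ^ 2 / (8 * (2 * (2 ^ j * l)))) *
              (F.A2 q * d) := by
              refine mul_le_mul (g1.trans ?_) (by gcongr) (by positivity) (by positivity)
              gcongr
          _ = _ := by ring
    refine this.trans (le_of_eq ?_)
    congr 1
    field_simp
  rw [← ENNReal.summable.sum_add_tsum_nat_add' (k := N + 1)]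
  have hs : HasSum (fun j : ℕ => 2 * C * (1 / 2 : ℝ) ^ j) (2 * C * 2) :=
    hasSum_geometric_two.mul_left _
  rw [show 2 * C * ((N : ℝ) + 3) = ((N + 1 : ℕ) : ℝ) * (2 * C * 1) + 2 * C * 2 by push_cast; ring,
    ENNReal.ofReal_add (by positivity) (by positivity)]
  refine add_le_add ?_ ?_
  · refine (Finset.sum_le_card_nsmul _ _ _ fun j _ => key j 1 zero_le_one (Or.inl le_rfl)).trans ?_
    rw [Finset.card_range, nsmul_eq_mul, ENNReal.ofReal_mul (Nat.cast_nonneg _),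
      ENNReal.ofReal_natCast]
  · rw [← hs.tsum_eq, ENNReal.ofReal_tsum_of_nonneg (fun j => by positivity) hs.summable]
    refine ENNReal.tsum_le_tsum fun j => key _ _ (by positivity) (Or.inr (le_of_eq ?_))
    rw [one_div, inv_pow]
    field_simp
    ring

/-- the kernel integrated over a ball of a slice -/
theorem lint_ball {μ : Measure E} (hΛ : 0 ≤ Λ) (h : Gau.Rat μ Λ) (x y : E) {τ l R : ℝ}
    (hτ : 0 < τ) (hl : τ ≤ 2 * l) :
    ∫⁻ z in Metric.ball x R, ENNReal.ofReal (gau y τ z) ∂μ ≤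
      ENNReal.ofReal (Gau.C0 * Λ * Real.exp (R ^ 2 / (16 * l))) *
        ENNReal.ofReal (Real.exp (-‖y - x‖ ^ 2 / (8 * (4 * l)))) := by
  have hl0 : 0 < l := by linarith
  have hC := Gau.C0_nonneg
  set K := τ⁻¹ * (Real.exp (R ^ 2 / (16 * l)) * Real.exp (-‖y - x‖ ^ 2 / (8 * (4 * l)))) with hK
  have hK0 : 0 ≤ K := by positivity
  calc _ ≤ ∫⁻ z in Metric.ball x R, ENNReal.ofReal K *
        ENNReal.ofReal (Real.exp (-‖z - y‖ ^ 2 / (8 * τ))) ∂μ := by
        refine setLIntegral_mono' Metric.isOpen_ball.measurableSet fun z hz => ?_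
        rw [← ENNReal.ofReal_mul hK0]
        refine ENNReal.ofReal_le_ofReal ?_
        have h1 : (4 * Real.pi * τ)⁻¹ ≤ τ⁻¹ :=
          inv_anti₀ hτ (le_mul_of_one_le_left hτ.le (by linarith [Real.pi_gt_three]))
        rw [hK, mul_assoc, ← Real.exp_add, ← Real.exp_add]
        refine mul_le_mul h1 (Real.exp_le_exp.2 ?_) (Real.exp_pos _).le (by positivity)
        rw [mem_ball_iff_norm] at hz
        have h2 : ‖y - x‖ ≤ ‖z - y‖ + ‖z - x‖ := by
          rw [norm_sub_rev z y]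
          exact norm_sub_le_norm_sub_add_norm_sub y z x
        have h3 : ‖y - x‖ ^ 2 ≤ 2 * ‖z - y‖ ^ 2 + 2 * R ^ 2 := by
          have a1 := norm_nonneg (y - x)
          have a2 := norm_nonneg (z - x)
          have a3 := norm_nonneg (z - y)
          nlinarith [sq_nonneg (‖z - y‖ - ‖z - x‖)]
        have h4 : ‖z - y‖ ^ 2 / (16 * l) ≤ ‖z - y‖ ^ 2 / (8 * τ) :=
          div_le_div_of_nonneg_left (sq_nonneg _) (by positivity) (by linarith)
        have h5 : ‖y - x‖ ^ 2 / (8 * (4 * l)) ≤ ‖z - y‖ ^ 2 / (16 * l) + R ^ 2 / (16 * l) := by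
          rw [← add_div, div_le_div_iff₀ (by positivity) (by positivity)]
          nlinarith
        have h6 : -‖z - y‖ ^ 2 / (4 * τ) = -(‖z - y‖ ^ 2 / (8 * τ)) - ‖z - y‖ ^ 2 / (8 * τ) := by
          field_simp
          ring
        rw [h6, neg_div, neg_div]
        linarith
    _ ≤ ENNReal.ofReal K * ENNReal.ofReal (Gau.C0 * Λ * τ) := by
        rw [lintegral_const_mul' _ _ ENNReal.ofReal_ne_top]
        exact mul_le_mul_right ((setLIntegral_le_lintegral _ _).trans (Gau.lint_exp hΛ h y hτ)) _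
    _ = _ := by
        rw [← ENNReal.ofReal_mul hK0, ← ENNReal.ofReal_mul (by positivity), hK]
        congr 1
        field_simp

/-- averaging the potential of the small lags over a ball of a slice -/
theorem small_avg {μ : Measure E} (hΛ : 0 ≤ Λ) (h : Gau.Rat μ Λ) (ν : Measure ST) [SFinite ν]
    (x : E) {t σ l R : ℝ} (hR : 0 < R) {w : ST → ENNReal} (hw : AEMeasurable w ν)
    (hν : ∀ᵐ q ∂ν, 0 < t - q.2 + σ ∧ t - q.2 + σ ≤ 2 * l) :
    AEMeasurable (fun z => ∫⁻ q, ENNReal.ofReal (gau q.1 (t - q.2 + σ) z) * w q ∂ν)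
      (μ.restrict (Metric.ball x R)) ∧
    ∫⁻ z in Metric.ball x R, ∫⁻ q, ENNReal.ofReal (gau q.1 (t - q.2 + σ) z) * w q ∂ν ∂μ ≤
      ENNReal.ofReal (Gau.C0 * Λ * Real.exp (R ^ 2 / (16 * l))) *
        ∫⁻ q, ENNReal.ofReal (Real.exp (-‖q.1 - x‖ ^ 2 / (8 * (4 * l)))) * w q ∂ν := by
  have : IsFiniteMeasure (μ.restrict (Metric.ball x R)) :=
    ⟨by rw [Measure.restrict_apply_univ]; exact (h x R hR).trans_lt ENNReal.ofReal_lt_top⟩
  have hg : Measurable fun z : E × ST => ENNReal.ofReal (gau z.2.1 (t - z.2.2 + σ) z.1) := by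
    unfold gau
    fun_prop
  have hme : AEMeasurable (Function.uncurry fun (z : E) (q : ST) =>
      ENNReal.ofReal (gau q.1 (t - q.2 + σ) z) * w q) ((μ.restrict (Metric.ball x R)).prod ν) :=
    hg.aemeasurable.mul hw.comp_snd
  refine ⟨hme.lintegral_prod_right', ?_⟩
  rw [lintegral_lintegral_swap hme, ← lintegral_const_mul' _ _ ENNReal.ofReal_ne_top]
  refine lintegral_mono_ae ?_
  filter_upwards [hν] with q hq
  have hq' : Measurable fun z : E => ENNReal.ofReal (gau q.1 (t - q.2 + σ) z) :=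
    (Gau.gau_cont _ _).measurable.ennreal_ofReal
  rw [lintegral_mul_const _ hq', ← mul_assoc]
  exact mul_le_mul_left (lint_ball hΛ h x q.1 hq.1 hq.2) _

/-- Chebyshev for the small lags -/
theorem small_cheb {μ : Measure E} (hΛ : 0 ≤ Λ) (h : Gau.Rat μ Λ) (ν : Measure ST) [SFinite ν]
    (x : E) {t σ l R : ℝ} (hR : 0 < R) {w : ST → ENNReal} (hw : AEMeasurable w ν)
    (hν : ∀ᵐ q ∂ν, 0 < t - q.2 + σ ∧ t - q.2 + σ ≤ 2 * l) (K : ENNReal) :
    K * μ ({z | K ≤ ∫⁻ q, ENNReal.ofReal (gau q.1 (t - q.2 + σ) z) * w q ∂ν} ∩ Metric.ball x R) ≤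
      ENNReal.ofReal (Gau.C0 * Λ * Real.exp (R ^ 2 / (16 * l))) *
        ∫⁻ q, ENNReal.ofReal (Real.exp (-‖q.1 - x‖ ^ 2 / (8 * (4 * l)))) * w q ∂ν := by
  obtain ⟨h1, h2⟩ := small_avg hΛ h ν x hR hw hν
  refine le_trans ?_ h2
  rw [← Measure.restrict_apply' Metric.isOpen_ball.measurableSet]
  exact mul_meas_ge_le_lintegral₀ h1 K

end Crest.Agent.N250.A.Cost

end
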